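import Vale.Agent.P305F.Mcf

/-!
# Flow: the interface of the solver for bipartite matching
-/

namespace Vale.Agent.P305F

open Vale.Agent.P305E

/-- `l` is a matching inside the edge list `E` (pairs: left end, right end). -/
def IsBM (E l : List (ℕ × ℕ)) : Prop :=
  (∀ p ∈ l, p ∈ E) ∧ (l.map Prod.fst).Nodup ∧ (l.map Prod.snd).Nodup

/-- A largest matching. -/
def MaxBM (E l : List (ℕ × ℕ)) : Prop := IsBM E l ∧ ∀ l', IsBM E l' → l'.length ≤ l.length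

/-- Maximum matchings of bipartite graphs given by edge lists (left ends below `nL`, right ends
below `nR`). -/
structure BipOK (bip : ℕ → ℕ → ℕ → List (ℕ × ℕ) → M (List (ℕ × ℕ))) (c : ℕ) (g : ℕ → ℕ) :
    Prop where
  impl : Impl fun p : ℕ × ℕ × ℕ × List (ℕ × ℕ) => bip p.1 p.2.1 p.2.2.1 p.2.2.2
  sub : ∀ a, Sub fun N => g (a * Nat.size N + a)
  mono : Monotone g
  spec : ∀ (B b nL nR : ℕ) (E : List (ℕ × ℕ)), (∀ p ∈ E, p.1 < nL ∧ p.2 < nR) →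
    nL + nR + E.length ≤ 2 ^ b → 2 ^ (c * (b + 1)) ≤ B →
    ∀ (F : List (ℕ × ℕ) → ℕ → ℝ) (C₀ τ : ℝ), 0 ≤ τ → 0 ≤ C₀ → (∀ l t, F l t ≤ 1) →
      (∀ l t, MaxBM E l → F l t ≤ C₀ + τ * t) →
      wp B (bip b nL nR E) F 1 ≤ C₀ + τ * ((nL + nR + E.length + 1) * g b : ℕ) + 1 / 2 ^ b

end Vale.Agent.P305F
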