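import Vale.Agent.P305F.End2
import Vale.Agent.P305E.WpLoop

/-!
# Flow, end, part 1: the perturbed network and isolation
-/

namespace Vale.Agent.P305F

open Vale.Agent.P305E Finset

/-- Cost bound of the perturbed network. -/
def pC (wb C F : ℕ) : ℕ := 2 ^ wb * (C * F + 1) * C + 2 ^ wb
/-- Flow bound of the perturbed network. -/
def pF (m F : ℕ) : ℕ := (m + 1) * F + m

namespace Net

/-- One unit on each arc from the root to another vertex. -/
def chi (N : Net) (e : ℕ) : ℕ := if N.tl.get e = 0 ∧ N.hd.get e ≠ 0 then 1 else 0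

/-- The perturbed network. -/
def pert (N : Net) (Big : ℕ) (w : Arr ℕ) : Net :=
  ⟨N.n, N.m, N.tl, N.hd, ⟨fun e => if e < N.m then Big * N.c.get e + w.get e else 0⟩,
    ⟨fun e => if e < N.m then (N.m + 1) * N.f0.get e + N.chi e else 0⟩⟩

variable {N : Net} {Big C F wb : ℕ} {w : Arr ℕ}

@[simp] theorem pert_n : (N.pert Big w).n = N.n := rfl
@[simp] theorem pert_m : (N.pert Big w).m = N.m := rfl
@[simp] theorem pert_tl : (N.pert Big w).tl = N.tl := rfl
@[simp] theorem pert_hd : (N.pert Big w).hd = N.hd := rfl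
theorem pert_c {e : ℕ} (he : e < N.m) : (N.pert Big w).c.get e = Big * N.c.get e + w.get e :=
  if_pos he
theorem pert_f0 {e : ℕ} (he : e < N.m) :
    (N.pert Big w).f0.get e = (N.m + 1) * N.f0.get e + N.chi e := if_pos he
theorem chi_le (e : ℕ) : N.chi e ≤ 1 := by unfold chi; split_ifs <;> omega

theorem pert_gd {o : List (ℕ × ℕ)} : (N.pert Big w).Gd o ↔ N.Gd o := by
  induction o with
  | nil => rfl
  | cons p o ih => simp only [Gd, ih, pert_m, pert_tl, pert_hd]

theorem sum_chi_le : ∑ e ∈ range N.m, N.chi e ≤ N.m := by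
  simpa using sum_le_card_nsmul (range N.m) N.chi 1 fun e _ => chi_le e

theorem pert_OK (h : N.OK C F) (hw : ∀ e, w.get e < 2 ^ wb) :
    (N.pert (2 ^ wb * (C * F + 1)) w).OK (pC wb C F) (pF N.m F) := by
  refine ⟨h.npos, h.tl_lt, h.hd_lt, fun e he => ?_, fun e he => ?_, ?_, h.out, h.inn⟩
  · rw [pert_c (N := N) he]
    have := h.c_pos e he
    have : 0 < 2 ^ wb * (C * F + 1) * N.c.get e := by positivity
    omega
  · rw [pert_c (N := N) he]
    have := Nat.mul_le_mul_left (2 ^ wb * (C * F + 1)) (h.c_le e he)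
    have := hw e
    unfold pC
    omega
  · rw [pert_m, sum_congr rfl fun e he => pert_f0 (mem_range.1 he), sum_add_distrib, ← mul_sum]
    exact add_le_add (Nat.mul_le_mul_left _ h.f_le) sum_chi_le

/-- The support of a flow of the perturbed network connects all vertices. -/
theorem pert_conn (h : N.OK C F) {f : ℕ → ℕ} (hf : (N.pert Big w).IsFlow f) {S : ℕ → Prop}
    (h0 : S 0) (hS : ∀ e < N.m, f e ≠ 0 → (S (N.tl.get e) ↔ S (N.hd.get e))) {v : ℕ}
    (hv : v < N.n) : S v := by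
  classical
  by_contra hn
  set d : ℕ → ℤ := fun e => (if S (N.hd.get e) then (0 : ℤ) else 1) -
    if S (N.tl.get e) then (0 : ℤ) else 1 with hd
  have h1 : ∑ e ∈ range N.m, ((f e : ℤ) - (N.pert Big w).f0.get e) * d e = 0 :=
    (isFlow_circ.1 hf).sum_eq (N := N.pert Big w) h.ends fun u => if S u then (0 : ℤ) else 1
  have h2 : ∑ e ∈ range N.m, ((f e : ℤ) - (N.pert Big w).f0.get e) * d e =
      -(((N.m : ℤ) + 1) * ∑ e ∈ range N.m, (N.f0.get e : ℤ) * d e +
        ∑ e ∈ range N.m, (N.chi e : ℤ) * d e) := by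
    rw [mul_sum, ← sum_add_distrib, ← sum_neg_distrib]
    refine sum_congr rfl fun e he => ?_
    rw [pert_f0 (mem_range.1 he)]
    have : (f e : ℤ) * d e = 0 := by
      by_cases h3 : f e = 0
      · simp [h3]
      · simp [hd, hS e (mem_range.1 he) h3]
    push_cast
    linear_combination this
  have h3 : ∀ e ∈ range N.m, 0 ≤ (N.chi e : ℤ) * d e ∧ (N.chi e : ℤ) * d e ≤ 1 := fun e _ => by
    simp only [chi, hd]
    by_cases a : N.tl.get e = 0 ∧ N.hd.get e ≠ 0
    · simp only [a.1, h0, if_true]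
      split_ifs <;> norm_num
    · simp [if_neg a]
  have h4 : ∑ e ∈ range N.m, (N.chi e : ℤ) * d e ≤ N.m := by
    simpa using sum_le_card_nsmul (range N.m) _ 1 fun e he => (h3 e he).2
  have hv0 : v ≠ 0 := fun e => hn (e ▸ h0)
  obtain ⟨e, he, a, b⟩ := h.out v hv hv0
  have h5 := single_le_sum (fun e he => (h3 e he).1) (mem_range.2 he)
  have h6 : (N.chi e : ℤ) * d e = 1 := by simp [chi, hd, a, b, hv0, hn, h0]
  rw [h2] at h1
  generalize ∑ e ∈ range N.m, (N.f0.get e : ℤ) * d e = z at h1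
  rcases le_or_gt 0 z with hz | hz <;> nlinarith

/-- `l` is the support of the unique optimal flow. -/
def Supp (N : Net) (l : List ℕ) : Prop := ∃ f, N.UOpt f ∧ ∀ e, e ∈ l ↔ e < N.m ∧ f e ≠ 0

theorem supp_of_tight (h : N.OK C F) {f : ℕ → ℕ} (hf : (N.pert Big w).UOpt f) {ys y : ℕ → ℝ}
    (hys : (N.pert Big w).DOpt ys) (hy : (N.pert Big w).Pos y)
    (hg : (N.pert Big w).obj y - (N.pert Big w).obj ys < 1 / 2) {l : List ℕ}
    (hl : (N.pert Big w).Tight y l) : (N.pert Big w).Supp l := by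
  obtain ⟨o, h1, h2, h3⟩ := exists_gd h.ends h.npos fun e => f e ≠ 0
  exact ⟨f, hf, hf.tight (N := N.pert Big w) h.ends (pert_gd.2 h1) h2
    (fun u hu => pert_conn h hf.1.1 (Or.inl rfl) h3 hu) hys hy hg hl⟩

/-- The flow of the original network on the tree is nonnegative. -/
theorem tree_nonneg (h : N.OK C F) {f : ℕ → ℕ} (hf : (N.pert Big w).UOpt f) {o : List (ℕ × ℕ)}
    (ho : N.Gd o) (hs : ∀ e, ar o e → f e ≠ 0) (hv : ∀ u < N.n, vs o u) {g : ℕ → ℤ}
    (hg : N.Circ g) (hz : ∀ e < N.m, ¬ ar o e → N.f0.get e + g e = 0) {e : ℕ} (he : e < N.m) :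
    0 ≤ N.f0.get e + g e := by
  by_cases hx : ar o e
  · have h1 := ho.abs_le h.ends (g := fun e => (f e : ℤ) - (N.m + 1) * (N.f0.get e + g e))
      (k := fun e => N.chi e) (fun e he hx => by
        simp [hz e he hx, hf.off_zero (N := N.pert Big w) h.ends (pert_gd.2 ho) hs hv he hx])
      (fun v hv => by
        have b : ∑ e ∈ range N.m, ((f e : ℤ) - (N.pert Big w).f0.get e) * N.inc e v = 0 :=
          hf.1.1 v hv
        have a := congrArg₂ (fun x y : ℤ => x - (N.m + 1) * y) b (hg v hv)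
        simp only [mul_zero, sub_zero, mul_sum, ← sum_sub_distrib] at a
        refine Eq.trans (sum_congr rfl fun e he => ?_) a
        rw [pert_f0 (mem_range.1 he)]
        push_cast
        ring) hx
    have h2 : ∑ e ∈ range N.m, |(N.chi e : ℤ)| ≤ N.m := by
      simp only [Nat.abs_cast]
      exact_mod_cast sum_chi_le
    have h3 := (abs_le.1 (h1.trans h2)).2
    by_contra h4
    have h5 : (0 : ℤ) ≤ f e := Int.natCast_nonneg _
    nlinarith
  · exact (hz e he hx).ge

theorem isFlow_f0 : N.IsFlow N.f0.get := fun v _ => by simp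

theorem cost_f0 (h : N.OK C F) : N.cost N.f0.get ≤ C * F :=
  le_trans (sum_le_sum fun e he => Nat.mul_le_mul_right _ (h.c_le e (mem_range.1 he)))
    (by rw [← mul_sum]; exact Nat.mul_le_mul_left _ h.f_le)

theorem pert_cost (f : ℕ → ℕ) :
    (N.pert Big w).cost f = Big * N.cost f + ∑ e ∈ range N.m, w.get e * f e := by
  simp only [cost, pert_m, mul_sum, ← sum_add_distrib]
  refine sum_congr rfl fun e he => ?_
  rw [pert_c (mem_range.1 he)]
  ring

/-- A flow with complementary feasible potentials for the perturbed costs is optimal. -/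
theorem opt_of_check (h : N.OK C F) (hw : ∀ e, w.get e < 2 ^ wb) {f : ℕ → ℕ} (hf : N.IsFlow f)
    {y : ℕ → ℝ} (hy : (N.pert (2 ^ wb * (C * F + 1)) w).Feas y)
    (hc : ∀ e < N.m, f e ≠ 0 → (N.pert (2 ^ wb * (C * F + 1)) w).sl y e = 0) : N.OptFlow f := by
  set N' := N.pert (2 ^ wb * (C * F + 1)) w with hN'
  have key : ∀ g, N.IsFlow g → N.cost g ≤ C * F → N.cost f ≤ N.cost g := by
    intro g hg hgc
    have h1 : N'.Circ fun e => (g e : ℤ) - f e := fun v hv => by
      have a := congrArg₂ (· - ·) (hg v hv) (hf v hv)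
      simp only [sub_zero, ← sum_sub_distrib] at a
      refine Eq.trans (sum_congr rfl fun e _ => ?_) a
      simp only [inc, hN', pert_hd, pert_tl]
      ring
    have h2 := h1.sum_sl (N := N') h.ends y
    have h3 : (0 : ℝ) ≤ ∑ e ∈ range N'.m, (((g e : ℤ) - f e : ℤ) : ℝ) * N'.sl y e :=
      sum_nonneg fun e he => by
        by_cases h4 : f e = 0
        · exact mul_nonneg (by simp [h4]) (hy e (mem_range.1 he))
        · simp [hc e (mem_range.1 he) h4]
    rw [h2] at h3
    have h4 : N'.cost f ≤ N'.cost g := by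
      have h5 : (0 : ℤ) ≤ ∑ e ∈ range N'.m, (N'.c.get e : ℤ) * ((g e : ℤ) - f e) := by
        exact_mod_cast h3
      simp only [mul_sub, sum_sub_distrib, sub_nonneg] at h5
      unfold cost
      exact_mod_cast h5
    rw [pert_cost, pert_cost] at h4
    have h5 : ∑ e ∈ range N.m, w.get e * g e ≤ 2 ^ wb * N.cost g := by
      rw [cost, mul_sum]
      refine sum_le_sum fun e he => Nat.mul_le_mul (hw e).le ?_
      exact Nat.le_mul_of_pos_left _ (h.c_pos e (mem_range.1 he))
    have h6 := Nat.mul_le_mul_left (2 ^ wb) hgc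
    have h7 : 0 < 2 ^ wb := by positivity
    by_contra h8
    have h9 := Nat.mul_le_mul_left (2 ^ wb * (C * F + 1)) (Nat.add_one_le_of_lt (not_le.1 h8))
    rw [mul_add, mul_one] at h9
    have h10 : 2 ^ wb * (C * F + 1) = 2 ^ wb * (C * F) + 2 ^ wb := by ring
    omega
  refine ⟨hf, fun g hg => ?_⟩
  by_cases h1 : N.cost g ≤ C * F
  · exact key g hg h1
  · exact (key _ isFlow_f0 (cost_f0 h)).trans ((cost_f0 h).trans (not_le.1 h1).le)

theorem exists_opt (N : Net) : ∃ f, N.OptFlow f := by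
  classical
  have h : ∃ k, ∃ f, N.IsFlow f ∧ N.cost f = k := ⟨_, _, isFlow_f0, rfl⟩
  obtain ⟨f, h1, h2⟩ := Nat.find_spec h
  exact ⟨f, h1, fun g hg => h2 ▸ Nat.find_min' h ⟨g, hg, rfl⟩⟩

/-- Two optimal flows differ on the arc `e`. -/
def Amb (N : Net) (e : ℕ) : Prop := ∃ f g, N.OptFlow f ∧ N.OptFlow g ∧ f e < g e

theorem amb_of_not (N : Net) (h : ¬ ∃ f, N.UOpt f) : ∃ e < N.m, N.Amb e := by
  obtain ⟨f, hf⟩ := N.exists_opt
  by_contra hn
  refine h ⟨f, hf, fun g hg e he => by_contra fun hne => hn ⟨e, he, ?_⟩⟩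
  rcases lt_or_gt_of_ne hne with h1 | h1
  · exact ⟨g, f, hg, hf, h1⟩
  · exact ⟨f, g, hf, hg, h1⟩

theorem opt_le (h : N.OK C F) (hw : ∀ e, w.get e < 2 ^ wb) {f : ℕ → ℕ}
    (hf : (N.pert (2 ^ wb * (C * F + 1)) w).OptFlow f) {e : ℕ} (he : e < N.m) :
    f e ≤ (C + 1) * pF N.m F := by
  have h1 := (hf.2 _ isFlow_f0).trans (cost_f0 (pert_OK h hw))
  rw [pert_cost] at h1
  have h2 : f e ≤ N.cost f := le_trans (Nat.le_mul_of_pos_left _ (h.c_pos e he))
    (single_le_sum (f := fun e => N.c.get e * f e) (fun _ _ => Nat.zero_le _) (mem_range.2 he))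
  have h3 : pC wb C F ≤ 2 ^ wb * (C * F + 1) * (C + 1) := by unfold pC; nlinarith [Nat.zero_le (2 ^ wb * (C * F))]
  have h4 := Nat.mul_le_mul_right (pF N.m F) h3
  have h5 := Nat.mul_le_mul_left (2 ^ wb * (C * F + 1)) h2
  refine Nat.le_of_mul_le_mul_left (c := 2 ^ wb * (C * F + 1)) ?_ (by positivity)
  rw [← mul_assoc]
  omega

theorem opt_anti {e x x' : ℕ} (he : e < N.m) (hx : x < x') {f f' : ℕ → ℕ}
    (hf : (N.pert Big (w.set e x)).OptFlow f) (hf' : (N.pert Big (w.set e x')).OptFlow f') :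
    f' e ≤ f e := by
  have key : ∀ (x : ℕ) (g : ℕ → ℕ), ∑ j ∈ range N.m, (w.set e x).get j * g j =
      x * g e + ∑ j ∈ (range N.m).erase e, w.get j * g j := by
    intro x g
    rw [← add_sum_erase _ _ (mem_range.2 he), Arr.get_set_self]
    exact congrArg _ (sum_congr rfl fun j hj => by rw [Arr.get_set_ne _ (ne_of_mem_erase hj)])
  have h1 := hf.2 f' hf'.1
  have h2 := hf'.2 f hf.1
  simp only [pert_cost, key] at h1 h2
  nlinarith

open Classical in
/-- Isolation: few values of the weight of an arc are bad. -/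
theorem card_amb (h : N.OK C F) (w : Arr ℕ) {e : ℕ} (he : e < N.m) :
    ((range (2 ^ wb)).filter fun x => (∀ j, (w.set e x).get j < 2 ^ wb) ∧
      (N.pert (2 ^ wb * (C * F + 1)) (w.set e x)).Amb e).card ≤ (C + 1) * pF N.m F := by
  have h1 : ∀ x, ∃ k, (∀ j, (w.set e x).get j < 2 ^ wb) ∧
      (N.pert (2 ^ wb * (C * F + 1)) (w.set e x)).Amb e → ∃ f g,
      (N.pert (2 ^ wb * (C * F + 1)) (w.set e x)).OptFlow f ∧
      (N.pert (2 ^ wb * (C * F + 1)) (w.set e x)).OptFlow g ∧ f e = k ∧ k < g e := by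
    intro x
    by_cases hx : (N.pert (2 ^ wb * (C * F + 1)) (w.set e x)).Amb e
    · obtain ⟨f, g, a, b, c⟩ := hx
      exact ⟨f e, fun _ => ⟨f, g, a, b, rfl, c⟩⟩
    · exact ⟨0, fun h => absurd h.2 hx⟩
  choose k hk using h1
  rw [← card_range ((C + 1) * pF N.m F)]
  refine card_le_card_of_injOn k (fun x hx => ?_) fun x hx x' hx' hkk => ?_
  · have hx := (mem_filter.1 hx).2
    obtain ⟨f, g, -, b, -, d⟩ := hk x hx
    exact mem_range.2 (d.trans_le (opt_le h hx.1 b he))
  · obtain ⟨f, g, a, b, c, d⟩ := hk x (mem_filter.1 hx).2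
    obtain ⟨f', g', a', b', c', d'⟩ := hk x' (mem_filter.1 hx').2
    rcases lt_trichotomy x x' with h2 | h2 | h2
    · have := opt_anti he h2 a b'
      omega
    · exact h2
    · have := opt_anti he h2 a' b
      omega

end Net

/-! ### Arrays of results of computations -/

/-- The array of the results of `g 0, …, g (m - 1)`. -/
def tabM {β : Type} (g : ℕ → M β) (d : β) (m : ℕ) : M (Arr β) :=
  iterM (fun s k => g k >>= fun x => pure (s.set k x)) (Arr.const d) m

@[fun_prop] theorem Impl.tabM {α β : Type} [Rep α] [Rep β] {g : α → ℕ → M β} {d : α → β}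
    {m : α → ℕ} (hg : Impl fun p : α × ℕ => g p.1 p.2) (hd : Pure d) (hm : Pure m) :
    Impl fun a => tabM (g a) (d a) (m a) := by
  unfold P305F.tabM
  fun_prop

theorem Tri.tabM {β : Type} {c : Cx} {g : ℕ → M β} {d : β} {m T : ℕ} {P : ℕ → β → Prop}
    (h : ∀ k < m, Tri c (g k) fun x t => P k x ∧ t ≤ T) :
    Tri c (tabM g d m) fun s t =>
      (∀ k < m, P k (s.get k)) ∧ (∀ k, m ≤ k → s.get k = d) ∧ t ≤ m * (T + 1) := by
  refine Tri.iterM (fun i (s : Arr β) t => (∀ k < i, P k (s.get k)) ∧ (∀ k, i ≤ k → s.get k = d) ∧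
    t ≤ i * (T + 1)) (by simp) ?_
  rintro i s t hi ⟨h1, h2, h3⟩
  simp only [Tri_bind, Tri_pure]
  refine (h i hi).mono fun x t' hx => ⟨fun k hk => ?_, fun k hk => ?_, by nlinarith [hx.2]⟩
  · rw [Arr.get_set]
    split_ifs with e
    · exact e ▸ hx.1
    · exact h1 k (by omega)
  · rw [Arr.get_set_ne _ (by omega)]
    exact h2 k (by omega)

/-- If the mean over one coordinate is always at most `κ`, so is the expectation. -/
theorem wp_tab_rbits {B wb : ℕ} (hB : 2 ^ wb ≤ B) {e : ℕ} {κ : ℝ} (hκ : 0 ≤ κ) (m : ℕ) (he : e < m)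
    (Φ : Arr ℕ → ℝ) (h : ∀ s : Arr ℕ, (∑ x ∈ range (2 ^ wb), Φ (s.set e x)) / 2 ^ wb ≤ κ) :
    wp B (tabM (fun _ => rbits wb) 0 m) (fun s _ => Φ s) 0 ≤ κ := by
  induction m generalizing Φ with
  | zero => omega
  | succ m ih =>
    have e1 : wp B (tabM (fun _ => rbits wb) 0 (m + 1)) (fun s _ => Φ s) 0 =
        wp B (tabM (fun _ => rbits wb) 0 m)
          (fun s _ => (∑ x ∈ range (2 ^ wb), Φ (s.set m x)) / 2 ^ wb) 0 := by
      simp only [tabM, iterM_succ, wp_bind, wp_pure, wp_tick, wp_rbits hB]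
    rw [e1]
    by_cases hm : e = m
    · subst hm
      exact wp_le_const (fun s _ => h s) hκ
    · refine ih (by omega) _ fun s => ?_
      have e2 : ∀ x x', (s.set e x).set m x' = (s.set m x').set e x := fun x x' => by
        ext j
        simp only [Arr.get_set]
        split_ifs <;> first | rfl | omega
      simp only [e2, ← sum_div]
      rw [sum_comm, div_le_iff₀ (by positivity), sum_div]
      refine (sum_le_card_nsmul _ _ κ fun x _ => h _).trans (le_of_eq ?_)
      simp [mul_comm]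

open Classical in
/-- Isolation: the optimal flow of the perturbed network is unique with probability `9 / 10`. -/
theorem wp_isolate {B wb C F : ℕ} {N : Net} (h : N.OK C F) (hB : 2 ^ wb ≤ B)
    (hw : 10 * N.m * ((C + 1) * pF N.m F) ≤ 2 ^ wb) :
    wp B (tabM (fun _ => rbits wb) 0 N.m) (fun w _ => if (∀ j, w.get j < 2 ^ wb) ∧
      ¬ ∃ f, (N.pert (2 ^ wb * (C * F + 1)) w).UOpt f then 1 else 0) 0 ≤ 1 / 10 := by
  have h1 := wp_sum (B := B) (range N.m) (tabM (fun _ => rbits wb) 0 N.m)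
    (fun e w _ => if (∀ j, w.get j < 2 ^ wb) ∧ (N.pert (2 ^ wb * (C * F + 1)) w).Amb e
      then (1 : ℝ) else 0) fun _ => 0
  refine le_trans (wp_mono (fun w _ => ?_) (by simp)) (h1.le.trans ?_)
  · split_ifs with h2
    · obtain ⟨e, he, h3⟩ := Net.amb_of_not _ h2.2
      refine le_trans (le_of_eq (if_pos ⟨h2.1, h3⟩).symm) (single_le_sum (f := fun e =>
        if (∀ j, w.get j < 2 ^ wb) ∧ (N.pert (2 ^ wb * (C * F + 1)) w).Amb e then (1 : ℝ) else 0)
        (fun e _ => by split_ifs <;> norm_num) (mem_range.2 he))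
    · exact sum_nonneg fun e _ => by split_ifs <;> norm_num
  · refine (sum_le_card_nsmul _ _ ((((C + 1) * pF N.m F : ℕ) : ℝ) / 2 ^ wb) fun e he => ?_).trans ?_
    · refine wp_tab_rbits hB (by positivity) _ (mem_range.1 he) _ fun s => ?_
      refine div_le_div_of_nonneg_right ?_ (by positivity)
      rw [sum_boole]
      exact_mod_cast Net.card_amb h s (mem_range.1 he)
    · rw [card_range, nsmul_eq_mul, ← mul_div_assoc, div_le_iff₀ (by positivity)]
      have : ((10 * N.m * ((C + 1) * pF N.m F) : ℕ) : ℝ) ≤ ((2 ^ wb : ℕ) : ℝ) := by exact_mod_cast hw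
      push_cast at this ⊢
      linarith

end Vale.Agent.P305F
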