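import Vale.Agent.P305F.BipDefs
import Vale.Agent.P305F.End1

/-!
# Flow: maximum bipartite matchings from minimum-cost flows
-/

namespace Vale.Agent.P305F

open Vale.Agent.P305E Finset

namespace Net

variable {N : Net}

theorem circ_of_pos (hE : N.Ends) (hn : 0 < N.n) {g : ℕ → ℤ}
    (h : ∀ v < N.n, v ≠ 0 → ∑ e ∈ range N.m, g e * N.inc e v = 0) : N.Circ g := by
  intro v hv
  by_cases h0 : v = 0
  · subst h0
    have h1 : ∑ v ∈ range N.n, ∑ e ∈ range N.m, g e * N.inc e v = 0 := by
      rw [sum_comm]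
      refine sum_eq_zero fun e he => ?_
      obtain ⟨a, b⟩ := hE e (mem_range.1 he)
      simp [← mul_sum, inc, a, b]
    rw [← add_sum_erase _ _ (mem_range.2 hn), sum_eq_zero (s := (range N.n).erase 0)
      fun v hv => h v (mem_range.1 (mem_of_mem_erase hv)) (ne_of_mem_erase hv), add_zero] at h1
    exact h1
  · exact h v hv h0

theorem OptFlow.circ {f : ℕ → ℕ} (h : N.OptFlow f) {g : ℕ → ℤ} (hg : N.Circ g)
    (hn : ∀ e < N.m, 0 ≤ f e + g e) : 0 ≤ ∑ e ∈ range N.m, N.c.get e * g e := by
  have hc : ∀ e ∈ range N.m, (((f e + g e).toNat : ℕ) : ℤ) = f e + g e := fun e he =>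
    Int.toNat_of_nonneg (hn e (mem_range.1 he))
  have h1 : N.IsFlow fun e => (f e + g e).toNat := by
    intro v hv
    have a := congrArg₂ (· + ·) (h.1 v hv) (hg v hv)
    simp only [add_zero, ← sum_add_distrib] at a
    refine Eq.trans (sum_congr rfl fun e he => ?_) a
    rw [hc e he, inc]
    ring
  have h2 : (N.cost (fun e => (f e + g e).toNat) : ℤ) =
      N.cost f + ∑ e ∈ range N.m, N.c.get e * g e := by
    simp only [cost]
    push_cast
    rw [← sum_add_distrib]
    refine sum_congr rfl fun e he => ?_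
    rw [hc e he]
    ring
  have h3 := h.2 _ h1
  omega

/-- Two consecutive arcs of an optimal flow are not dearer than a shortcut. -/
theorem OptFlow.short {f : ℕ → ℕ} (h : N.OptFlow f) {a b d : ℕ} (ha : a < N.m) (hb : b < N.m)
    (hd : d < N.m) (hab : a ≠ b) (h1 : 1 ≤ f a) (h2 : 1 ≤ f b) (e1 : N.hd.get a = N.tl.get b)
    (e2 : N.tl.get d = N.tl.get a) (e3 : N.hd.get d = N.hd.get b) :
    N.c.get a + N.c.get b ≤ N.c.get d := by
  have key : ∀ φ : ℕ → ℤ, ∑ e ∈ range N.m, ((if e = d then 1 else 0) - (if e = a then 1 else 0) -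
      (if e = b then 1 else 0) : ℤ) * φ e = φ d - φ a - φ b := fun φ => by
    simp [sub_mul, sum_sub_distrib, ha, hb, hd]
  have h3 := h.circ (g := fun e => (if e = d then 1 else 0) - (if e = a then 1 else 0) -
      (if e = b then 1 else 0)) (fun v _ => by rw [key]; simp only [inc, e1, e2, e3]; ring)
    fun e _ => by split_ifs <;> subst_vars <;> omega
  simp only [mul_comm (N.c.get _ : ℤ), key] at h3
  omega

end Net

/-- The network of a bipartite graph with `k` edges `A 0, …, A (k - 1)`. -/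
structure BipNet (N : Net) (nL nR k : ℕ) (A : ℕ → ℕ × ℕ) : Prop where
  lt : ∀ e < k, (A e).1 < nL ∧ (A e).2 < nR
  n : N.n = nL + nR + 1
  m : N.m = k + (nL + nR) + (nL + nR)
  e1 : ∀ e < k, N.tl.get e = (A e).1 + 1 ∧ N.hd.get e = nL + (A e).2 + 1 ∧ N.c.get e = 1 ∧
    N.f0.get e = 0
  e2 : ∀ j < nL + nR, N.tl.get (k + j) = (if j < nL then j + 1 else 0) ∧
    N.hd.get (k + j) = (if j < nL then 0 else j + 1) ∧ N.c.get (k + j) = 2 ∧ N.f0.get (k + j) = 1
  e3 : ∀ j < nL + nR, N.tl.get (k + (nL + nR) + j) = (if j < nL then 0 else j + 1) ∧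
    N.hd.get (k + (nL + nR) + j) = (if j < nL then j + 1 else 0) ∧
    N.c.get (k + (nL + nR) + j) = 2 ∧ N.f0.get (k + (nL + nR) + j) = 0

/-- The flow through the edges at the vertex `j`. -/
def deg (nL k : ℕ) (A : ℕ → ℕ × ℕ) (f : ℕ → ℕ) (j : ℕ) : ℕ :=
  ∑ e ∈ range k, ((if (A e).1 = j then f e else 0) + if nL + (A e).2 = j then f e else 0)

namespace BipNet

variable {N : Net} {nL nR k : ℕ} {A : ℕ → ℕ × ℕ}

theorem cases (h : BipNet N nL nR k A) {e : ℕ} (he : e < N.m) :
    e < k ∨ (∃ j < nL + nR, e = k + j) ∨ ∃ j < nL + nR, e = k + (nL + nR) + j := by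
  rw [h.m] at he
  by_cases h1 : e < k
  · exact Or.inl h1
  by_cases h2 : e < k + (nL + nR)
  · exact Or.inr (Or.inl ⟨e - k, by omega, by omega⟩)
  · exact Or.inr (Or.inr ⟨e - (k + (nL + nR)), by omega, by omega⟩)

theorem sum_m {R : Type} [AddCommMonoid R] (h : BipNet N nL nR k A) (φ : ℕ → R) :
    ∑ e ∈ range N.m, φ e = ∑ e ∈ range k, φ e + ∑ j ∈ range (nL + nR), φ (k + j) +
      ∑ j ∈ range (nL + nR), φ (k + (nL + nR) + j) := by
  rw [h.m, sum_range_add, sum_range_add]

theorem ok (h : BipNet N nL nR k A) {C F : ℕ} (hC : 2 ≤ C) (hF : nL + nR ≤ F) : N.OK C F := by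
  have key : ∀ e < N.m, N.tl.get e < N.n ∧ N.hd.get e < N.n ∧ 1 ≤ N.c.get e ∧ N.c.get e ≤ 2 := by
    intro e he
    rw [h.n]
    rcases h.cases he with h1 | ⟨j, h1, rfl⟩ | ⟨j, h1, rfl⟩
    · have := h.lt e h1
      have := h.e1 e h1
      omega
    · obtain ⟨a, b, c, -⟩ := h.e2 j h1
      rw [a, b, c]
      split_ifs <;> omega
    · obtain ⟨a, b, c, -⟩ := h.e3 j h1
      rw [a, b, c]
      split_ifs <;> omega
  have hm := h.m
  have hn := h.n
  refine ⟨by omega, fun e he => (key e he).1, fun e he => (key e he).2.1,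
    fun e he => (key e he).2.2.1, fun e he => (key e he).2.2.2.trans hC, ?_, fun v hv h0 => ?_,
    fun v hv h0 => ?_⟩
  · rw [h.sum_m, sum_congr rfl fun e he => (h.e1 e (mem_range.1 he)).2.2.2,
      sum_congr rfl fun e he => (h.e2 e (mem_range.1 he)).2.2.2,
      sum_congr rfl fun e he => (h.e3 e (mem_range.1 he)).2.2.2]
    simpa using hF
  all_goals
    obtain ⟨j, rfl⟩ : ∃ j, v = j + 1 := ⟨v - 1, by omega⟩
    obtain ⟨a, b, -⟩ := h.e2 j (by omega)
    obtain ⟨c, d, -⟩ := h.e3 j (by omega)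
    by_cases h1 : j < nL
  · exact ⟨k + (nL + nR) + j, by omega, by rw [c, if_pos h1], by rw [d, if_pos h1]⟩
  · exact ⟨k + j, by omega, by rw [a, if_neg h1], by rw [b, if_neg h1]⟩
  · exact ⟨k + j, by omega, by rw [a, if_pos h1], by rw [b, if_pos h1]⟩
  · exact ⟨k + (nL + nR) + j, by omega, by rw [c, if_neg h1], by rw [d, if_neg h1]⟩

theorem sum_inc (h : BipNet N nL nR k A) (f : ℕ → ℕ) {j : ℕ} (hj : j < nL + nR) :
    ∑ e ∈ range N.m, ((f e : ℤ) - N.f0.get e) * N.inc e (j + 1) = (if j < nL then -1 else 1) *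
      ((deg nL k A f j : ℤ) + f (k + j) - 1 - f (k + (nL + nR) + j)) := by
  have h1 : ∑ e ∈ range k, ((f e : ℤ) - N.f0.get e) * N.inc e (j + 1) =
      (if j < nL then -1 else 1) * (deg nL k A f j : ℤ) := by
    rw [deg, Nat.cast_sum, mul_sum]
    refine sum_congr rfl fun e he => ?_
    obtain ⟨a, b, -, d⟩ := h.e1 e (mem_range.1 he)
    have := h.lt e (mem_range.1 he)
    rw [Net.inc, a, b, d]
    split_ifs <;> first | contradiction | omega
  have h2 : ∑ i ∈ range (nL + nR), ((f (k + i) : ℤ) - N.f0.get (k + i)) * N.inc (k + i) (j + 1) =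
      (if j < nL then -1 else 1) * ((f (k + j) : ℤ) - 1) := by
    rw [sum_eq_single_of_mem j (mem_range.2 hj) fun i hi hij => ?_]
    · obtain ⟨a, b, -, d⟩ := h.e2 j hj
      rw [Net.inc, a, b, d]
      split_ifs <;> first | contradiction | omega
    · obtain ⟨a, b, -, d⟩ := h.e2 i (mem_range.1 hi)
      rw [Net.inc, a, b]
      split_ifs <;> first | contradiction | omega
  have h3 : ∑ i ∈ range (nL + nR), ((f (k + (nL + nR) + i) : ℤ) - N.f0.get (k + (nL + nR) + i)) *
      N.inc (k + (nL + nR) + i) (j + 1) =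
      -(if j < nL then -1 else 1) * (f (k + (nL + nR) + j) : ℤ) := by
    rw [sum_eq_single_of_mem j (mem_range.2 hj) fun i hi hij => ?_]
    · obtain ⟨a, b, -, d⟩ := h.e3 j hj
      rw [Net.inc, a, b, d]
      split_ifs <;> first | contradiction | omega
    · obtain ⟨a, b, -, d⟩ := h.e3 i (mem_range.1 hi)
      rw [Net.inc, a, b]
      split_ifs <;> first | contradiction | omega
  rw [h.sum_m, h1, h2, h3]
  ring

theorem isFlow_iff (h : BipNet N nL nR k A) (f : ℕ → ℕ) : N.IsFlow f ↔
    ∀ j < nL + nR, deg nL k A f j + f (k + j) = 1 + f (k + (nL + nR) + j) := by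
  have hn := h.n
  constructor
  · intro hf j hj
    have h1 : ∑ e ∈ range N.m, ((f e : ℤ) - N.f0.get e) * N.inc e (j + 1) = 0 :=
      hf (j + 1) (by omega)
    rw [h.sum_inc f hj] at h1
    split_ifs at h1 <;> omega
  · intro hf
    refine Net.isFlow_circ.2 (Net.circ_of_pos (h.ok le_rfl le_rfl).ends (by omega)
      fun v hv h0 => ?_)
    obtain ⟨j, rfl⟩ : ∃ j, v = j + 1 := ⟨v - 1, by omega⟩
    have := hf j (by omega)
    rw [h.sum_inc f (by omega)]
    split_ifs <;> omega

theorem cost_eq (h : BipNet N nL nR k A) {f : ℕ → ℕ} (hf : N.IsFlow f) :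
    N.cost f + 3 * ∑ e ∈ range k, f e =
      2 * (nL + nR) + 4 * ∑ j ∈ range (nL + nR), f (k + (nL + nR) + j) := by
  have h1 := sum_congr (rfl : range (nL + nR) = _) fun j hj =>
    (h.isFlow_iff f).1 hf j (mem_range.1 hj)
  have h2 : ∑ j ∈ range (nL + nR), deg nL k A f j = 2 * ∑ e ∈ range k, f e := by
    simp only [deg]
    rw [sum_comm, mul_sum]
    refine sum_congr rfl fun e he => ?_
    have := h.lt e (mem_range.1 he)
    rw [sum_add_distrib, sum_ite_eq, sum_ite_eq, if_pos (mem_range.2 (by omega)),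
      if_pos (mem_range.2 (by omega)), two_mul]
  rw [sum_add_distrib, sum_add_distrib, h2] at h1
  rw [Net.cost, h.sum_m, sum_congr rfl fun e he => by rw [(h.e1 e (mem_range.1 he)).2.2.1],
    sum_congr (s₁ := range (nL + nR)) rfl fun e he => by rw [(h.e2 e (mem_range.1 he)).2.2.1],
    sum_congr (s₁ := range (nL + nR)) (f := fun j => N.c.get (k + (nL + nR) + j) * _) rfl
      fun e he => by rw [(h.e3 e (mem_range.1 he)).2.2.1], ← mul_sum, ← mul_sum, ← mul_sum]
  simp only [sum_const, card_range, smul_eq_mul] at h1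
  omega

theorem deg_le (h : BipNet N nL nR k A) {f : ℕ → ℕ} (hf : N.OptFlow f) {j : ℕ}
    (hj : j < nL + nR) : deg nL k A f j ≤ 1 := by
  by_contra hn
  have h1 := (h.isFlow_iff f).1 hf.1 j hj
  obtain ⟨e, he, h2⟩ := exists_ne_zero_of_sum_ne_zero (show deg nL k A f j ≠ 0 by omega)
  have he := mem_range.1 he
  have hm := h.m
  obtain ⟨a, b, c, -⟩ := h.e1 e he
  obtain ⟨a', b', c', -⟩ := h.e3 j hj
  have hl := h.lt e he
  by_cases h3 : (A e).1 = j
  · obtain ⟨a'', b'', c'', -⟩ := h.e2 (nL + (A e).2) (by omega)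
    rw [if_pos (by omega)] at a' b'
    rw [if_neg (by omega)] at a'' b''
    rw [if_pos h3, if_neg (by omega)] at h2
    have := hf.short (a := k + (nL + nR) + j) (b := e) (d := k + (nL + (A e).2)) (by omega)
      (by omega) (by omega) (by omega) (by omega) (by omega) (by omega) (by omega) (by omega)
    omega
  · obtain ⟨a'', b'', c'', -⟩ := h.e2 (A e).1 (by omega)
    rw [if_neg h3, zero_add] at h2
    have h4 : nL + (A e).2 = j := by_contra fun h4 => h2 (if_neg h4)
    rw [if_neg (by omega)] at a' b'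
    rw [if_pos (by omega)] at a'' b''
    rw [if_pos h4] at h2
    have := hf.short (a := e) (b := k + (nL + nR) + j) (d := k + (A e).1) (by omega)
      (by omega) (by omega) (by omega) (by omega) (by omega) (by omega) (by omega) (by omega)
    omega

/-- The edges that carry an optimal flow form a largest matching. -/
theorem maxBM (h : BipNet N nL nR k A) {E : List (ℕ × ℕ)} (h1 : ∀ e < k, A e ∈ E)
    (h2 : ∀ p ∈ E, ∃ e < k, A e = p) {f : ℕ → ℕ} (hf : N.OptFlow f) :
    MaxBM E (((List.range k).filter fun e => decide (1 ≤ f e)).map A) := by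
  classical
  have inj : ∀ e < k, ∀ e' < k, 1 ≤ f e → 1 ≤ f e' → (A e).1 = (A e').1 ∨ (A e).2 = (A e').2 →
      e = e' := by
    intro e he e' he' a a' b
    by_contra hne
    have l := h.lt e he
    have l' := h.lt e' he'
    have key := fun j => add_le_sum (s := range k) (f := fun e =>
      (if (A e).1 = j then f e else 0) + if nL + (A e).2 = j then f e else 0)
      (fun _ _ => Nat.zero_le _) (mem_range.2 he) (mem_range.2 he') hne
    rcases b with b | b
    · have := (key (A e).1).trans (h.deg_le hf (by omega))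
      simp only [if_true, if_pos b.symm] at this
      omega
    · have := (key (nL + (A e).2)).trans (h.deg_le hf (by omega))
      simp only [if_true, if_pos (congrArg (nL + ·) b.symm)] at this
      omega
  have hnd := (List.nodup_range (n := k)).filter fun e => decide (1 ≤ f e)
  refine ⟨⟨fun p hp => ?_, ?_, ?_⟩, fun l hl => ?_⟩
  · obtain ⟨e, he, rfl⟩ := List.mem_map.1 hp
    exact h1 e (List.mem_range.1 (List.mem_filter.1 he).1)
  · rw [List.map_map]
    refine hnd.map_on fun e he e' he' b => ?_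
    simp only [List.mem_filter, List.mem_range, decide_eq_true_eq] at he he'
    exact inj e he.1 e' he'.1 he.2 he'.2 (Or.inl b)
  · rw [List.map_map]
    refine hnd.map_on fun e he e' he' b => ?_
    simp only [List.mem_filter, List.mem_range, decide_eq_true_eq] at he he'
    exact inj e he.1 e' he'.1 he.2 he'.2 (Or.inr b)
  choose! ix hix1 hix2 using h2
  set S := l.toFinset.image ix with hS
  have hS1 : ∀ e ∈ S, e < k ∧ A e ∈ l ∧ ix (A e) = e := fun e he => by
    obtain ⟨p, hp, rfl⟩ := mem_image.1 he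
    have hp := List.mem_toFinset.1 hp
    rw [hix2 p (hl.1 p hp)]
    exact ⟨hix1 p (hl.1 p hp), hp, rfl⟩
  have hS2 : S.card = l.length := by
    rw [card_image_of_injOn, List.toFinset_card_of_nodup (List.Nodup.of_map _ hl.2.1)]
    intro p hp p' hp' e
    rw [← hix2 p (hl.1 p (by simpa using hp)), e, hix2 p' (hl.1 p' (by simpa using hp'))]
  set x : ℕ → ℕ := fun e => if e ∈ S then 1 else 0 with hx
  have hone : ∀ (φ : ℕ × ℕ → ℕ), (l.map φ).Nodup → ∀ q : ℕ → Prop, (∀ u v, q u → q v → u = v) →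
      ∑ e ∈ range k, (if q (φ (A e)) then x e else 0) ≤ 1 := by
    intro φ hφ q hq
    simp only [hx, ← ite_and, sum_boole, Nat.cast_id]
    refine card_le_one.2 fun e he e' he' => ?_
    obtain ⟨-, a, b⟩ := mem_filter.1 he
    obtain ⟨-, a', b'⟩ := mem_filter.1 he'
    rw [← (hS1 e b).2.2, List.inj_on_of_nodup_map hφ (hS1 e b).2.1 (hS1 e' b').2.1 (hq _ _ a a'),
      (hS1 e' b').2.2]
  have hdeg : ∀ j, deg nL k A x j ≤ 1 := fun j => by
    rw [deg, sum_add_distrib]
    by_cases hj : j < nL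
    · rw [sum_eq_zero (f := fun e => if nL + (A e).2 = j then x e else 0)
        fun e _ => if_neg (by omega), add_zero]
      convert hone Prod.fst hl.2.1 (· = j) fun u v a b => a.trans b.symm
    · rw [sum_eq_zero (f := fun e => if (A e).1 = j then x e else 0)
        fun e he => if_neg (by have := h.lt e (mem_range.1 he); omega), zero_add]
      convert hone Prod.snd hl.2.2 (nL + · = j) fun u v a b => by omega
  set y : ℕ → ℕ := fun e => if e < k then x e else if e < k + (nL + nR) then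
    1 - deg nL k A x (e - k) else 0 with hy
  have hyx : ∀ j, deg nL k A y j = deg nL k A x j := fun j =>
    sum_congr rfl fun e he => by simp only [hy, if_pos (mem_range.1 he)]
  have hy3 : ∀ j, y (k + (nL + nR) + j) = 0 := fun j => by
    simp only [hy]
    rw [if_neg (by omega), if_neg (by omega)]
  have hfl : N.IsFlow y := (h.isFlow_iff y).2 fun j hj => by
    have := hdeg j
    rw [hyx, hy3]
    simp only [hy]
    rw [if_neg (by omega), if_pos (by omega), Nat.add_sub_cancel_left]
    omega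
  have c1 := h.cost_eq hfl
  have c2 := h.cost_eq hf.1
  have c3 := hf.2 y hfl
  have c4 : ∑ e ∈ range k, y e = l.length := by
    rw [sum_congr rfl fun e he => show y e = x e from if_pos (mem_range.1 he), ← hS2]
    simp only [hx, sum_boole, Nat.cast_id]
    congr 1
    ext e
    simp only [mem_filter, mem_range, and_iff_right_iff_imp]
    exact fun he => (hS1 e he).1
  have c5 : ∑ e ∈ range k, f e ≤ ((List.range k).filter fun e => decide (1 ≤ f e)).length := by
    have : ((List.range k).filter fun e => decide (1 ≤ f e)).length =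
        ∑ e ∈ range k, if 1 ≤ f e then 1 else 0 := by
      rw [sum_boole, Nat.cast_id]
      rfl
    rw [this]
    refine sum_le_sum fun e he => ?_
    have l := h.lt e (mem_range.1 he)
    have := (single_le_sum (f := fun e' => (if (A e').1 = (A e).1 then f e' else 0) +
      if nL + (A e').2 = (A e).1 then f e' else 0) (fun _ _ => Nat.zero_le _) he).trans
      (h.deg_le hf (by omega))
    simp only [if_true] at this
    split_ifs <;> omega
  simp only [hy3, sum_const_zero] at c1
  rw [List.length_map]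
  omega

end BipNet

theorem Tri.tabNum {c : Cx} {φ : ℕ → ℕ} {d m : ℕ} (h : ∀ k < m, φ k ≤ c.B) :
    Tri c (P305F.tabM (fun k => num (φ k)) d m) fun s t => (∀ k < m, s.get k = φ k) ∧ t ≤ m :=
  Tri.mono (Tri.tabM (T := 0) (P := fun k x => x = φ k) fun k hk => ⟨h k hk, rfl, le_rfl⟩)
    fun _ _ h => ⟨h.1, by simpa using h.2.2⟩

theorem Tri.tabPure {β : Type} {c : Cx} {φ : ℕ → β} {d : β} {m : ℕ} :
    Tri c (P305F.tabM (fun k => pure (φ k)) d m) fun s t => (∀ k < m, s.get k = φ k) ∧ t ≤ m :=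
  Tri.mono (Tri.tabM (T := 0) (P := fun k x => x = φ k) fun _ _ => ⟨rfl, le_rfl⟩)
    fun _ _ h => ⟨h.1, by simpa using h.2.2⟩

/-- The network of a bipartite graph, with the array of the edges. -/
def bipNetP (nL nR : ℕ) (E : List (ℕ × ℕ)) : M (Net × ℕ × Arr (ℕ × ℕ)) := do
  let k ← lenP E
  let A ← ofListP (0, 0) E
  let n ← num (nL + nR + 1)
  let k2 ← num (k + (nL + nR))
  let m ← num (k2 + (nL + nR))
  let tl ← tabM (fun e => num (if e < k then (A.get e).1 + 1 else if e < k2 then
    (if e - k < nL then e - k + 1 else 0) else if e - k2 < nL then 0 else e - k2 + 1)) 0 m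
  let hd ← tabM (fun e => num (if e < k then nL + (A.get e).2 + 1 else if e < k2 then
    (if e - k < nL then 0 else e - k + 1) else if e - k2 < nL then e - k2 + 1 else 0)) 0 m
  let c ← tabM (fun e => pure (if e < k then 1 else 2)) 0 m
  let f0 ← tabM (fun e => pure (if k ≤ e ∧ e < k2 then 1 else 0)) 0 m
  pure (⟨n, m, tl, hd, c, f0⟩, k, A)

@[fun_prop] theorem impl_bipNetP :
    Impl fun p : ℕ × ℕ × List (ℕ × ℕ) => bipNetP p.1 p.2.1 p.2.2 := by
  unfold bipNetP
  fun_prop

theorem Tri_bipNetP {c : Cx} {nL nR : ℕ} {E : List (ℕ × ℕ)} (hE : ∀ p ∈ E, p.1 < nL ∧ p.2 < nR)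
    (hB : E.length + 2 * (nL + nR) + 1 ≤ c.B) :
    Tri c (bipNetP nL nR E) fun r t => r.2.1 = E.length ∧ (r.2.2.get = fun i => E.getD i (0, 0)) ∧
      BipNet r.1 nL nR E.length (fun i => E.getD i (0, 0)) ∧ t ≤ 8 * (nL + nR + E.length) := by
  have hl : ∀ e < E.length, (E.getD e (0, 0)).1 < nL ∧ (E.getD e (0, 0)).2 < nR := fun e he =>
    hE _ (by rw [List.getD_eq_getElem _ _ he]; exact List.getElem_mem he)
  simp only [bipNetP, Tri_bind, Tri_lenP, Tri_ofListP, Tri_num, Tri_pure]
  refine ⟨by omega, by omega, by omega, by omega, by omega, ?_⟩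
  refine Tri.mono (Tri.tabNum fun e he => ?_) fun tl t1 h1 => ?_
  · have := hl e
    split_ifs <;> omega
  refine Tri.mono (Tri.tabNum fun e he => ?_) fun hd t2 h2 => ?_
  · have := hl e
    split_ifs <;> omega
  refine Tri.mono Tri.tabPure fun cc t3 h3 => Tri.mono Tri.tabPure fun f0 t4 h4 => ?_
  refine ⟨trivial, trivial, ⟨hl, rfl, rfl, fun e he => ?_, fun j hj => ?_, fun j hj => ?_⟩,
    by omega⟩
  · simp only [h1.1 e (by omega), h2.1 e (by omega), h3.1 e (by omega), h4.1 e (by omega),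
      if_pos he, true_and]
    exact if_neg (by omega)
  · simp only [h1.1 (E.length + j) (by omega), h2.1 (E.length + j) (by omega),
      h3.1 (E.length + j) (by omega), h4.1 (E.length + j) (by omega), Nat.add_sub_cancel_left,
      if_neg (show ¬ E.length + j < E.length by omega),
      if_pos (show E.length + j < E.length + (nL + nR) by omega), true_and]
    exact if_pos (by omega)
  · simp only [h1.1 (E.length + (nL + nR) + j) (by omega),
      h2.1 (E.length + (nL + nR) + j) (by omega), h3.1 (E.length + (nL + nR) + j) (by omega),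
      h4.1 (E.length + (nL + nR) + j) (by omega), Nat.add_sub_cancel_left,
      if_neg (show ¬ E.length + (nL + nR) + j < E.length by omega),
      if_neg (show ¬ E.length + (nL + nR) + j < E.length + (nL + nR) by omega), true_and]
    exact if_neg (by omega)

/-- Maximum bipartite matching by one minimum-cost flow. -/
def bipP (mcf : ℕ → Net → M (Arr ℕ)) (b nL nR : ℕ) (E : List (ℕ × ℕ)) : M (List (ℕ × ℕ)) := do
  let r ← bipNetP nL nR E
  let b' ← num (b + 2)
  let f ← mcf b' r.1
  let a ← rangeP r.2.1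
  let s ← filterP (fun e => decide (1 ≤ f.get e)) a
  mapP r.2.2.get s

theorem bip_of_mcf {mcf : ℕ → Net → M (Arr ℕ)} {c : ℕ} {g : ℕ → ℕ} (h : McfOK mcf c g) :
    ∃ bip c' g', BipOK bip c' g' := by
  refine ⟨bipP mcf, 3 * c + 2, fun b => 3 * g (b + 2) + 11, ?_, fun a => ?_,
    fun b b' hb => by have := h.mono (Nat.add_le_add_right hb 2); omega, ?_⟩
  · have := h.impl
    unfold bipP
    fun_prop
  · refine (((Sub.const 3).mul (h.sub (a + 2))).add (Sub.const 11)).mono fun N _ => ?_
    have := h.mono (show a * Nat.size N + a + 2 ≤ (a + 2) * Nat.size N + (a + 2) by nlinarith)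
    omega
  intro B b nL nR E hE hb hB F C₀ τ hτ hC hF1 hF
  have h1 : 2 ^ (b + 2) ≤ B := le_trans (Nat.pow_le_pow_right (by omega) (by nlinarith)) hB
  have h2 : 2 ^ (c * (b + 2 + 1)) ≤ B := le_trans (Nat.pow_le_pow_right (by omega) (by nlinarith)) hB
  have h3 : 2 ^ (b + 2) = 4 * 2 ^ b := by ring
  have h4 : 0 < 2 ^ b := by positivity
  have h5 : b + 2 ≤ B := (Nat.lt_two_pow_self).le.trans h1
  rw [bipP, wp_bind]
  refine wp_le_const_of_Tri (c := ⟨B, true⟩) (Tri_bipNetP hE (by dsimp only; omega)) ?_ 1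
  rintro ⟨N, k, A⟩ t ⟨rfl, hA, hN, ht⟩
  dsimp only at hA hN ⊢
  have hn := hN.n
  have hm := hN.m
  simp only [wp_bind, wp_num, if_pos h5]
  refine le_trans (h.spec B (b + 2) N (hN.ok (by omega) (by omega)) (by omega) h2 _
    (C₀ + τ * (t + 3 * E.length : ℕ)) τ hτ (by positivity)
    (fun f t' => wp_le_const (fun _ _ => wp_le_const (fun _ _ => wp_le_const (fun _ _ => hF1 _ _)
      le_rfl) le_rfl) le_rfl) fun f t' hf => ?_) ?_
  · have hM := hN.maxBM (E := E) (fun e he => by
      rw [List.getD_eq_getElem _ _ he]; exact List.getElem_mem he) (fun p hp => by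
      obtain ⟨e, he, rfl⟩ := List.getElem_of_mem hp
      exact ⟨e, he, List.getD_eq_getElem _ _ he⟩) hf
    have hl := List.length_filter_le (fun e => decide (1 ≤ f.get e)) (List.range E.length)
    simp only [rangeP, filterP, mapP, pay, wp_ticks, wp_ret, hA, List.length_range] at hl ⊢
    refine (hF _ _ hM).trans ?_
    rw [add_assoc C₀, ← mul_add]
    refine add_le_add le_rfl (mul_le_mul_of_nonneg_left ?_ hτ)
    norm_cast
    omega
  · have h6 : (1 : ℝ) / 2 ^ (b + 2) ≤ 1 / 2 ^ b :=
      one_div_le_one_div_of_le (by positivity) (pow_le_pow_right₀ (by norm_num) (by omega))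
    have h7 : t + 3 * E.length + (N.n + N.m + 1) * g (b + 2) ≤
        (nL + nR + E.length + 1) * (3 * g (b + 2) + 11) := by
      rw [hn, hm]
      nlinarith [Nat.zero_le (E.length * g (b + 2)), Nat.zero_le (g (b + 2))]
    have h8 := mul_le_mul_of_nonneg_left (Nat.cast_le (α := ℝ).2 h7) hτ
    rw [Nat.cast_add, mul_add] at h8
    linarith

end Vale.Agent.P305F
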