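import Vale.Agent.P305F.BipDefs
import Vale.Agent.P305E.Colour

/-!
# Flow: maximum matchings of bipartite graphs on the randomized word RAM
-/

namespace Vale.Agent.P305F

open Vale.Agent.P305 Vale.Agent.P305.MM Vale.Agent.P305E

variable {n : ℕ}

theorem maxGM_of_maxBM {G : SimpleGraph (Fin n)} {col : ℕ → Bool}
    (hc : ∀ u v, GA G u v → col u ≠ col v) {E l : List (ℕ × ℕ)}
    (hE : ∀ u w, (u, w) ∈ E ↔ GA G u w ∧ col u = true) (h : MaxBM E l) : MaxGM G l := by
  have h1 : ∀ p ∈ l, GA G p.1 p.2 ∧ col p.1 = true := fun p hp => (hE _ _).1 (h.1.1 p hp)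
  refine ⟨⟨fun p hp => (h1 p hp).1, List.nodup_append.2 ⟨h.1.2.1, h.1.2.2, ?_⟩⟩, fun l' hl => ?_⟩
  · intro x hx y hy e
    obtain ⟨p, hp, rfl⟩ := List.mem_map.1 hx
    obtain ⟨q, hq, rfl⟩ := List.mem_map.1 hy
    exact hc _ _ (h1 q hq).1 (by rw [← e, (h1 p hp).2, (h1 q hq).2])
  · have hn : l'.Nodup := (List.nodup_append.1 hl.2).1.of_map _
    have := h.2 (l'.map fun p => if col p.1 = true then p else p.swap) ⟨fun p hp => ?_, ?_, ?_⟩
    · simpa using this
    · obtain ⟨q, hq, rfl⟩ := List.mem_map.1 hp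
      have a := hl.1 q hq
      split_ifs with b
      · exact (hE _ _).2 ⟨a, b⟩
      · refine (hE _ _).2 ⟨a.symm, ?_⟩
        have := hc _ _ a
        revert this b
        cases col q.1 <;> cases col q.2 <;> simp
    · rw [List.map_map]
      refine hn.map_on fun p hp q hq e => pends_uniq hl.2 hp hq
        (x := (if col p.1 = true then p else p.swap).1) (by split_ifs <;> simp) ?_
      rw [show (if col p.1 = true then p else p.swap).1 = _ from e]
      simp only [Function.comp]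
      split_ifs <;> simp
    · rw [List.map_map]
      refine hn.map_on fun p hp q hq e => pends_uniq hl.2 hp hq
        (x := (if col p.1 = true then p else p.swap).2) (by split_ifs <;> simp) ?_
      rw [show (if col p.1 = true then p else p.swap).2 = _ from e]
      simp only [Function.comp]
      split_ifs <;> simp

/-- The solver for bipartite graphs given by adjacency lists. -/
def bipAdj (bip : ℕ → ℕ → ℕ → List (ℕ × ℕ) → M (List (ℕ × ℕ))) (n : ℕ) (adj : Arr (List ℕ)) :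
    M (List (ℕ × ℕ)) :=
  colour n adj >>= fun col => pairsP n adj (fun u _ => col.get u) >>= fun E =>
    lenP E >>= fun k => num (2 * n + k) >>= fun s => num (Nat.size s + 3) >>= fun b => bip b n n E

theorem rand_bipartite {bip : ℕ → ℕ → ℕ → List (ℕ × ℕ) → M (List (ℕ × ℕ))} {c : ℕ} {g : ℕ → ℕ}
    (h : BipOK bip c g) : ∃ (P : RProg) (T : ℕ → ℕ → ℕ), AlmostLin T ∧
      RandSolvesOn (fun _ G => G.IsBipartite) P T := by
  have hI := h.impl
  refine top_gm _ (bipAdj bip) (by unfold bipAdj; fun_prop) (7 * c + 4)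
    (fun N => 2 * g (4 * Nat.size N + 4) + 8)
    (((Sub.const 2).mul (h.sub 4)).add (Sub.const 8)) fun n G hG adj hA B hB F C₀ τ h1 h2 h3 h4 => ?_
  obtain ⟨N, hN⟩ : ∃ N, N = n + G.edgeSet.ncard + 2 := ⟨_, rfl⟩
  rw [← hN] at hB ⊢
  have hN2 : 2 ≤ N := by omega
  have hB4 : 8 * N ≤ B := by
    calc 8 * N ≤ N ^ 3 * N := Nat.mul_le_mul_right _ (Nat.pow_le_pow_left hN2 3)
      _ = N ^ 4 := by ring
      _ ≤ _ := (Nat.pow_le_pow_right (by omega) (by omega)).trans hB
  unfold bipAdj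
  rw [wp_bind]
  refine wp_le_const_of_Tri (colour_tri (c := ⟨B, true⟩) hA hG) (fun col t₁ ⟨a1, a2⟩ => ?_) 1
  rw [wp_bind]
  refine wp_le_const_of_Tri (pairsP_tri (c := ⟨B, true⟩) hA fun u _ => col.get u)
    (fun E t₂ ⟨b1, _, b3, b4⟩ => ?_) 1
  have hs := size_le_self (2 * n + E.length)
  have hs1 : Nat.size (2 * n + E.length) ≤ Nat.size N + 1 := by
    rw [Nat.size_le, pow_succ]
    have := Nat.lt_size_self N
    omega
  simp only [lenP, pay, wp_bind, wp_need, wp_ticks, wp_ret, wp_num,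
    if_pos (by omega : E.length ≤ B), if_pos (by omega : 2 * n + E.length ≤ B),
    if_pos (by omega : Nat.size (2 * n + E.length) + 3 ≤ B)]
  obtain ⟨b, hb⟩ : ∃ b, b = Nat.size (2 * n + E.length) + 3 := ⟨_, rfl⟩
  rw [← hb]
  have hlt : 2 * n + E.length < 2 ^ b :=
    (Nat.lt_size_self _).trans_le (Nat.pow_le_pow_right (by omega) (by omega))
  have hpw : 2 ^ (c * (b + 1)) ≤ B := by
    have e1 : 2 ^ (b + 1) ≤ N ^ 7 := by
      calc 2 ^ (b + 1) ≤ 2 ^ (5 + Nat.size N) := Nat.pow_le_pow_right (by omega) (by omega)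
        _ ≤ 2 ^ 5 * (2 * N) := by
          rw [pow_add]; exact Nat.mul_le_mul_left _ (two_pow_size_le (by omega))
        _ = 2 ^ 6 * N := by ring
        _ ≤ N ^ 6 * N := Nat.mul_le_mul_right _ (Nat.pow_le_pow_left hN2 6)
        _ = N ^ 7 := by ring
    calc 2 ^ (c * (b + 1)) = (2 ^ (b + 1)) ^ c := by rw [← pow_mul, mul_comm]
      _ ≤ (N ^ 7) ^ c := Nat.pow_le_pow_left e1 c
      _ ≤ _ := by rw [← pow_mul]; exact (Nat.pow_le_pow_right (by omega) (by omega)).trans hB
  refine (h.spec B b n n E (fun p hp => ⟨((b1 _ _).1 hp).1.lt, ((b1 _ _).1 hp).1.lt'⟩) (by omega)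
    hpw _ (C₀ + τ * (8 * N : ℕ)) τ h1 (by positivity) (fun _ _ => h3 _ _) fun l t hl => ?_).trans ?_
  · refine (h4 _ _ (maxGM_of_maxBM a1 b1 hl)).trans ?_
    rw [add_assoc C₀, ← mul_add, ← Nat.cast_add]
    refine add_le_add_right (mul_le_mul_of_nonneg_left (Nat.cast_le.2 ?_) h1) _
    omega
  · have e1 : (1 : ℝ) / 2 ^ b ≤ 1 / 5 := by
      have : (2 : ℝ) ^ 3 ≤ 2 ^ b := pow_le_pow_right₀ (by norm_num) (by omega)
      exact one_div_le_one_div_of_le (by norm_num) (by linarith)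
    have e2 : g b ≤ g (4 * Nat.size N + 4) := h.mono (by omega)
    have e3 : 8 * N + (n + n + E.length + 1) * g b ≤ N * (2 * g (4 * Nat.size N + 4) + 8) := by
      have := Nat.mul_le_mul (by omega : n + n + E.length + 1 ≤ 2 * N) e2
      nlinarith
    have e4 := mul_le_mul_of_nonneg_left (Nat.cast_le (α := ℝ).2 e3) h1
    rw [Nat.cast_add, mul_add] at e4
    linarith

end Vale.Agent.P305F
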