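import Vale.Agent.P305F.Defs

/-!
# Flow: the interface of the family of static samplers
-/

namespace Vale.Agent.P305F

open Vale.Agent.P305E Vale.Agent.P305S

/-- The preconditions of the sampler. -/
structure SamPre (c B b tau L : ℕ) (E : List Edge) : Prop where
  len : E.length ≤ 2 ^ b
  edge : ∀ e ∈ E, 1 ≤ e.2.2 ∧ e.2.2 < 2 ^ b ∧ e.1 < 2 ^ b ∧ e.2.1 < 2 ^ b
  word : 2 ^ (6 * b + 20) ≤ B
  tau_le : tau ≤ b
  l_pos : 1 ≤ L
  l_le : L ≤ b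
  sz : E.length * ((b + 2) ^ c) ^ L < 2 ^ (tau * L)
  sz' : (b + 2) ^ c ≤ 2 ^ tau

/-- What the family of samplers achieves; all polynomials in `b` are bounded by `(b + 2) ^ c`. -/
structure SamFam (sam : ℕ → ℕ → ℕ → List Edge → M (List (Arr ℕ))) (c : ℕ) : Prop where
  impl : Impl fun p : ℕ × ℕ × ℕ × List Edge => sam p.1 p.2.1 p.2.2.1 p.2.2.2
  tri : ∀ B b tau L E, SamPre c B b tau L E → Tri ⟨B, true⟩ (sam b tau L E) fun cs t =>
    cs.length = L * (3 * b + 10) ∧ Her (hier cs) ∧ Clo E (hier cs) ∧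
      t ≤ 2 ^ tau * (b + 2) ^ c * L * (E.length + 1)
  wp : ∀ B b tau L E, SamPre c B b tau L E → ∀ (ψ : ℕ → ℝ) (Osc : ℝ),
    (∀ a a', |ψ a - ψ a'| ≤ Osc) →
    ((L * (3 * b + 10) + 1 : ℕ) : ℝ) * 2 * Osc * tot E * L * (tot E + 1) ≤ 2 ^ b →
    wp B (sam b tau L E) (fun cs _ => TN Osc ψ (hier cs) E) 0 ≤
      ((((b + 2) ^ c) ^ L : ℕ) : ℝ) * nrm E ψ + 1

end Vale.Agent.P305F
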