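import Vale.Agent.P305F.Params3
import Vale.Agent.P305F.Bip
import Vale.Agent.P305F.BipTop
import Vale.Agent.P305S.Fam

/-!
# Flow: the unconditional results

Minimum-cost flows and maximum matchings of bipartite graphs in almost-linear randomized time.
-/

namespace Vale.Agent.P305F

open Vale.Agent.P305 Vale.Agent.P305.MM Vale.Agent.P305E

/-- An almost-linear randomized solver for minimum-cost flows. -/
theorem exists_mcf : ∃ mc c g, McfOK mc c g := mcfOK P305S.samFam_sample

/-- An almost-linear randomized solver for bipartite matching (edge lists). -/
theorem exists_bip : ∃ bip c g, BipOK bip c g := by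
  obtain ⟨mc, c, g, h⟩ := exists_mcf
  exact bip_of_mcf h

/-- Maximum matchings of bipartite graphs in almost-linear randomized time on the word RAM. -/
theorem rand_bip : ∃ (P : RProg) (T : ℕ → ℕ → ℕ), AlmostLin T ∧
    RandSolvesOn (fun _ G => G.IsBipartite) P T := by
  obtain ⟨bip, c, g, h⟩ := exists_bip
  exact rand_bipartite h

end Vale.Agent.P305F
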