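import Vale.Agent.P305F.End1

/-!
# Flow, end, part 3: graph search and flows on trees
-/

namespace Vale.Agent.P305F

open Vale.Agent.P305E Finset

/-! ### Adjacency lists -/

/-- One more entry in an adjacency list. -/
def add1 (a : Arr (List ℕ)) (v e : ℕ) : Arr (List ℕ) := a.set v (e :: a.get v)

@[fun_prop] theorem Pure.add1 {α : Type} [Rep α] {a : α → Arr (List ℕ)} {v e : α → ℕ}
    (ha : Pure a) (hv : Pure v) (he : Pure e) : Pure fun x => add1 (a x) (v x) (e x) := by
  unfold P305F.add1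
  fun_prop

theorem mem_add1 (a : Arr (List ℕ)) (v e u x : ℕ) :
    x ∈ (add1 a v e).get u ↔ x ∈ a.get u ∨ (u = v ∧ x = e) := by
  rw [add1, Arr.get_set]
  split_ifs with h
  · simp [h, or_comm]
  · simp [h]

theorem sum_add1 (a : Arr (List ℕ)) (v e n : ℕ) :
    ∑ u ∈ range n, ((add1 a v e).get u).length ≤ ∑ u ∈ range n, (a.get u).length + 1 := by
  have : ∀ u, ((add1 a v e).get u).length = (a.get u).length + if u = v then 1 else 0 := fun u => by
    rw [add1, Arr.get_set]
    split_ifs with h <;> simp [h]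
  simp only [this, sum_add_distrib, sum_ite_eq']
  split_ifs <;> omega

/-- Adjacency lists of the undirected graph of the arcs in `l`. -/
def adjB (N : Net) (l : List ℕ) : M (Arr (List ℕ)) :=
  foldP (fun a e => add1 (add1 a (N.tl.get e) e) (N.hd.get e) e) (Arr.const []) l

@[fun_prop] theorem impl_adjB : Impl fun p : Net × List ℕ => adjB p.1 p.2 := by
  unfold adjB
  fun_prop

theorem adjB_tri {c : Cx} (N : Net) (l : List ℕ) : Tri c (adjB N l) fun a t => t = l.length ∧
    (∀ u x, x ∈ a.get u ↔ x ∈ l ∧ (u = N.tl.get x ∨ u = N.hd.get x)) ∧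
    ∑ u ∈ range N.n, (a.get u).length ≤ 2 * l.length := by
  simp only [adjB, Tri_foldP, true_and]
  induction l using List.reverseRecOn with
  | nil => simp
  | append_singleton l e ih =>
    simp only [List.foldl_append, List.foldl_cons, List.foldl_nil, mem_add1, ih.1,
      List.mem_append, List.mem_singleton, List.length_append, List.length_singleton]
    refine ⟨fun u x => ?_, (sum_add1 _ _ _ _).trans ?_⟩
    · constructor
      · rintro ((h | ⟨rfl, rfl⟩) | ⟨rfl, rfl⟩) <;> tauto
      · rintro ⟨h | rfl, h'⟩ <;> tauto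
    · have := sum_add1 (List.foldl (fun a e => add1 (add1 a (N.tl.get e) e) (N.hd.get e) e)
        (Arr.const []) l) (N.tl.get e) e N.n
      have := ih.2
      omega

/-! ### Graph search -/

/-- Visited vertices, potentials, tree. -/
abbrev SOut := Arr Bool × Arr ℤ × List (ℕ × ℕ)

/-- A new vertex `v` is reached through the arc `e` and gets the potential `z`. -/
def visit (adj : Arr (List ℕ)) (rest : List ℕ) (s : SOut) (v e : ℕ) (z : ℤ) :
    M ((List ℕ × SOut) ⊕ SOut) :=
  appendP (adj.get v) rest >>= fun w =>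
    pure (.inl (w, s.1.set v true, s.2.1.set v z, (v, e) :: s.2.2))

@[fun_prop] theorem Impl.visit {α : Type} [Rep α] {adj : α → Arr (List ℕ)} {rest : α → List ℕ}
    {s : α → SOut} {v e : α → ℕ} {z : α → ℤ} (h1 : Pure adj) (h2 : Pure rest) (h3 : Pure s)
    (h4 : Pure v) (h5 : Pure e) (h6 : Pure z) :
    Impl fun a => visit (adj a) (rest a) (s a) (v a) (e a) (z a) := by
  unfold P305F.visit
  fun_prop

/-- One step of the search. -/
def sstep (N : Net) (adj : Arr (List ℕ)) (p : List ℕ × SOut) : M ((List ℕ × SOut) ⊕ SOut) :=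
  caseL p.1 (pure (.inr p.2)) fun e rest =>
    if p.2.1.get (N.tl.get e) = p.2.1.get (N.hd.get e) then pure (.inl (rest, p.2))
    else if p.2.1.get (N.tl.get e) = true then
      inum (p.2.2.1.get (N.tl.get e) + N.c.get e) >>= fun z => visit adj rest p.2 (N.hd.get e) e z
    else
      inum (p.2.2.1.get (N.hd.get e) - N.c.get e) >>= fun z => visit adj rest p.2 (N.tl.get e) e z

/-- The search from the root in the graph of the arcs in `l`. -/
def search (N : Net) (l : List ℕ) : M SOut :=
  adjB N l >>= fun adj => loopM (sstep N adj) (4 * l.length + 1)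
    (adj.get 0, (Arr.const false).set 0 true, Arr.const 0, [])

@[fun_prop] theorem impl_search : Impl fun p : Net × List ℕ => search p.1 p.2 := by
  unfold search sstep
  fun_prop

/-- The invariant of the search. -/
structure SInv (N : Net) (l : List ℕ) (C : ℕ) (s : SOut) : Prop where
  gd : N.Gd s.2.2
  sub : ∀ e, ar s.2.2 e → e ∈ l
  vis : ∀ u, s.1.get u = true ↔ vs s.2.2 u
  pot : ∀ e, ar s.2.2 e → s.2.1.get (N.hd.get e) - s.2.1.get (N.tl.get e) = N.c.get e
  bd : ∀ u, (s.2.1.get u).natAbs ≤ s.2.2.length * C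

/-- Total length of the adjacency lists of the vertices that are not visited. -/
def rem (n : ℕ) (adj : Arr (List ℕ)) (vis : Arr Bool) : ℕ :=
  ∑ u ∈ range n, if vis.get u = true then 0 else (adj.get u).length

theorem rem_set {n v : ℕ} (adj : Arr (List ℕ)) {vis : Arr Bool} (hv : v < n)
    (h : ¬ vis.get v = true) : rem n adj (vis.set v true) + (adj.get v).length = rem n adj vis := by
  unfold rem
  rw [← add_sum_erase _ _ (mem_range.2 hv), ← add_sum_erase _ _ (mem_range.2 hv), if_neg h,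
    Arr.get_set_self, if_pos rfl, zero_add, add_comm]
  exact congrArg _ (sum_congr rfl fun j hj => by rw [Arr.get_set_ne _ (ne_of_mem_erase hj)])

theorem SInv.visit {N : Net} {l : List ℕ} {C : ℕ} {s : SOut} (h : SInv N l C s) {v u e : ℕ}
    {z : ℤ} (he : e ∈ l) (hm : e < N.m) (hv : ¬ s.1.get v = true) (hu : s.1.get u = true)
    (hc : N.c.get e ≤ C)
    (hz : (N.hd.get e = v ∧ N.tl.get e = u ∧ z = s.2.1.get u + N.c.get e) ∨
      (N.tl.get e = v ∧ N.hd.get e = u ∧ z = s.2.1.get u - N.c.get e)) :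
    SInv N l C (s.1.set v true, s.2.1.set v z, (v, e) :: s.2.2) := by
  have huv : u ≠ v := fun e => hv (e ▸ hu)
  rw [h.vis] at hv hu
  refine ⟨⟨h.gd, hv, hm, ?_⟩, fun x hx => ?_, fun x => ?_, fun x hx => ?_, fun x => ?_⟩
  · rcases hz with ⟨a, b, -⟩ | ⟨a, b, -⟩
    · exact Or.inl ⟨a, b ▸ hu⟩
    · exact Or.inr ⟨a, b ▸ hu⟩
  · rcases (ar_cons _ _ _).1 hx with rfl | hx
    · exact he
    · exact h.sub x hx
  · simp only [vs_cons, Arr.get_set, ← h.vis]
    split_ifs with h1 <;> simp [h1]
  · rcases (ar_cons _ _ _).1 hx with rfl | hx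
    · rcases hz with ⟨a, b, rfl⟩ | ⟨a, b, rfl⟩ <;>
        simp only [a, b, Arr.get_set_self, Arr.get_set_ne _ huv] <;> ring
    · obtain ⟨-, a, b⟩ := h.gd.ends hx
      have a' : N.tl.get x ≠ v := fun h => hv (h ▸ a)
      have b' : N.hd.get x ≠ v := fun h => hv (h ▸ b)
      simp only [Arr.get_set_ne _ a', Arr.get_set_ne _ b']
      exact h.pot x hx
  · have h1 := h.bd x
    have h2 := h.bd u
    simp only [Arr.get_set, List.length_cons, add_mul, one_mul]
    split_ifs
    · rcases hz with ⟨-, -, rfl⟩ | ⟨-, -, rfl⟩ <;> omega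
    · omega

theorem search_tri {B : ℕ} {cn : Bool} {N : Net} {C F : ℕ} (hN : N.OK C F) {l : List ℕ}
    (hl : ∀ e ∈ l, e < N.m) (hB : N.n * C ≤ B) :
    Tri ⟨B, cn⟩ (search N l) fun s t => SInv N l C s ∧
      (∀ e ∈ l, vs s.2.2 (N.tl.get e) ↔ vs s.2.2 (N.hd.get e)) ∧ t ≤ 5 * l.length := by
  refine (adjB_tri N l).bind ?_
  rintro adj _ ⟨rfl, ha, hs⟩
  have h0 := rem_set adj (vis := Arr.const false) hN.npos (by simp)
  have h1 : rem N.n adj (Arr.const false) ≤ 2 * l.length := by simpa [rem] using hs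
  refine Tri.loopM (fun p t => SInv N l C p.2 ∧ (∀ x ∈ p.1, x ∈ l) ∧
    (∀ x ∈ l, p.2.1.get (N.tl.get x) ≠ p.2.1.get (N.hd.get x) → x ∈ p.1) ∧
    t + p.1.length + 2 * rem N.n adj p.2.1 ≤ 4 * l.length)
    (fun p => p.1.length + rem N.n adj p.2.1) ?_ ⟨⟨by simp [Net.Gd], by simp [ar], fun u => ?_,
      by simp [ar], by simp⟩, fun x hx => ((ha _ _).1 hx).1, fun x hx hne => ?_, ?_⟩ ?_
  · rintro ⟨w, s⟩ t ⟨hI, hw, hc, ht⟩
    cases w with
    | nil =>
      simp only [sstep, caseL_nil, Tri_pure, Sum.elim_inr]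
      refine ⟨hI, fun e he => ?_, by simp only at ht; omega⟩
      have : s.1.get (N.tl.get e) = s.1.get (N.hd.get e) :=
        by_contra fun hne => by simpa using hc e he hne
      rw [← hI.vis, ← hI.vis, this]
    | cons e rest =>
      have he := hw e (by simp)
      have hm := hl e he
      have hC := hN.c_le e hm
      have hlen := hI.gd.length_lt hN.ends hN.npos
      have hb : (s.2.2.length + 1) * C ≤ B := (Nat.mul_le_mul_right _ hlen).trans hB
      simp only [List.length_cons, List.mem_cons] at ht hc hw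
      have key : ∀ v u z, ¬ s.1.get v = true → s.1.get u = true →
          ((N.hd.get e = v ∧ N.tl.get e = u ∧ z = s.2.1.get u + N.c.get e) ∨
          (N.tl.get e = v ∧ N.hd.get e = u ∧ z = s.2.1.get u - N.c.get e)) →
          z.natAbs ≤ B ∧ Tri ⟨B, cn⟩ (visit adj rest s v e z) fun r t' => Sum.elim
            (fun p : List ℕ × SOut => (SInv N l C p.2 ∧ (∀ x ∈ p.1, x ∈ l) ∧
              (∀ x ∈ l, p.2.1.get (N.tl.get x) ≠ p.2.1.get (N.hd.get x) → x ∈ p.1) ∧
              t + (0 + t') + 1 + p.1.length + 2 * rem N.n adj p.2.1 ≤ 4 * l.length) ∧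
              p.1.length + rem N.n adj p.2.1 < rest.length + 1 + rem N.n adj s.1)
            (fun s => SInv N l C s ∧ (∀ e ∈ l, vs s.2.2 (N.tl.get e) ↔ vs s.2.2 (N.hd.get e)) ∧
              l.length + (t + (0 + t')) ≤ 5 * l.length) r := by
        intro v u z hv hu hz
        have h2 := hI.visit he hm hv hu hC hz
        have hvn : v < N.n := by
          have := hN.ends e hm
          rcases hz with ⟨a, -⟩ | ⟨a, -⟩ <;> omega
        have h3 := rem_set adj hvn hv
        have h4 := h2.bd v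
        simp only [Arr.get_set_self, List.length_cons] at h4
        simp only [visit, Tri_bind, Tri_appendP, Tri_pure, Sum.elim_inl, List.length_append,
          List.mem_append]
        refine ⟨h4.trans hb, ⟨h2, fun x hx => ?_, fun x hx hne => ?_, by omega⟩, by omega⟩
        · exact hx.elim (fun hx => ((ha _ _).1 hx).1) fun hx => hw x (Or.inr hx)
        · by_cases h5 : v = N.tl.get x ∨ v = N.hd.get x
          · exact Or.inl ((ha _ _).2 ⟨hx, h5⟩)
          · rw [not_or] at h5
            rw [Arr.get_set_ne _ (Ne.symm h5.1), Arr.get_set_ne _ (Ne.symm h5.2)] at hne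
            refine Or.inr ((hc x hx hne).resolve_left ?_)
            rintro rfl
            rcases hz with ⟨a, -⟩ | ⟨a, -⟩
            · exact h5.2 a.symm
            · exact h5.1 a.symm
      simp only [sstep, caseL_cons, Tri_ite, Tri_pure, Sum.elim_inl, Tri_bind, Tri_inum,
        List.length_cons]
      refine ⟨fun h2 => ⟨⟨hI, fun x hx => hw x (Or.inr hx), fun x hx hne => ?_, by omega⟩,
        by omega⟩, fun h2 => ⟨fun h3 => ?_, fun h3 => ?_⟩⟩
      · refine (hc x hx hne).resolve_left ?_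
        rintro rfl
        exact hne h2
      · exact key _ _ _ (fun h4 => h2 (h3.trans h4.symm)) h3 (Or.inl ⟨rfl, rfl, rfl⟩)
      · refine key _ _ _ h3 ?_ (Or.inr ⟨rfl, rfl, rfl⟩)
        revert h2 h3
        cases s.1.get (N.tl.get e) <;> cases s.1.get (N.hd.get e) <;> simp
  · simp only [Arr.get_set, vs]
    split_ifs with h2 <;> simp [h2]
  · refine (ha _ _).2 ⟨hx, by_contra fun h2 => hne ?_⟩
    rw [not_or] at h2
    simp only [Arr.get_set_ne _ (Ne.symm h2.1), Arr.get_set_ne _ (Ne.symm h2.2), Arr.get_const]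
  · simp only
    omega
  · simp only
    omega

/-! ### Flows on trees -/

/-- Sending `z` units through the arc `e`; the state is (change of the flow, excesses). -/
def push (N : Net) (s : Arr ℤ × Arr ℤ) (e : ℕ) (z : ℤ) : M (Arr ℤ × Arr ℤ) :=
  inum (s.1.get e + z) >>= fun a => inum (s.2.get (N.hd.get e) - z) >>= fun b =>
    pure (s.2.set (N.hd.get e) b) >>= fun x => inum (x.get (N.tl.get e) + z) >>= fun c =>
      pure (s.1.set e a, x.set (N.tl.get e) c)

@[fun_prop] theorem Impl.push {α : Type} [Rep α] {N : α → Net} {s : α → Arr ℤ × Arr ℤ}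
    {e : α → ℕ} {z : α → ℤ} (h1 : Pure N) (h2 : Pure s) (h3 : Pure e) (h4 : Pure z) :
    Impl fun a => push (N a) (s a) (e a) (z a) := by
  unfold P305F.push
  fun_prop

/-- The flow `f0` is removed and then rerouted through the tree. -/
def reroute (N : Net) (o : List (ℕ × ℕ)) : M (Arr ℤ × Arr ℤ) :=
  iterM (fun s e => push N s e (-(N.f0.get e : ℤ))) (Arr.const 0, Arr.const 0) N.m >>= fun s =>
    foldM (fun s p => push N s p.2 (if N.hd.get p.2 = p.1 then s.2.get p.1 else -s.2.get p.1)) s o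

@[fun_prop] theorem impl_reroute : Impl fun p : Net × List (ℕ × ℕ) => reroute p.1 p.2 := by
  unfold reroute
  fun_prop

/-- The invariant of `push`. -/
structure PInv (N : Net) (K D : ℕ) (s : Arr ℤ × Arr ℤ) : Prop where
  net : ∀ v, ∑ e ∈ range N.m, s.1.get e * N.inc e v + s.2.get v = 0
  bd : ∀ e, (s.1.get e).natAbs ≤ K
  tot : ∑ v ∈ range N.n, (s.2.get v).natAbs ≤ D

theorem push_tri {B : ℕ} {cn : Bool} {N : Net} (hE : N.Ends) {K D D' : ℕ} {s : Arr ℤ × Arr ℤ}
    (h : PInv N K D s) {e : ℕ} (he : e < N.m) {z : ℤ} (hB : K + D + 2 * z.natAbs ≤ B)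
    (hD : D + 2 * z.natAbs ≤ D' ∨ (D ≤ D' ∧ N.hd.get e ≠ N.tl.get e ∧
      (z = s.2.get (N.hd.get e) ∨ z = -s.2.get (N.tl.get e)))) :
    Tri ⟨B, cn⟩ (push N s e z) fun s' t => t = 0 ∧ PInv N (K + z.natAbs) D' s' ∧
      (∀ x, s'.1.get x = s.1.get x + if x = e then z else 0) ∧
      ∀ v, s'.2.get v = s.2.get v - z * N.inc e v := by
  obtain ⟨a, b⟩ := hE e he
  have h1 : ∀ v < N.n, (s.2.get v).natAbs ≤ D := fun v hv => le_trans
    (single_le_sum (f := fun v => (s.2.get v).natAbs) (fun _ _ => Nat.zero_le _)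
      (mem_range.2 hv)) h.tot
  have hset : ∀ (x : Arr ℤ) (u : ℕ) (y : ℤ), u < N.n →
      ∑ v ∈ range N.n, ((x.set u y).get v).natAbs + (x.get u).natAbs =
      ∑ v ∈ range N.n, (x.get v).natAbs + y.natAbs := by
    intro x u y hu
    rw [← add_sum_erase _ _ (mem_range.2 hu), ← add_sum_erase _ _ (mem_range.2 hu),
      Arr.get_set_self, sum_congr rfl fun j hj => by rw [Arr.get_set_ne _ (ne_of_mem_erase hj)]]
    ring
  have h2 := h1 _ a
  have h3 := h1 _ b
  have h4 := h.bd e
  have h5 : ∀ x, (s.1.set e (s.1.get e + z)).get x = s.1.get x + if x = e then z else 0 :=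
    fun x => by rw [Arr.get_set]; split_ifs with h <;> simp [h]
  have h6 : ∀ v, ((s.2.set (N.hd.get e) (s.2.get (N.hd.get e) - z)).set (N.tl.get e)
      ((s.2.set (N.hd.get e) (s.2.get (N.hd.get e) - z)).get (N.tl.get e) + z)).get v =
      s.2.get v - z * N.inc e v := fun v => by
    simp only [Arr.get_set, Net.inc, eq_comm (a := v)]
    split_ifs <;> simp_all
  simp only [push, Tri_bind, Tri_inum, Tri_pure]
  refine ⟨by omega, by omega, ?_, trivial, ⟨fun v => ?_, fun x => ?_, ?_⟩, h5, h6⟩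
  · rw [Arr.get_set]
    split_ifs <;> omega
  · simp only [h5, h6, add_mul, sum_add_distrib, ite_mul, zero_mul, sum_ite_eq', mem_range, he,
      if_true]
    linear_combination h.net v
  · have := h.bd x
    rw [h5]
    split_ifs <;> omega
  · have g1 := hset s.2 _ (s.2.get (N.hd.get e) - z) b
    have g2 := hset (s.2.set (N.hd.get e) (s.2.get (N.hd.get e) - z)) _
      ((s.2.set (N.hd.get e) (s.2.get (N.hd.get e) - z)).get (N.tl.get e) + z) a
    have g3 := h.tot
    rcases hD with hD | ⟨hD, hne, hz⟩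
    · simp only at g1 g2 ⊢
      omega
    · rw [Arr.get_set_ne _ hne.symm] at g2 ⊢
      simp only at g1 g2 ⊢
      omega

theorem gd_split {N : Net} {pre rest : List (ℕ × ℕ)} {p : ℕ × ℕ} (h : N.Gd (pre ++ p :: rest)) :
    N.Gd (p :: rest) ∧ ∀ u ∈ pre.map Prod.fst, ¬ vs (p :: rest) u := by
  induction pre with
  | nil => exact ⟨h, by simp⟩
  | cons q pre ih =>
    obtain ⟨a, b⟩ := ih h.1
    refine ⟨a, fun u hu => ?_⟩
    rcases List.mem_cons.1 hu with rfl | hu
    · refine fun h1 => h.2.1 ?_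
      simp only [vs, List.append_eq, List.map_append, List.mem_append] at h1 ⊢
      tauto
    · exact b u hu

theorem reroute_tri {B : ℕ} {cn : Bool} {N : Net} {C F : ℕ} (hN : N.OK C F) {o : List (ℕ × ℕ)}
    (ho : N.Gd o) (hv : ∀ u < N.n, vs o u) (hB : (2 * N.n + 7) * F ≤ B) :
    Tri ⟨B, cn⟩ (reroute N o) fun s t => N.Circ s.1.get ∧
      (∀ e < N.m, ¬ ar o e → N.f0.get e + s.1.get e = 0) ∧
      (∀ e, (s.1.get e).natAbs ≤ (2 * N.n + 1) * F) ∧ t ≤ N.m + N.n := by
  have hlen := ho.length_lt hN.ends hN.npos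
  refine (Tri.iterM (fun k s t => t = k ∧ PInv N (∑ e ∈ range k, N.f0.get e)
    (2 * ∑ e ∈ range k, N.f0.get e) s ∧ ∀ x, s.1.get x = if x < k then -(N.f0.get x : ℤ) else 0)
    ⟨rfl, ⟨by simp, by simp, by simp⟩, by simp⟩ ?_).bind ?_
  · rintro k s t hk ⟨ht, h1, h2⟩
    have h3 : ∑ e ∈ range (k + 1), N.f0.get e ≤ F :=
      (sum_le_sum_of_subset (range_mono hk)).trans hN.f_le
    rw [sum_range_succ] at h3 ⊢
    refine (push_tri hN.ends h1 hk (D' := 2 * (∑ e ∈ range k, N.f0.get e + N.f0.get k))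
      (by simp only [Int.natAbs_neg, Int.natAbs_natCast]; nlinarith) (Or.inl (by omega))).mono ?_
    rintro s' _ ⟨rfl, h4, h5, -⟩
    refine ⟨by omega, by simpa using h4, fun x => ?_⟩
    rw [h5, h2]
    split_ifs <;> first | omega | simp_all
  · rintro s _ ⟨rfl, h1, h2⟩
    have hf := hN.f_le
    refine (Tri.foldM (fun pre s t => t = pre.length ∧ PInv N (F + pre.length * (2 * F)) (2 * F) s ∧
      (∀ u ∈ pre.map Prod.fst, s.2.get u = 0) ∧
      ∀ e < N.m, ¬ ar o e → N.f0.get e + s.1.get e = 0)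
      ⟨rfl, ⟨h1.net, fun e => (h1.bd e).trans (by omega), h1.tot.trans (by omega)⟩, by simp,
        fun e he _ => by simp [h2, he]⟩ ?_).mono ?_
    · rintro pre ⟨v, e⟩ rest s _ rfl ⟨rfl, g1, g2, g3⟩
      obtain ⟨⟨-, a2, a3, a4⟩, a5⟩ := gd_split ho
      simp only [vs_cons, not_or] at a2 a3 a4 a5 ⊢
      simp only [List.length_append, List.length_cons] at hlen
      have hne : N.hd.get e ≠ N.tl.get e := fun h => by
        rcases a4 with ⟨a, b⟩ | ⟨a, b⟩
        · exact a2 (a ▸ h ▸ b)
        · exact a2 (a ▸ h ▸ b)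
      have hvn : v < N.n := by
        have := hN.ends e a3
        rcases a4 with ⟨a, -⟩ | ⟨a, -⟩ <;> omega
      have hz : (if N.hd.get e = v then s.2.get v else -s.2.get v).natAbs ≤ 2 * F := by
        have := (single_le_sum (f := fun v => (s.2.get v).natAbs) (fun _ _ => Nat.zero_le _)
          (mem_range.2 hvn)).trans g1.tot
        split_ifs <;> omega
      have hp : pre.length * (2 * F) ≤ N.n * (2 * F) := Nat.mul_le_mul_right _ (by omega)
      refine (push_tri hN.ends g1 a3 (D' := 2 * F) (by nlinarith)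
        (Or.inr ⟨le_rfl, hne, ?_⟩)).mono ?_
      · rcases a4 with ⟨a, -⟩ | ⟨a, -⟩
        · simp [a]
        · simp [a, a ▸ hne]
      · rintro s' _ ⟨rfl, h4, h5, h6⟩
        refine ⟨by simp, ⟨h4.net, fun x => (h4.bd x).trans ?_, h4.tot⟩, fun u hu => ?_,
          fun x hx hn => ?_⟩
        · simp only [List.length_append, List.length_singleton, add_mul]
          omega
        · rw [h6]
          simp only [List.map_append, List.mem_append, List.map_cons, List.map_nil,
            List.mem_singleton] at hu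
          rcases hu with hu | rfl
          · have b := a5 u hu
            have b1 : N.hd.get e ≠ u := fun h => by rcases a4 with ⟨a, c⟩ | ⟨a, c⟩ <;> simp_all
            have b2 : N.tl.get e ≠ u := fun h => by rcases a4 with ⟨a, c⟩ | ⟨a, c⟩ <;> simp_all
            simp [Net.inc, b1, b2, g2 u hu]
          · rcases a4 with ⟨a, -⟩ | ⟨a, -⟩
            · simp [Net.inc, a, (a ▸ hne).symm]
            · simp [Net.inc, a, a ▸ hne]
        · have : x ≠ e := fun h => hn (by simp [ar, h])
          rw [h5, if_neg this, add_zero]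
          exact g3 x hx hn
    · rintro s' _ ⟨rfl, g1, g2, g3⟩
      refine ⟨?_, g3, fun e => (g1.bd e).trans (by nlinarith), by omega⟩
      have h3 : ∀ v < N.n, v ≠ 0 → s'.2.get v = 0 := fun v h h0 => g2 v ((hv v h).resolve_left h0)
      have h4 : s'.2.get 0 = 0 := by
        have a : ∑ v ∈ range N.n, (∑ e ∈ range N.m, s'.1.get e * N.inc e v + s'.2.get v) = 0 :=
          sum_eq_zero fun v _ => g1.net v
        rw [sum_add_distrib, sum_comm, sum_eq_zero, zero_add,
          sum_eq_single_of_mem 0 (mem_range.2 hN.npos) fun v h => h3 v (mem_range.1 h)] at a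
        · exact a
        · intro e he
          obtain ⟨b1, b2⟩ := hN.ends e (mem_range.1 he)
          simp [← mul_sum, Net.inc, b1, b2]
      intro v h
      have a := g1.net v
      by_cases h0 : v = 0
      · rwa [h0, h4, add_zero, ← h0] at a
      · rwa [h3 v h h0, add_zero] at a

end Vale.Agent.P305F
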