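import Vale.Agent.P305E.Arr
import Vale.Agent.P305E.Wp

/-!
# Flow: uniform random numbers, and loops with one more round
-/

namespace Vale.Agent.P305F

open Vale.Agent.P305E Finset

theorem foldM_append {σ β : Type} (f : σ → β → M σ) (s : σ) (l l' : List β) :
    foldM f s (l ++ l') = foldM f s l >>= fun s' => foldM f s' l' := by
  induction l generalizing s with
  | nil => simp [foldM]
  | cons x l ih =>
    simp only [List.cons_append, foldM, bind_assoc, ih]
    rfl

theorem iterM_zero {σ : Type} (f : σ → ℕ → M σ) (s : σ) : iterM f s 0 = pure s := rfl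

theorem iterM_succ {σ : Type} (f : σ → ℕ → M σ) (s : σ) (n : ℕ) :
    iterM f s (n + 1) = iterM f s n >>= fun s' => f s' n >>= fun s'' => .tick (pure s'') := by
  simp only [iterM, List.range_succ, foldM_append]
  rfl

theorem iterM_succ' {σ : Type} (f : σ → M σ) (s : σ) (n : ℕ) :
    iterM (fun s _ => f s) s (n + 1) =
      f s >>= fun s' => .tick (iterM (fun s _ => f s) s' n) := by
  have : ∀ (l l' : List ℕ) (s : σ), l.length = l'.length →
      foldM (fun s _ => f s) s l = foldM (fun s _ => f s) s l' := by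
    intro l
    induction l with
    | nil => intro l' s h; cases l' <;> simp_all
    | cons x l ih =>
      intro l' s h
      cases l' with
      | nil => simp at h
      | cons y l' =>
        simp only [foldM]
        congr 1
        funext s'
        rw [ih l' s' (by simpa using h)]
  simp only [iterM]
  rw [this (List.range (n + 1)) (0 :: List.range n) s (by simp)]
  rfl

@[simp] theorem wp_pay {β : Type} {B : ℕ} (t : ℕ) (b : β) (F : β → ℕ → ℝ) (p : ℝ) :
    wp B (pay t b) F p = F b t := by simp [pay]

/-- A uniform random number below `2 ^ k`. -/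
def randBits (k : ℕ) : M ℕ :=
  iterM (fun r _ => flip >>= fun b => num (2 * r + if b = true then 1 else 0)) 0 k

@[fun_prop] theorem impl_randBits : Impl randBits := by
  unfold randBits
  fun_prop

theorem Tri_randBits {B k : ℕ} (h : 2 ^ k ≤ B) :
    Tri ⟨B, true⟩ (randBits k) fun r t => r < 2 ^ k ∧ t = 2 * k := by
  refine Tri.iterM (fun i r t => r < 2 ^ i ∧ t = 2 * i) (by simp) ?_
  rintro i r t hi ⟨hr, rfl⟩
  have h1 : 2 ^ (i + 1) ≤ 2 ^ k := Nat.pow_le_pow_right (by norm_num) hi
  simp only [Tri_bind, Tri_flip, Tri_num, true_and]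
  intro b
  rw [pow_succ] at h1 ⊢
  split_ifs <;> omega

theorem sum_range_two_mul (g : ℕ → ℝ) (n : ℕ) :
    ∑ r ∈ range (n * 2), g r = ∑ r ∈ range n, (g (2 * r + 1) + g (2 * r)) := by
  induction n with
  | zero => simp
  | succ n ih =>
    rw [show (n + 1) * 2 = n * 2 + 1 + 1 by ring, sum_range_succ, sum_range_succ, ih,
      sum_range_succ, mul_comm n 2]
    ring

theorem wp_randBits {B k : ℕ} (h : 2 ^ k ≤ B) (F : ℕ → ℕ → ℝ) (p : ℝ) :
    wp B (randBits k) F p = (∑ r ∈ range (2 ^ k), F r (2 * k)) / 2 ^ k := by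
  induction k generalizing F with
  | zero => simp [randBits, iterM_zero]
  | succ k ih =>
    have h1 : 2 ^ k ≤ B := (Nat.pow_le_pow_right (by norm_num) (Nat.le_succ k)).trans h
    have ih' := ih h1
    unfold randBits at ih' ⊢
    rw [iterM_succ, wp_bind, ih', pow_succ, sum_range_two_mul, pow_succ (2 : ℝ), ← div_div,
      div_right_comm _ ((2 : ℝ) ^ k) 2, sum_div _ _ (2 : ℝ)]
    refine congrArg (· / (2 : ℝ) ^ k) (sum_congr rfl fun r hr => ?_)
    have hr' := mem_range.1 hr
    rw [pow_succ] at h
    have e1 : 2 * r + 1 ≤ B := by omega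
    have e2 : 2 * r ≤ B := by omega
    simp [e1, e2, mul_add]

end Vale.Agent.P305F
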