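import Vale.Agent.P305F.Net
import Vale.Agent.P305F.Rand
import Vale.Agent.P305E.MinArr
import Vale.Agent.P305S.Defs

/-!
# Flow, part 1: rooted trees, hierarchies, weighted trees, levels and their invariants
-/

namespace Vale.Agent.P305F

open Vale.Agent.P305E Vale.Agent.P305S Finset

/-! ### Rooted trees on `0, …, n - 1` -/

/-- The vertices on the way from `v` to the root, without the root (at most `k` steps). -/
def pathL (par : ℕ → ℕ) (rt : ℕ) : ℕ → ℕ → List ℕ
  | 0, _ => []
  | k + 1, v => if v = rt then [] else v :: pathL par rt k (par v)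

/-- A rooted tree of height at most `D`. -/
structure IsTree (n rt : ℕ) (par : ℕ → ℕ) (D : ℕ) : Prop where
  rt_lt : rt < n
  par_rt : par rt = rt
  par_lt : ∀ v < n, par v < n
  ht : ∃ h : ℕ → ℕ, (∀ v < n, h v ≤ D) ∧ ∀ v < n, v ≠ rt → h (par v) < h v

/-- The sum of the offsets on the way to the root. -/
def yof (par : ℕ → ℕ) (rt k : ℕ) (off : ℕ → ℤ) (v : ℕ) : ℤ := ((pathL par rt k v).map off).sum

/-- The offsets are the differences of `Y` along the tree. -/
def Rp (n rt : ℕ) (par : ℕ → ℕ) (off Y : ℕ → ℤ) : Prop :=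
  ∀ v < n, v ≠ rt → off v = Y v - Y (par v)

/-! ### Hierarchies -/

/-- The relabelling map stored in an array. -/
def relab (A : Arr ℕ) (a : ℕ) : ℕ := if A.get a = 0 then a else A.get a - 1

/-- The maps of a hierarchy. -/
def hier (cs : List (Arr ℕ)) : List (ℕ → ℕ) := cs.map relab

/-- A label of level `j` is fixed by the first `j` maps. -/
def Her (cs : List (ℕ → ℕ)) : Prop :=
  ∀ j v, ∀ c ∈ cs.take j, c (labAll (cs.take j) v) = labAll (cs.take j) v

/-- Labels are ends of edges. -/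
def Clo (E : List Edge) (cs : List (ℕ → ℕ)) : Prop := ∀ c ∈ cs, ∀ v, c v = v ∨ c v ∈ ends E

/-- The parent of `v`: its image under the first map that moves it, or else the root `r`. -/
def parOf : List (ℕ → ℕ) → ℕ → ℕ → ℕ
  | [], r, _ => r
  | c :: cs, r, v => if c v = v then parOf cs r v else c v

/-- One more entry, if the condition fails. -/
def ent (p : Prop) [Decidable p] (a : ℕ) (s : Bool) (acc : List (ℕ × Bool)) : List (ℕ × Bool) :=
  if p then acc else (a, s) :: acc

/-- The tree edges between `x` and `y` (marked `true` on the side of `x`), put on `acc`. -/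
def sdA (r : ℕ) : List (ℕ → ℕ) → ℕ → ℕ → List (ℕ × Bool) → List (ℕ × Bool)
  | [], x, y, acc => if x = y then acc else ent (x = r) x true (ent (y = r) y false acc)
  | c :: cs, x, y, acc => if x = y then acc else
      sdA r cs (c x) (c y) (ent (c x = x) x true (ent (c y = y) y false acc))

/-- What the static sampler achieves. -/
structure SampOK (B : ℕ) (sa : List Edge → M (List (Arr ℕ))) (Ls Ts Em Um : ℕ) (q Osc : ℝ) :
    Prop where
  tri : ∀ E : List Edge, E.length ≤ Em → (∀ e ∈ E, 1 ≤ e.2.2 ∧ e.1 < Em ∧ e.2.1 < Em) →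
    tot E ≤ Um → Tri ⟨B, true⟩ (sa E) fun cs t =>
      cs.length = Ls ∧ Her (hier cs) ∧ Clo E (hier cs) ∧ t ≤ Ts * (E.length + 1)
  wp : ∀ E : List Edge, E.length ≤ Em → (∀ e ∈ E, 1 ≤ e.2.2 ∧ e.1 < Em ∧ e.2.1 < Em) →
    tot E ≤ Um → ∀ ψ : ℕ → ℝ, (∀ a b, |ψ a - ψ b| ≤ Osc) →
      wp B (sa E) (fun cs _ => TN Osc ψ (hier cs) E) 0 ≤ q * nrm E ψ + 1

/-! ### Weighted trees -/

/-- Binary trees with the total weight at each node; a leaf is a weight and an arc. -/
abbrev WT : Type := BT ℕ (ℕ × ℕ)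

/-- The weight. -/
def ww (t : WT) : ℕ := caseT t (fun p => p.1) fun w _ _ => w

/-- The weights are consistent, the arcs of positive weight are below `m`. -/
def WOK (m : ℕ) : WT → Prop
  | .leaf p => p.1 = 0 ∨ p.2 < m
  | .node w l r => w = ww l + ww r ∧ WOK m l ∧ WOK m r

/-- The depth. -/
def dep : WT → ℕ
  | .leaf _ => 0
  | .node _ l r => max (dep l) (dep r) + 1

/-- The weight of the leaves of the arc `e`. -/
def mass (e : ℕ) : WT → ℕ
  | .leaf p => if p.2 = e then p.1 else 0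
  | .node _ l r => mass e l + mass e r

/-- The arc at position `x`. -/
def desc : WT → ℕ → ℕ
  | .leaf p, _ => p.2
  | .node _ l r, x => if x < ww l then desc l x else desc r (x - ww l)

/-- `t` collects the trees of `l`. -/
structure Coll (m d : ℕ) (l : List WT) (t : WT) : Prop where
  ok : WOK m t
  dp : dep t ≤ d
  w : ww t = (l.map ww).sum
  ms : ∀ e, mass e t = (l.map (mass e)).sum

/-! ### Parameters, levels, states -/

/-- The numbers that steer the algorithm. -/
structure Pm where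
  L : ℕ
  kb : ℕ
  Ls : ℕ
  bb : ℕ
  D : ℕ
  Lam : ℕ
  Dd : ℕ
  kk : ℕ
  hh : ℕ
  Ns : ℕ
  rb : ℕ
  Rb : ℕ
  J : ℕ
  lam0 : ℕ
  Dm : ℕ
  wd : ℕ

/-- A level: a rooted tree with a weighted tree and a gradient sum at each edge, the capacities at
the time of its construction, the good edges, and the arcs that were refreshed since. -/
structure Lev where
  rt : ℕ
  par : Arr ℕ
  wt : Arr WT
  G : Arr ℤ
  snap : Arr ℕ
  cand : MinArr
  U : List ℕ

/-- A state: the levels `0, …, L + 1`, the offsets of the potential along the top tree, and the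
scaled slacks at the time of the last refresh. -/
structure St where
  lv : Arr Lev
  off : Arr ℤ
  sg : Arr ℕ

/-- The capacity for the scaled slack `σ`. -/
def Pm.g (P : Pm) (σ : ℕ) : ℕ := gam P.D P.Lam P.Dd σ

/-- The top level. -/
def St.top (P : Pm) (x : St) : Lev := x.lv.get (P.L + 1)

/-- A tree edge with a large gradient sum. -/
def good (kk : ℕ) (t : WT) (g : ℤ) : Prop := ww t < kk * g.natAbs

instance (kk : ℕ) (t : WT) (g : ℤ) : Decidable (good kk t g) := by unfold good; infer_instance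

/-- The norm of `ψ` on the tree of a level. -/
noncomputable def Lev.nm (n : ℕ) (v : Lev) (ψ : ℕ → ℝ) : ℝ :=
  ∑ a ∈ range n, (ww (v.wt.get a) : ℝ) * |ψ a - ψ (v.par.get a)|

/-- The ancestors of the root and of the ends of the refreshed arcs. -/
def InA (N : Net) (v : Lev) (a : ℕ) : Prop :=
  ∃ x j, (x = v.rt ∨ ∃ e ∈ v.U, x = N.hd.get e ∨ x = N.tl.get e) ∧ v.par.get^[j] x = a

/-- The invariant of the level number `i`; `lam` is the scaled multiplier, `gm` bounds the
capacities, `sg` are the scaled slacks of the last refresh. -/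
structure LevOK (N : Net) (P : Pm) (gm lam : ℕ) (sg : ℕ → ℕ) (i : ℕ) (v : Lev) : Prop where
  tree : IsTree N.n v.rt v.par.get (1 + i * (P.Ls + 1))
  wok : ∀ a < N.n, WOK N.m (v.wt.get a) ∧ dep (v.wt.get a) ≤ i * P.bb
  tot : ∑ a ∈ range N.n, ww (v.wt.get a) + N.m * gm ≤ (2 * P.Ls + 3) ^ i * (N.m * gm)
  grad : ∀ ψ : ℕ → ℝ, ∑ a ∈ range N.n, (v.G.get a : ℝ) * (ψ a - ψ (v.par.get a)) =
    ∑ e ∈ range N.m, ((v.snap.get e : ℝ) - lam * N.f0.get e) * N.dl ψ e
  grt : v.G.get v.rt = 0
  mss : ∀ e < N.m, e ∉ v.U → ∀ ψ : ℕ → ℝ, (v.snap.get e : ℝ) * |N.dl ψ e| ≤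
    ∑ a ∈ range N.n, (mass e (v.wt.get a) : ℝ) * |ψ a - ψ (v.par.get a)|
  snp : ∀ e < N.m, e ∉ v.U → v.snap.get e = P.g (sg e)
  snb : ∀ e < N.m, v.snap.get e ≤ gm + lam * N.f0.get e
  ult : ∀ e ∈ v.U, e < N.m
  cnd : ∀ a, v.cand.get a =
    if a < N.n ∧ good P.kk (v.wt.get a) (v.G.get a) then some (0, a) else none

/-- The level `hi` arises from the level `lo` by changes at the ancestors of refreshed arcs. -/
structure Ref (N : Net) (lo hi : Lev) : Prop where
  sub : ∀ e ∈ hi.U, e ∈ lo.U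
  same : ∀ v < N.n, ¬ InA N lo v → hi.par.get v = lo.par.get v
  clo : ∀ v < N.n, InA N lo v → InA N lo (hi.par.get v)
  rt : InA N lo hi.rt
  dom : ∀ ψ, lo.nm N.n ψ ≤ hi.nm N.n ψ

/-- The scaled potential of a state, normalised at the vertex `0`. -/
def Ys (N : Net) (P : Pm) (x : St) (v : ℕ) : ℤ :=
  if v < N.n then yof (x.top P).par.get (x.top P).rt P.Dm x.off.get v -
    yof (x.top P).par.get (x.top P).rt P.Dm x.off.get 0 else 0

/-- The potential of a state. -/
noncomputable def yR (N : Net) (P : Pm) (x : St) (v : ℕ) : ℝ := (Ys N P x v : ℝ) / P.D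

/-- The scaled slack of an arc. -/
def sigOf (N : Net) (P : Pm) (x : St) (e : ℕ) : ℕ :=
  ((P.D * N.c.get e : ℕ) - (Ys N P x (N.hd.get e) - Ys N P x (N.tl.get e)) : ℤ).toNat

/-- What a rebuild above the level `i` needs. -/
structure Pre (N : Net) (P : Pm) (gm C lam : ℕ) (x : St) (i : ℕ) : Prop where
  lev : ∀ l ≤ i, LevOK N P gm lam x.sg.get l (x.lv.get l)
  ref : ∀ l l', l ≤ l' → l' ≤ i → Ref N (x.lv.get l) (x.lv.get l')
  tree : IsTree N.n (x.top P).rt (x.top P).par.get P.Dm
  same : ∀ v < N.n, ¬ InA N (x.lv.get i) v → (x.top P).par.get v = (x.lv.get i).par.get v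
  rt : InA N (x.lv.get i) (x.top P).rt
  u0 : (x.lv.get 0).U = List.range N.m
  sgb : ∀ e < N.m, 0 < x.sg.get e ∧ x.sg.get e ≤ 3 * C * P.D ∧ P.g (x.sg.get e) ≤ gm
  pos : N.Pos (yR N P x)

/-- The structural invariant of states. -/
structure Inv (N : Net) (P : Pm) (gm C lam : ℕ) (x : St) : Prop where
  lev : ∀ l ≤ P.L + 1, LevOK N P gm lam x.sg.get l (x.lv.get l)
  ref : ∀ l l', l ≤ l' → l' ≤ P.L + 1 → Ref N (x.lv.get l) (x.lv.get l')
  u0 : (x.lv.get 0).U = List.range N.m
  sgb : ∀ e < N.m, 0 < x.sg.get e ∧ x.sg.get e ≤ 3 * C * P.D ∧ P.g (x.sg.get e) ≤ gm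
  pos : N.Pos (yR N P x)

/-! ### The construction of a level -/

/-- An edge of the graph to be sparsified: ends, weighted tree, gradient flow. -/
abbrev HEdge : Type := ℕ × ℕ × WT × ℤ

/-- The edges: tree edges at the vertices of `A` and fresh copies of the arcs of `U`. -/
def hEdges (N : Net) (P : Pm) (sg : ℕ → ℕ) (b : Lev) (A U : List ℕ) : List HEdge :=
  (A.map fun a => (a, b.par.get a, b.wt.get a, b.G.get a)) ++
  U.map fun e => (N.hd.get e, N.tl.get e, BT.leaf (P.g (sg e), e),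
    (P.g (sg e) : ℤ) - b.snap.get e)

/-- The input of the sampler. -/
def sEdges (H : List HEdge) : List Edge :=
  H.filterMap fun h => if ww h.2.2.1 = 0 then none else some (h.1, h.2.1, ww h.2.2.1)

/-- The contributions of one edge to the edges of the new tree. -/
def entsOf (cs : List (ℕ → ℕ)) (r : ℕ) (h : HEdge) : List (ℕ × WT × ℤ) :=
  (sdA r cs h.1 h.2.1 []).map fun p => (p.1, h.2.2.1, if p.2 = true then h.2.2.2 else -h.2.2.2)

/-- All contributions. -/
def ents (cs : List (ℕ → ℕ)) (r : ℕ) (H : List HEdge) : List (ℕ × WT × ℤ) :=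
  (H.map (entsOf cs r)).flatten

/-- `v` is built on the level `b` (number `i`) with the lists `A`, `U` and the hierarchy `cs`. -/
structure Built (N : Net) (P : Pm) (sg : ℕ → ℕ) (i : ℕ) (b : Lev) (A U : List ℕ)
    (cs : List (ℕ → ℕ)) (v : Lev) : Prop where
  ndA : A.Nodup
  memA : ∀ a, a ∈ A ↔ InA N b a
  ndU : U.Nodup
  memU : ∀ e, e ∈ U ↔ e ∈ b.U
  len : cs.length = P.Ls
  her : Her cs
  clo : Clo (sEdges (hEdges N P sg b A U)) cs
  rt : v.rt = labAll cs b.rt
  par : ∀ a, v.par.get a = if a ∈ A then parOf cs v.rt a else b.par.get a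
  G : ∀ a, v.G.get a = if a ∈ A then
    (((ents cs v.rt (hEdges N P sg b A U)).filter fun p => p.1 = a).map fun p => p.2.2).sum
    else b.G.get a
  wtA : ∀ a ∈ A, Coll N.m ((i + 1) * P.bb)
    (((ents cs v.rt (hEdges N P sg b A U)).filter fun p => p.1 = a).map fun p => p.2.1)
    (v.wt.get a)
  wt : ∀ a, a ∉ A → v.wt.get a = b.wt.get a
  snap : ∀ e, v.snap.get e = if e ∈ U then P.g (sg e) else b.snap.get e
  cnd : ∀ a, v.cand.get a = if a ∈ A then
    (if good P.kk (v.wt.get a) (v.G.get a) then some (0, a) else none) else b.cand.get a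
  U : v.U = []

/-- The virtual level `0`: a star without capacities. -/
structure Virt (N : Net) (lam : ℕ) (v : Lev) : Prop where
  rt : v.rt = 0
  par : v.par = Arr.const 0
  wt : v.wt = Arr.const (BT.leaf (0, 0))
  G : v.G = Arr.const 0
  snap : ∀ e < N.m, v.snap.get e = lam * N.f0.get e
  cand : v.cand = MinArr.empty
  U : v.U = List.range N.m

end Vale.Agent.P305F
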