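import Vale.Agent.P305F.Round2

/-!
# Flow: one phase, the first state and the list of tight arcs
-/

namespace Vale.Agent.P305F

open Vale.Agent.P305E Vale.Agent.P305S Finset

/-- What the start of a phase needs. -/
structure Ent (N : Net) (P : Pm) (gm C : ℕ) (x : St) : Prop where
  tree : IsTree N.n (x.top P).rt (x.top P).par.get P.Dm
  sgb : ∀ e < N.m, 0 < x.sg.get e ∧ x.sg.get e ≤ 3 * C * P.D ∧ P.g (x.sg.get e) ≤ gm
  pos : N.Pos (yR N P x)

/-- The price of a phase without its rounds. -/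
def cPh (N : Net) (P : Pm) (Ts : ℕ) : ℕ := 2 * N.m + cReb P Ts * (N.m + 1) + 2 * P.Rb

variable {B : ℕ} {N : Net} {P : Pm} {C F gm lam lamM Em Um Ts : ℕ} {q Z K ρ Xc Xb β τ : ℝ}
  {sa : List Edge → M (List (Arr ℕ))} {x : St} {ys : ℕ → ℝ}

theorem Inv.ent (hP : PmOK B N P C F gm lamM Em Um) (h : Inv N P gm C lam x) : Ent N P gm C x :=
  ⟨(h.lev _ le_rfl).tree.mono hP.dm, h.sgb, h.pos⟩

theorem PmOK.lamF (hP : PmOK B N P C F gm lamM Em Um) (hl : lam ≤ lamM) : lam * F ≤ B := by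
  refine le_trans ?_ hP.gB
  refine le_trans ?_ (Nat.le_mul_of_pos_left _ (by positivity))
  exact (Nat.mul_le_mul_right _ hl).trans (Nat.le_add_left _ _)

theorem Tri_startP {Osc : ℝ} (hP : PmOK B N P C F gm lamM Em Um)
    (hs : SampOK B sa P.Ls Ts Em Um q Osc) (hl : lam ≤ lamM) (h : Ent N P gm C x) :
    Tri ⟨B, true⟩ (startP sa N P x lam) fun x' t =>
      Inv N P gm C lam x' ∧ x'.sg = x.sg ∧ Ys N P x' = Ys N P x ∧ (x'.top P).U = [] ∧
      Tp P Ts x' = 0 ∧ t ≤ 2 * N.m + cReb P Ts * (N.m + 1) := by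
  unfold startP
  refine (Tri_virtP (c := ⟨B, true⟩) hP.net (hP.lamF hl)).bind ?_
  rintro v t ⟨hv, rfl⟩
  have e0 : St.top P ⟨x.lv.set 0 v, x.off, x.sg⟩ = x.top P := by simp [St.top]
  have e1 : Ys N P ⟨x.lv.set 0 v, x.off, x.sg⟩ = Ys N P x := by
    funext a
    simp only [Ys, e0]
  have e2 : (St.mk (x.lv.set 0 v) x.off x.sg).lv.get 0 = v := by simp
  have hpre : Pre N P gm C lam ⟨x.lv.set 0 v, x.off, x.sg⟩ 0 := by
    refine ⟨fun l hl => ?_, fun l l' h1 h2 => ?_, by rw [e0]; exact h.tree, fun a ha hna => ?_,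
      ?_, by rw [e2]; exact hv.U, h.sgb, by rw [yR_congr e1]; exact h.pos⟩
    · obtain rfl : l = 0 := by omega
      rw [e2]
      exact hv.levOK hP.net
    · obtain rfl : l' = 0 := by omega
      obtain rfl : l = 0 := by omega
      exact Ref.refl _ _
    · rw [e2] at hna
      exact absurd (hv.inA hP.net ha) hna
    · rw [e2, e0]
      exact hv.inA hP.net h.tree.rt_lt
  refine (Tri_rebuild hP hs hl (Nat.zero_le _) hpre).mono ?_
  rintro x' t ⟨k1, k2, k3, -, k5, k6, k7⟩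
  rw [e2, hv.U, List.length_range] at k7
  refine ⟨k1, k2, k3.trans e1, k6, ?_, by omega⟩
  have : ∑ l ∈ range P.L, ((x'.lv.get (l + 1)).U.length : ℝ) = 0 :=
    sum_eq_zero fun l hl => by
      rw [k5 (l + 1) (by omega) (by have := mem_range.1 hl; omega), k6]
      simp
  simp only [Tp, this, mul_zero]

theorem Tht_le (hP : PmOK B N P C F gm lamM Em Um) (hA : AnOK B N P C F gm lamM Um q Z K ρ Xc β)
    (h : Inv N P gm C lam x) (hys : N.Feas ys) :
    Tht N P ys q Z ρ x ≤ 2 * ρ ^ (P.L + 1) * P.mm * K := by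
  have hQ : 1 ≤ q * Z := by nlinarith [hA.q1, hA.Z1]
  have hM := hP.M0_ge
  have e := Th_le (M0 := P.M0) (Q := q * Z) (ρ := ρ) (k := 2 ^ P.kb) (L := P.L) (K := K)
    (Bf := Bf N P ys x) (by linarith) hQ (by linarith [hA.rho8]) (by linarith [hA.two_le]) hA.K0
    fun j _ hj => by
      have k1 := (h.lev j hj).nm_le (phi_osc hP hys h.pos)
      have k2 : (2 * P.Ls + 3) ^ j * (N.m * gm) ≤ Um :=
        (Nat.mul_le_mul_right _ (Nat.pow_le_pow_right (by omega) hj)).trans hP.um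
      have k3 : (((2 * P.Ls + 3) ^ j * (N.m * gm) : ℕ) : ℝ) ≤ Um := by exact_mod_cast k2
      have k4 := mul_le_mul_of_nonneg_right k3 (by positivity : (0 : ℝ) ≤ 4 * C)
      simp only [Bf]
      linarith [hA.nu]
  have e1 : ((2 ^ P.kb : ℕ) : ℝ) ^ P.L = P.mm := by
    unfold Pm.mm
    push_cast
    rfl
  rwa [e1] at e

open Classical in
theorem wp_phase (hP : PmOK B N P C F gm lamM Em Um) (hA : AnOK B N P C F gm lamM Um q Z K ρ Xc β)
    (hs : SampOK B sa P.Ls Ts Em Um q (4 * C)) (hl : lam ≤ lamM) (hl2 : 2 * lam ≤ B)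
    (hR : 2 ^ P.Rb ≤ B) (hys : N.DOpt ys) (hX : Xb ≤ Xc) (hτ : 0 ≤ τ) (h : Ent N P gm C x)
    (hXb : XiS N P C lam (N.obj ys) x ≤ Xb) {a C₀ : ℝ} (ha : 0 ≤ a) (hC : 0 ≤ C₀)
    {G : St × ℕ → ℕ → ℝ} (hG1 : ∀ s t, G s t ≤ 1)
    (hG : ∀ x' t, II N P gm C lam ys Xb x' →
      G (x', 2 * lam) t ≤ a * (if Act N P lam ys x' then 1 else 0) + Y0 N P β x' + τ * t + C₀)
    (t0 : ℕ) :
    wp B (phase sa N P (x, lam)) (fun s t => G s (t0 + t)) 1 ≤
      a * ((c1 P ρ * Xb + 2 * ρ ^ (P.L + 1) * P.mm * K) / 2 ^ P.Rb + 18 * ρ ^ (P.L + 1) / Z) +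
      Y0 N P β x + τ * (t0 + cPh N P Ts) + C₀ +
      2 ^ P.Rb * (N.m / Real.exp (β / (48 * P.kk)) + τ * cRound P Ts) := by
  have hr := roundOK (Ts := Ts) (sa := sa) (Xb := Xb) hP hA hs hl hys hX hτ
  have hρ := hA.rho8
  unfold phase
  rw [wp_bind]
  refine wp_le_const_of_Tri (c := ⟨B, true⟩) (Tri_startP hP hs hl h) ?_ 1
  rintro x1 t ⟨k1, k2, k3, k4, k5, k6⟩
  have hI : II N P gm C lam ys Xb x1 := ⟨k1, k4, by rwa [XiS_congr k3]⟩
  have e1 := hr.rand_le ha hC (F := fun x' t => G (x', 2 * lam) t) (fun _ _ => hG1 _ _)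
    (fun x' t hx' => (hG x' t hx').trans (by
      have := mul_nonneg hτ (Tp_nonneg (P := P) (Ts := Ts) (x := x'))
      simp only [Nn]
      linarith)) hR hI (t0 + t)
  rw [← bind_assoc, wp_bind]
  simp only [wp_bind, wp_num, if_pos hl2, wp_pure, Nat.add_zero, ← Nat.add_assoc] at e1 ⊢
  refine e1.trans ?_
  have e2 : Nn N P Ts β τ x1 = Y0 N P β x := by
    simp only [Nn, k5, mul_zero, add_zero, Y0, Yp_congr k2 k3]
  have e3 : Pot N P C lam ys q Z ρ x1 ≤ c1 P ρ * Xb + 2 * ρ ^ (P.L + 1) * P.mm * K := by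
    have hc1 : 0 ≤ c1 P ρ := by unfold c1; positivity
    exact add_le_add (mul_le_mul_of_nonneg_left hI.2.2 hc1) (Tht_le hP hA k1 hys.1)
  have e4 := mul_le_mul_of_nonneg_left
    (div_le_div_of_nonneg_right e3 (by positivity : (0 : ℝ) ≤ 2 ^ P.Rb)) ha
  have e5 : ((t0 + t : ℕ) : ℝ) + 2 * P.Rb ≤ t0 + cPh N P Ts := by
    have : t0 + t + 2 * P.Rb ≤ t0 + cPh N P Ts := by unfold cPh; omega
    exact_mod_cast this
  have e6 := mul_le_mul_of_nonneg_left e5 hτ
  rw [e2]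
  linarith

theorem Tri_tightP {c : Cx} (hP : PmOK c.B N P C F gm lamM Em Um) (h : Ent N P gm C x) :
    Tri c (tightP N P x) fun l t => l.Nodup ∧ N.Tight (yR N P x) l ∧
      t ≤ N.m * (4 * P.Dm + 2) := by
  unfold tightP
  simp only [Tri_bind, Tri_rangeP]
  have hD : (0 : ℝ) < P.D := by exact_mod_cast hP.d_pos
  refine (Tri.iterM (fun k acc t => acc.Nodup ∧
    (∀ e, e ∈ acc ↔ e < k ∧ N.sl (yR N P x) e < 1 / 2) ∧ t ≤ k * (4 * P.Dm + 1))
    (by simp) ?_).mono ?_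
  · rintro k acc t hk ⟨h1, h2, h3⟩
    refine (Tri_sigP hP.net hP.d_pos hP.yB h.tree le_rfl h.pos hk).bind ?_
    rintro s t' ⟨rfl, ht'⟩
    have e1 : 2 * sigOf N P x k < P.D ↔ N.sl (yR N P x) k < 1 / 2 := by
      rw [← sigOf_eq hP.net hP.d_pos h.pos hk, div_lt_div_iff₀ hD (by norm_num), one_mul,
        mul_comm]
      exact_mod_cast Iff.rfl
    simp only [Tri_pure]
    refine ⟨?_, fun e => ?_, by rw [Nat.succ_mul]; omega⟩
    · split_ifs
      · exact List.nodup_cons.2 ⟨fun hm => absurd ((h2 k).1 hm).1 (lt_irrefl _), h1⟩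
      · exact h1
    · rcases eq_or_ne e k with rfl | hne
      · split_ifs with h4
        · exact iff_of_true List.mem_cons_self ⟨Nat.lt_succ_self _, e1.1 h4⟩
        · rw [h2, ← e1]
          simp [h4]
      · have : e < k + 1 ↔ e < k := by omega
        split_ifs <;> simp [h2, hne, this]
  · rintro l t ⟨h1, h2, h3⟩
    exact ⟨h1, h2, by rw [Nat.mul_add] at h3 ⊢; omega⟩

theorem Tri_initP {c : Cx} (hP : PmOK c.B N P C F gm lamM Em Um) (hl : P.lam0 ≤ lamM)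
    (hX1 : 1 ≤ Xc) (hgm : 2 * P.Lam * Xc ^ 2 / P.δ + 2 ≤ gm) :
    Tri c (initP N P) fun x t => Ent N P gm C x ∧ (yR N P x = fun _ => 0) ∧
      Yp N P β x = N.m ∧ t = 3 * N.m := by
  unfold initP
  have hD : (0 : ℝ) < P.D := by exact_mod_cast hP.d_pos
  refine (Tri_virtP hP.net (hP.lamF hl)).bind ?_
  rintro v t ⟨hv, rfl⟩
  rw [hv.U]
  refine Tri.bind (Tri.iterM (fun k (arr : Arr ℕ) t =>
    (∀ e < k, arr.get e = P.D * N.c.get e) ∧ t = k) (by simp) ?_) ?_
  · rintro k arr t hk ⟨h1, rfl⟩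
    simp only [Tri_bind, Tri_num, Tri_pure]
    refine ⟨le_trans ?_ hP.yB, fun e he => ?_, trivial⟩
    · have := hP.net.c_le t hk
      nlinarith
    · rw [Arr.get_set]
      split_ifs with h2
      · rw [h2]
      · exact h1 e (by omega)
  · rintro sg t ⟨h1, rfl⟩
    have e0 : yR N P ⟨Arr.const v, Arr.const 0, sg⟩ = fun _ => 0 := by
      funext a
      have : ∀ l : List ℕ, (l.map (Arr.const (0 : ℤ)).get).sum = 0 := fun l =>
        List.sum_eq_zero fun z hz => by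
          obtain ⟨_, _, rfl⟩ := List.mem_map.1 hz
          rfl
      simp [yR, Ys, yof, this]
    simp only [Tri_pure]
    refine ⟨⟨?_, fun e he => ?_, by rw [e0]; exact Net.pos_zero hP.net⟩, e0, ?_, by omega⟩
    · have := (hv.levOK (P := P) (gm := gm) (sg := sg.get) hP.net).tree
      exact this.mono (by have := hP.dm; omega)
    · have k1 := hP.net.c_pos e he
      have k2 := hP.net.c_le e he
      have k3 : 0 < P.D * N.c.get e := Nat.mul_pos hP.d_pos k1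
      simp only [h1 e he]
      refine ⟨k3, by nlinarith, ?_⟩
      have k4 : (1 : ℝ) ≤ N.c.get e := by exact_mod_cast k1
      have k5 := gam_le_of (Lam := P.Lam) hP.d_pos hP.δ_mul k3 hP.δ_pos hX1 (by
        have := hP.δ_le
        rw [Nat.cast_mul, mul_div_cancel_left₀ _ hD.ne']
        nlinarith)
      exact_mod_cast k5.trans hgm
    · have : ∀ e ∈ range N.m,
          Real.exp (β * zz N P ⟨Arr.const v, Arr.const 0, sg⟩ e) = 1 := fun e he => by
        simp only [zz, e0, h1 e (mem_range.1 he), Net.sl, Net.dl]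
        rw [Nat.cast_mul, mul_div_cancel_left₀ _ hD.ne']
        simp
      rw [Yp, sum_congr rfl this]
      simp

end Vale.Agent.P305F
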