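import Vale.Agent.P305F.Dual1

/-!
# Flow: all phases, and the specification of the dual solver
-/

namespace Vale.Agent.P305F

open Vale.Agent.P305E Vale.Agent.P305S Finset

/-- The conditions on the parameters of the outer loop; `K0` bounds the logarithm of the largest
slack. -/
structure OutOK (B : ℕ) (P : Pm) (C F lamM K0 : ℕ) (Z K ρ Xc : ℝ) : Prop where
  lam : lamM = P.lam0 * 2 ^ P.J
  lamB : lamM ≤ B
  rB : 2 ^ P.Rb ≤ B
  j1 : 1 ≤ P.J
  k0 : 3 * C ≤ 2 ^ K0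
  lam0 : P.lam0 * (C * F) ≤ P.Lam * P.mm
  lamL : 32 * P.mm * P.Lam < lamM
  xc : P.mm * (K0 + 2) + (lamM : ℝ) / P.Lam * (3 * C * F) ≤ Xc
  rr : 20 * P.J * (c1 P ρ * (P.mm * (K0 + 2) + 8 * P.mm * P.J) +
    2 * ρ ^ (P.L + 1) * P.mm * K) ≤ 2 ^ P.Rb
  zz : 360 * P.J * ρ ^ (P.L + 1) ≤ Z

/-- The expected running time of the dual solver. -/
def cDual (N : Net) (P : Pm) (Ts : ℕ) : ℕ :=
  3 * N.m + N.m * (4 * P.Dm + 2) + P.J * (cPh N P Ts + 1 + 2 ^ P.Rb * cRound P Ts)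

/-- The value of the last `j` phases. -/
noncomputable def Val (B : ℕ) (sa : List Edge → M (List (Arr ℕ))) (N : Net) (P : Pm)
    (G : List ℕ → ℕ → ℝ) (j : ℕ) (s : St × ℕ) (t0 : ℕ) : ℝ :=
  wp B (iterM (fun s _ => phase sa N P s) s j >>= fun s => tightP N P s.1)
    (fun l t => G l (t0 + t)) 1

variable {B : ℕ} {N : Net} {P : Pm} {C F gm lam lamM Em Um Ts K0 : ℕ} {q Z K ρ Xc β τ : ℝ}
  {sa : List Edge → M (List (Arr ℕ))} {x : St} {ys : ℕ → ℝ} {G : List ℕ → ℕ → ℝ}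

theorem Val_zero (s : St × ℕ) (t0 : ℕ) :
    Val B sa N P G 0 s t0 = wp B (tightP N P s.1) (fun l t => G l (t0 + t)) 1 := by
  simp [Val, iterM_zero]

theorem Val_succ (j : ℕ) (s : St × ℕ) (t0 : ℕ) : Val B sa N P G (j + 1) s t0 =
    wp B (phase sa N P s) (fun s' t => Val B sa N P G j s' (t0 + t + 1)) 1 := by
  unfold Val
  rw [iterM_succ', bind_assoc, wp_bind]
  refine wp_congr fun s' t => ?_
  simp only [wp_bind, wp_tick]
  refine wp_congr fun s'' t' => wp_congr fun l t'' => ?_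
  congr 1
  omega

theorem Val_le_one (hG : ∀ l t, G l t ≤ 1) (j : ℕ) (s : St × ℕ) (t0 : ℕ) :
    Val B sa N P G j s t0 ≤ 1 := wp_le_const (fun _ _ => hG _ _) le_rfl

theorem XiS_double (hP : PmOK B N P C F gm lamM Em Um) (lb : ℝ) :
    XiS N P C (2 * lam) lb x =
      XiS N P C lam lb x + (lam : ℝ) / P.Lam * (N.obj (yR N P x) - lb) := by
  unfold XiS
  rw [← Net.Xi_double]
  congr 1
  push_cast
  ring

theorem gap_le_Wv (hP : PmOK B N P C F gm lamM Em Um) (hys : N.DOpt ys) {y : ℕ → ℝ}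
    (hy : N.Pos y) (l : ℝ) : l * (N.obj y - N.obj ys) ≤ N.Wv l P.δ ys y := by
  refine le_add_of_nonneg_right (sum_nonneg fun e he => mul_nonneg ?_ ?_)
  · have := hy e (mem_range.1 he)
    have := hP.δ_pos
    unfold uu
    positivity
  · exact Net.yc_feas hP.net hys.1 hP.δ_pos.le hP.δ_le e (mem_range.1 he)

theorem crude_step (hP : PmOK B N P C F gm lamM Em Um) (hys : N.DOpt ys) {X : ℝ}
    (hy : N.Pos (yR N P x)) (h : XiS N P C lam (N.obj ys) x ≤ X + lam / P.Lam * (3 * C * F)) :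
    XiS N P C (2 * lam) (N.obj ys) x ≤ X + ((2 * lam : ℕ) : ℝ) / P.Lam * (3 * C * F) := by
  rw [XiS_double hP]
  have h1 := Net.obj_le hP.net hy.feas
  have h2 := Net.obj_nonneg hys.1
  have h3 : (lam : ℝ) / P.Lam * (N.obj (yR N P x) - N.obj ys) ≤ lam / P.Lam * (3 * C * F) :=
    mul_le_mul_of_nonneg_left (by linarith) (by positivity)
  have h4 : ((2 * lam : ℕ) : ℝ) / P.Lam * (3 * C * F) =
      lam / P.Lam * (3 * C * F) + lam / P.Lam * (3 * C * F) := by
    push_cast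
    ring
  linarith

theorem le_Xc (hO : OutOK B P C F lamM K0 Z K ρ Xc) (hl : lam ≤ lamM) :
    P.mm * (K0 + 2) + (lam : ℝ) / P.Lam * (3 * C * F) ≤ Xc := by
  refine le_trans ?_ hO.xc
  have : (lam : ℝ) ≤ lamM := by exact_mod_cast hl
  gcongr

section
variable (hP : PmOK B N P C F gm lamM Em Um) (hA : AnOK B N P C F gm lamM Um q Z K ρ Xc β)
  (hO : OutOK B P C F lamM K0 Z K ρ Xc) (hs : SampOK B sa P.Ls Ts Em Um q (4 * C))
  (hys : N.DOpt ys) (hτ : 0 ≤ τ) (hG1 : ∀ l t, G l t ≤ 1)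
include hP hA hO hs hys hτ hG1

theorem Val_crude {C₁ w : ℝ} (hC : 0 ≤ C₁)
    (hw : τ * (cPh N P Ts + 1) +
      2 ^ P.Rb * (N.m / Real.exp (β / (48 * P.kk)) + τ * cRound P Ts) = w)
    (hG : ∀ l t, l.Nodup → (∀ e ∈ l, e < N.m) → G l t ≤ C₁ + τ * t) :
    ∀ (j lam : ℕ) (x : St) (t0 : ℕ), lam * 2 ^ j = lamM → Ent N P gm C x →
      XiS N P C lam (N.obj ys) x ≤ P.mm * (K0 + 2) + (lam : ℝ) / P.Lam * (3 * C * F) →
      Val B sa N P G j (x, lam) t0 ≤
        C₁ + Y0 N P β x + τ * t0 + j * w + τ * (N.m * (4 * P.Dm + 2) : ℕ) := by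
  have hw0 : 0 ≤ w := by rw [← hw]; positivity
  intro j
  induction j with
  | zero =>
    intro lam x t0 _ h _
    rw [Val_zero]
    refine wp_le_const_of_Tri (c := ⟨B, true⟩) (Tri_tightP hP h) ?_ 1
    rintro l t ⟨k1, k2, k3⟩
    have e1 := hG l (t0 + t) k1 fun e he => ((k2 e).1 he).1
    have e2 : (t : ℝ) ≤ (N.m * (4 * P.Dm + 2) : ℕ) := by exact_mod_cast k3
    have e3 := mul_le_mul_of_nonneg_left e2 hτ
    have e4 := Y0_nonneg (N := N) (P := P) (β := β) (x := x)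
    push_cast at e1 e3 ⊢
    linarith
  | succ j ih =>
    intro lam x t0 hl h hX
    have hl2 : 2 * lam * 2 ^ j = lamM := by rw [← hl]; ring
    have hl3 : 2 * lam ≤ lamM := hl2 ▸ Nat.le_mul_of_pos_right _ (by positivity)
    rw [Val_succ]
    have e := wp_phase (Ts := Ts) hP hA hs (by omega : lam ≤ lamM) (hl3.trans hO.lamB) hO.rB hys
      (le_Xc hO (by omega : lam ≤ lamM)) hτ h hX (a := 0)
      (C₀ := C₁ + τ + j * w + τ * (N.m * (4 * P.Dm + 2) : ℕ)) le_rfl (by positivity)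
      (G := fun s t => Val B sa N P G j s (t + 1)) (fun _ _ => Val_le_one hG1 _ _ _)
      (fun x' t hx' => by
        have := ih (2 * lam) x' (t + 1) hl2 (hx'.1.ent hP) (crude_step hP hys hx'.1.pos hx'.2.2)
        push_cast at this ⊢
        linarith) t0
    push_cast at e ⊢
    linarith

theorem Val_good {C₀ C₁ w : ℝ} (hC : 0 ≤ C₀) (hC' : C₀ ≤ C₁)
    (hw : τ * (cPh N P Ts + 1) +
      2 ^ P.Rb * (N.m / Real.exp (β / (48 * P.kk)) + τ * cRound P Ts) = w)
    (hG : ∀ l t, l.Nodup → (∀ e ∈ l, e < N.m) → G l t ≤ C₁ + τ * t)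
    (hG' : ∀ l t y, l.Nodup → N.Pos y → N.obj y - N.obj ys < 1 / 2 → N.Tight y l →
      G l t ≤ C₀ + τ * t) :
    ∀ (j lam : ℕ) (x : St) (t0 : ℕ), j ≤ P.J → lam * 2 ^ j = lamM → Ent N P gm C x →
      XiS N P C lam (N.obj ys) x ≤ P.mm * (K0 + 2) + (lam : ℝ) / P.Lam * (3 * C * F) →
      XiS N P C lam (N.obj ys) x ≤ P.mm * (K0 + 2) + 8 * P.mm * (P.J - j : ℝ) →
      (j = 0 → N.obj (yR N P x) - N.obj ys < 1 / 2) →
      Val B sa N P G j (x, lam) t0 ≤ C₀ + j * ((C₁ - C₀) / (10 * P.J)) +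
        Y0 N P β x + τ * t0 + j * w + τ * (N.m * (4 * P.Dm + 2) : ℕ) := by
  classical
  have hw0 : 0 ≤ w := by rw [← hw]; positivity
  have hJ : (1 : ℝ) ≤ P.J := by exact_mod_cast hO.j1
  have ha : 0 ≤ C₁ - C₀ := by linarith
  have hρ := hA.rho8
  have hm : (0 : ℝ) < P.mm := by exact_mod_cast P.mm_pos
  have hL : (0 : ℝ) < P.Lam := by exact_mod_cast hP.lam_pos
  intro j
  induction j with
  | zero =>
    intro lam x t0 _ _ h _ _ hg
    rw [Val_zero]
    refine wp_le_const_of_Tri (c := ⟨B, true⟩) (Tri_tightP hP h) ?_ 1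
    rintro l t ⟨k1, k2, k3⟩
    have e1 := hG' l (t0 + t) _ k1 h.pos (hg rfl) k2
    have e2 : (t : ℝ) ≤ (N.m * (4 * P.Dm + 2) : ℕ) := by exact_mod_cast k3
    have e3 := mul_le_mul_of_nonneg_left e2 hτ
    have e4 := Y0_nonneg (N := N) (P := P) (β := β) (x := x)
    push_cast at e1 e3 ⊢
    linarith
  | succ j ih =>
    intro lam x t0 hj hl h hX hX' _
    have hl2 : 2 * lam * 2 ^ j = lamM := by rw [← hl]; ring
    have hl3 : 2 * lam ≤ lamM := hl2 ▸ Nat.le_mul_of_pos_right _ (by positivity)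
    have hd : 0 ≤ (C₁ - C₀) / (10 * P.J) := by positivity
    rw [Val_succ]
    have e := wp_phase (Ts := Ts) hP hA hs (by omega : lam ≤ lamM) (hl3.trans hO.lamB) hO.rB hys
      (hX.trans (le_Xc hO (by omega : lam ≤ lamM))) hτ h le_rfl (a := C₁ - C₀)
      (C₀ := C₀ + j * ((C₁ - C₀) / (10 * P.J)) + τ + j * w + τ * (N.m * (4 * P.Dm + 2) : ℕ)) ha
      (by positivity)
      (G := fun s t => Val B sa N P G j s (t + 1)) (fun _ _ => Val_le_one hG1 _ _ _)
      (fun x' t hx' => by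
        have k1 := crude_step hP hys hx'.1.pos (hx'.2.2.trans hX)
        split_ifs with hact
        · have := Val_crude hP hA hO hs hys hτ hG1 (hC.trans hC') hw hG j (2 * lam) x' (t + 1) hl2
            (hx'.1.ent hP) k1
          have k2 : 0 ≤ j * ((C₁ - C₀) / (10 * P.J)) := by positivity
          push_cast at this ⊢
          linarith
        · have k2 := (gap_le_Wv hP hys hx'.1.pos ((lam : ℝ) / P.Lam)).trans (not_lt.1 hact)
          have := ih (2 * lam) x' (t + 1) (by omega) hl2 (hx'.1.ent hP) k1 (by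
            rw [XiS_double hP]
            have := hx'.2.2
            push_cast at hX'
            linarith) (by
            rintro rfl
            have k3 : ((32 * P.mm * P.Lam : ℕ) : ℝ) < ((2 * lam : ℕ) : ℝ) := by
              exact_mod_cast (by have := hO.lamL; omega : 32 * P.mm * P.Lam < 2 * lam)
            push_cast at k3
            by_contra hc
            have k4 : 16 * (P.mm : ℝ) < lam / P.Lam := by rw [lt_div_iff₀ hL]; linarith
            nlinarith [not_lt.1 hc])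
          push_cast at this ⊢
          linarith) t0
    have hc1 : 0 ≤ c1 P ρ := by unfold c1; positivity
    have k5 : (c1 P ρ * XiS N P C lam (N.obj ys) x + 2 * ρ ^ (P.L + 1) * P.mm * K) / 2 ^ P.Rb ≤
        1 / (20 * P.J) := by
      rw [div_le_div_iff₀ (by positivity) (by positivity), one_mul, mul_comm]
      refine le_trans (mul_le_mul_of_nonneg_left (add_le_add
        (mul_le_mul_of_nonneg_left (hX'.trans ?_) hc1) le_rfl) (by positivity)) hO.rr
      have : (0 : ℝ) ≤ ((j + 1 : ℕ) : ℝ) := Nat.cast_nonneg _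
      nlinarith
    have k6 : 18 * ρ ^ (P.L + 1) / Z ≤ 1 / (20 * P.J) := by
      rw [div_le_div_iff₀ (by linarith [hA.Z1]) (by positivity)]
      linarith [hO.zz]
    have k7 := mul_le_mul_of_nonneg_left (add_le_add k5 k6) ha
    have k8 : (C₁ - C₀) * (1 / (20 * P.J) + 1 / (20 * P.J)) = (C₁ - C₀) / (10 * P.J) := by
      field_simp
      ring
    push_cast at e ⊢
    linarith

end

/-- **The dual solver.** -/
theorem dual_spec (hP : PmOK B N P C F gm lamM Em Um)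
    (hA : AnOK B N P C F gm lamM Um q Z K ρ Xc β) (hO : OutOK B P C F lamM K0 Z K ρ Xc)
    (hs : SampOK B sa P.Ls Ts Em Um q (4 * C)) :
    DualSpec B N (dual sa P N) (cDual N P Ts)
      ((N.m + P.J * 2 ^ P.Rb * N.m) / Real.exp (β / (48 * P.kk))) := by
  intro ys hys G C₀ C₁ τ hτ hC hC' hG1 hG hG'
  have hl : P.lam0 ≤ lamM := hO.lam ▸ Nat.le_mul_of_pos_right _ (by positivity)
  have hL : (0 : ℝ) < P.Lam := by exact_mod_cast hP.lam_pos
  have hJ : (1 : ℝ) ≤ P.J := by exact_mod_cast hO.j1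
  unfold dual
  rw [wp_bind]
  refine wp_le_const_of_Tri (c := ⟨B, true⟩) (Tri_initP (β := β) hP hl hA.X1 hA.gmX) ?_ 1
  rintro x t ⟨k1, k2, k3, rfl⟩
  have hX : XiS N P C P.lam0 (N.obj ys) x ≤ P.mm * (K0 + 2) := by
    have e1 := Net.Xi_zero hP.net (lam := (P.lam0 : ℝ) / P.Lam) (by positivity) hP.δ_pos.le hP.δ_le
      (Net.obj_nonneg hys.1) hO.k0
    have e2 : (P.lam0 : ℝ) / P.Lam * (C * F) ≤ P.mm := by
      have : ((P.lam0 * (C * F) : ℕ) : ℝ) ≤ ((P.Lam * P.mm : ℕ) : ℝ) := by exact_mod_cast hO.lam0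
      push_cast at this
      rw [div_mul_eq_mul_div, div_le_iff₀ hL]
      linarith
    have e3 : (N.m : ℝ) ≤ P.mm := by exact_mod_cast hA.mm
    have e4 := mul_le_mul_of_nonneg_right e3 (by positivity : (0 : ℝ) ≤ K0 + 1)
    rw [XiS, k2]
    linarith
  have e := Val_good hP hA hO hs hys hτ hG1 hC hC' rfl hG hG' P.J P.lam0 x (3 * N.m) le_rfl
    hO.lam.symm k1 (hX.trans (le_add_of_nonneg_right (by positivity))) (by simpa using hX)
    (fun h0 => absurd hO.j1 (by omega))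
  refine le_trans e (le_of_eq ?_)
  rw [Y0, k3, cDual]
  push_cast
  field_simp
  ring

@[fun_prop] theorem impl_dual {α : Type} [Rep α] {sa : α → List Edge → M (List (Arr ℕ))}
    {N : α → Net} {P : α → Pm} (hs : Impl fun p : α × List Edge => sa p.1 p.2) (h1 : Pure N)
    (h2 : Pure P) : Impl fun a => dual (sa a) (P a) (N a) := by
  unfold dual phase startP round rebR initP tightP
  fun_prop

end Vale.Agent.P305F
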