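import Vale.Agent.P305F.Net

/-!
# Flow, end, part 2: circulations, unique optimal flows and spanning trees
-/

namespace Vale.Agent.P305F

open Vale.Agent.P305E Finset

/-- The vertices of a tree given as a list of pairs (vertex, arc to the parent). -/
def vs (o : List (ℕ × ℕ)) (u : ℕ) : Prop := u = 0 ∨ u ∈ o.map Prod.fst

/-- The arcs of a tree. -/
def ar (o : List (ℕ × ℕ)) (e : ℕ) : Prop := e ∈ o.map Prod.snd

theorem vs_cons (p : ℕ × ℕ) (o : List (ℕ × ℕ)) (u : ℕ) : vs (p :: o) u ↔ u = p.1 ∨ vs o u := by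
  simp only [vs, List.map_cons, List.mem_cons]
  tauto

theorem ar_cons (p : ℕ × ℕ) (o : List (ℕ × ℕ)) (e : ℕ) : ar (p :: o) e ↔ e = p.2 ∨ ar o e := by
  simp only [ar, List.map_cons, List.mem_cons]

namespace Net

variable (N : Net)

/-- The incidence matrix. -/
def inc (e v : ℕ) : ℤ := (if N.hd.get e = v then 1 else 0) - (if N.tl.get e = v then 1 else 0)

/-- Circulations. -/
def Circ (g : ℕ → ℤ) : Prop := ∀ v < N.n, ∑ e ∈ range N.m, g e * N.inc e v = 0

/-- The unique optimal flow. -/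
def UOpt (f : ℕ → ℕ) : Prop := N.OptFlow f ∧ ∀ g, N.OptFlow g → ∀ e < N.m, g e = f e

/-- The ends of all arcs are vertices. -/
def Ends : Prop := ∀ e < N.m, N.tl.get e < N.n ∧ N.hd.get e < N.n

/-- Trees that grow from the root `0`; the last vertex comes first. -/
def Gd : List (ℕ × ℕ) → Prop
  | [] => True
  | p :: o => Gd o ∧ ¬ vs o p.1 ∧ p.2 < N.m ∧
    ((N.hd.get p.2 = p.1 ∧ vs o (N.tl.get p.2)) ∨ (N.tl.get p.2 = p.1 ∧ vs o (N.hd.get p.2)))

variable {N}

theorem OK.ends {C F : ℕ} (h : N.OK C F) : N.Ends := fun e he => ⟨h.tl_lt e he, h.hd_lt e he⟩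

theorem isFlow_circ {f : ℕ → ℕ} : N.IsFlow f ↔ N.Circ fun e => (f e : ℤ) - N.f0.get e := Iff.rfl

theorem Circ.sum_eq {R : Type} [CommRing R] (hE : N.Ends) {g : ℕ → ℤ} (hg : N.Circ g)
    (ψ : ℕ → R) : ∑ e ∈ range N.m, (g e : R) * (ψ (N.hd.get e) - ψ (N.tl.get e)) = 0 := by
  have h1 : ∀ e ∈ range N.m, (g e : R) * (ψ (N.hd.get e) - ψ (N.tl.get e)) =
      ∑ v ∈ range N.n, ψ v * ((g e * N.inc e v : ℤ) : R) := by
    intro e he
    obtain ⟨a, b⟩ := hE e (mem_range.1 he)
    simp only [inc, Int.cast_sub, Int.cast_ite, Int.cast_zero, mul_sub,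
      mul_ite, mul_one, mul_zero, sum_sub_distrib, sum_ite_eq, mem_range, a, b, if_true]
    ring
  rw [sum_congr rfl h1, sum_comm]
  refine sum_eq_zero fun v hv => ?_
  rw [← mul_sum, ← Int.cast_sum, hg v (mem_range.1 hv), Int.cast_zero, mul_zero]

theorem Circ.sum_sl (hE : N.Ends) {g : ℕ → ℤ} (hg : N.Circ g) (y : ℕ → ℝ) :
    ∑ e ∈ range N.m, (g e : ℝ) * N.sl y e = ((∑ e ∈ range N.m, N.c.get e * g e : ℤ) : ℝ) := by
  have := hg.sum_eq hE y
  simp only [sl, dl, mul_sub] at this ⊢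
  rw [sum_sub_distrib, this]
  push_cast
  simp only [mul_comm, sub_zero]

/-- Weak duality, as an identity. -/
theorem IsFlow.obj_eq (hE : N.Ends) {f : ℕ → ℕ} (hf : N.IsFlow f) (y : ℕ → ℝ) :
    N.obj y = ∑ e ∈ range N.m, (f e : ℝ) * N.sl y e + N.cost N.f0.get - N.cost f := by
  have := (isFlow_circ.1 hf).sum_sl hE y
  simp only [obj, cost]
  push_cast at this ⊢
  simp only [sub_mul, mul_sub, sum_sub_distrib] at this
  linarith

theorem UOpt.circ {f : ℕ → ℕ} (h : N.UOpt f) {g : ℕ → ℤ} (hg : N.Circ g)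
    (hn : ∀ e < N.m, 0 ≤ f e + g e) {e : ℕ} (he : e < N.m) (h0 : g e ≠ 0) :
    1 ≤ ∑ e ∈ range N.m, N.c.get e * g e := by
  have hc : ∀ e ∈ range N.m, (((f e + g e).toNat : ℕ) : ℤ) = f e + g e := fun e he =>
    Int.toNat_of_nonneg (hn e (mem_range.1 he))
  have h1 : N.IsFlow fun e => (f e + g e).toNat := by
    intro v hv
    have a := congrArg₂ (· + ·) (h.1.1 v hv) (hg v hv)
    simp only [add_zero, ← sum_add_distrib] at a
    refine Eq.trans (sum_congr rfl fun e he => ?_) a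
    rw [hc e he, inc]
    ring
  have h2 : (N.cost (fun e => (f e + g e).toNat) : ℤ) =
      N.cost f + ∑ e ∈ range N.m, N.c.get e * g e := by
    simp only [cost]
    push_cast
    rw [← sum_add_distrib]
    refine sum_congr rfl fun e he => ?_
    rw [hc e he]
    ring
  have h3 := h.1.2 _ h1
  by_contra h4
  have h5 := h.2 _ ⟨h1, fun g' hg' => le_trans (by omega) (h.1.2 g' hg')⟩ e he
  have h6 := hc e (mem_range.2 he)
  omega

theorem Gd.ends {o : List (ℕ × ℕ)} (h : N.Gd o) {e : ℕ} (he : ar o e) :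
    e < N.m ∧ vs o (N.tl.get e) ∧ vs o (N.hd.get e) := by
  induction o with
  | nil => simp [ar] at he
  | cons p o ih =>
    simp only [vs_cons]
    rcases (ar_cons _ _ _).1 he with rfl | he
    · have := h.2.2
      tauto
    · have := ih h.1 he
      tauto

theorem Gd.length_lt (hE : N.Ends) (hn : 0 < N.n) {o : List (ℕ × ℕ)} (h : N.Gd o) :
    o.length < N.n := by
  have h1 : (0 :: o.map Prod.fst).Nodup ∧ ∀ u, vs o u → u < N.n := by
    induction o with
    | nil => simpa [vs] using hn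
    | cons p o ih =>
      obtain ⟨a, b⟩ := ih h.1
      have c := h.2.1
      have d := hE _ h.2.2.1
      refine ⟨?_, fun u hu => ?_⟩
      · simp only [vs, not_or, List.nodup_cons, List.map_cons, List.mem_cons] at a c ⊢
        tauto
      · rcases (vs_cons _ _ _).1 hu with rfl | hu
        · rcases h.2.2.2 with e | e <;> omega
        · exact b u hu
  have h2 : (0 :: o.map Prod.fst) ⊆ List.range N.n := fun u hu =>
    List.mem_range.2 (h1.2 u (by simpa [vs] using hu))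
  have := (List.subperm_of_subset h1.1 h2).length_le
  simp only [List.length_cons, List.length_map, List.length_range] at this
  omega

/-- The signed paths from the root in a tree. -/
theorem Gd.exists_path {o : List (ℕ × ℕ)} (h : N.Gd o) : ∃ P : ℕ → ℕ → ℤ,
    (∀ e, ar o e → ∀ x, P (N.hd.get e) x - P (N.tl.get e) x = if x = e then 1 else 0) ∧
    (∀ u x, ¬ ar o x → P u x = 0) ∧ (∀ u u' x, |P u x - P u' x| ≤ 1) ∧
    (∀ u, vs o u → ∀ v, ∑ x ∈ range N.m, P u x * N.inc x v =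
      (if u = v then 1 else 0) - if 0 = v then 1 else 0) := by
  induction o with
  | nil =>
    refine ⟨fun _ _ => 0, by simp [ar], by simp, by simp, fun u hu v => ?_⟩
    obtain rfl : u = 0 := by simpa [vs] using hu
    simp
  | cons p o ih =>
    obtain ⟨v, e⟩ := p
    obtain ⟨h1, h2, h3, h4⟩ := h
    obtain ⟨P, p1, p2, p3, p4⟩ := ih h1
    simp only at h2 h3 h4
    have hne : ¬ ar o e := fun he => by
      have := h1.ends he
      rcases h4 with ⟨a, -⟩ | ⟨a, -⟩ <;> rw [a] at this <;> tauto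
    obtain ⟨q, σ, hq, hσ, hh⟩ : ∃ q, ∃ σ : ℤ, vs o q ∧ (σ = 1 ∨ σ = -1) ∧
        ((N.hd.get e = v ∧ N.tl.get e = q ∧ σ = 1) ∨ (N.tl.get e = v ∧ N.hd.get e = q ∧ σ = -1)) := by
      rcases h4 with ⟨a, b⟩ | ⟨a, b⟩
      · exact ⟨_, 1, b, Or.inl rfl, Or.inl ⟨a, rfl, rfl⟩⟩
      · exact ⟨_, -1, b, Or.inr rfl, Or.inr ⟨a, rfl, rfl⟩⟩
    have hqv : q ≠ v := fun h => h2 (h ▸ hq)
    refine ⟨fun u x => if u = v then P q x + (if x = e then σ else 0) else P u x, ?_, ?_, ?_, ?_⟩
    · intro e' he' x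
      rcases (ar_cons _ _ _).1 he' with rfl | he'
      · rcases hh with ⟨a, b, rfl⟩ | ⟨a, b, rfl⟩ <;> simp only [a, b, hqv, if_true, if_false] <;>
          split_ifs <;> ring
      · obtain ⟨-, a, b⟩ := h1.ends he'
        have a' : N.tl.get e' ≠ v := fun h => h2 (h ▸ a)
        have b' : N.hd.get e' ≠ v := fun h => h2 (h ▸ b)
        simp only [if_neg a', if_neg b']
        exact p1 e' he' x
    · intro u x hx
      rw [ar_cons, not_or] at hx
      simp only [p2 _ x hx.2, if_neg hx.1, add_zero, ite_self]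
    · intro u u' x
      by_cases hx : x = e
      · subst hx
        simp only [p2 _ x hne, if_true, zero_add]
        rcases hσ with rfl | rfl <;> split_ifs <;> simp
      · simp only [if_neg hx, add_zero]
        split_ifs <;> exact p3 _ _ _
    · intro u hu w
      by_cases huv : u = v
      · subst huv
        simp only [if_true, add_mul, sum_add_distrib, p4 q hq w, ite_mul, zero_mul, sum_ite_eq',
          mem_range, h3]
        rcases hh with ⟨a, b, rfl⟩ | ⟨a, b, rfl⟩ <;> rw [inc, a, b] <;> ring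
      · simp only [if_neg huv]
        exact p4 u (((vs_cons _ _ _).1 hu).resolve_left huv) w

/-- A tree that cannot be extended by arcs with the property `A`. -/
theorem exists_gd (hE : N.Ends) (hn : 0 < N.n) (A : ℕ → Prop) : ∃ o, N.Gd o ∧ (∀ e, ar o e → A e) ∧
    ∀ e < N.m, A e → (vs o (N.tl.get e) ↔ vs o (N.hd.get e)) := by
  have key : ∀ k o, N.Gd o → (∀ e, ar o e → A e) → N.n ≤ o.length + k → ∃ o, N.Gd o ∧
      (∀ e, ar o e → A e) ∧ ∀ e < N.m, A e → (vs o (N.tl.get e) ↔ vs o (N.hd.get e)) := by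
    intro k
    induction k with
    | zero => intro o h _ hk; have := h.length_lt hE hn; omega
    | succ k ih =>
      intro o h hA hk
      by_cases hc : ∀ e < N.m, A e → (vs o (N.tl.get e) ↔ vs o (N.hd.get e))
      · exact ⟨o, h, hA, hc⟩
      · push Not at hc
        obtain ⟨e, he, hAe, hc⟩ := hc
        have hA' : ∀ v x, ar ((v, e) :: o) x → A x := fun v x hx => by
          rcases (ar_cons _ _ _).1 hx with rfl | hx
          · exact hAe
          · exact hA x hx
        rcases hc with ⟨a, b⟩ | ⟨a, b⟩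
        · exact ih ((N.hd.get e, e) :: o) ⟨h, b, he, Or.inl ⟨rfl, a⟩⟩ (hA' _)
            (by simp only [List.length_cons]; omega)
        · exact ih ((N.tl.get e, e) :: o) ⟨h, a, he, Or.inr ⟨rfl, b⟩⟩ (hA' _)
            (by simp only [List.length_cons]; omega)
  exact key N.n [] trivial (by simp [ar]) (by simp)

/-- The fundamental cycle of an arc. -/
theorem Gd.cycle (hE : N.Ends) {o : List (ℕ × ℕ)} (ho : N.Gd o) (hv : ∀ u < N.n, vs o u) {e : ℕ}
    (he : e < N.m) : ∃ D : ℕ → ℤ, (∀ x, ¬ ar o x → D x = 0) ∧ (∀ x, -1 ≤ D x ∧ D x ≤ 1) ∧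
      N.Circ fun x => (if x = e then 1 else 0) + D x := by
  obtain ⟨P, -, p2, p3, p4⟩ := ho.exists_path
  obtain ⟨a, b⟩ := hE e he
  refine ⟨fun x => P (N.tl.get e) x - P (N.hd.get e) x, fun x hx => by simp [p2 _ x hx],
    fun x => abs_le.1 (p3 _ _ _), fun v _ => ?_⟩
  simp only [add_mul, sub_mul, sum_add_distrib, sum_sub_distrib, p4 _ (hv _ a),
    p4 _ (hv _ b), ite_mul, one_mul, zero_mul, sum_ite_eq', mem_range, he, if_true]
  rw [inc]
  ring

theorem UOpt.cycle {f : ℕ → ℕ} (h : N.UOpt f) {o : List (ℕ × ℕ)} (hs : ∀ e, ar o e → f e ≠ 0)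
    {e : ℕ} (he : e < N.m) (hne : ¬ ar o e) {D : ℕ → ℤ} (d1 : ∀ x, ¬ ar o x → D x = 0)
    (d2 : ∀ x, -1 ≤ D x ∧ D x ≤ 1) (hc : N.Circ fun x => (if x = e then 1 else 0) + D x) :
    1 ≤ ∑ x ∈ range N.m, N.c.get x * ((if x = e then 1 else 0) + D x) :=
  h.circ hc (fun x _ => by
    have := d2 x
    by_cases hx : ar o x
    · have := hs x hx
      split_ifs <;> omega
    · have := d1 x hx
      split_ifs <;> omega) he (by simp [d1 e hne])

/-- A spanning tree in the support of the unique optimal flow is the support. -/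
theorem UOpt.off_zero (hE : N.Ends) {f : ℕ → ℕ} (h : N.UOpt f) {o : List (ℕ × ℕ)} (ho : N.Gd o)
    (hs : ∀ e, ar o e → f e ≠ 0) (hv : ∀ u < N.n, vs o u) {e : ℕ} (he : e < N.m)
    (hne : ¬ ar o e) : f e = 0 := by
  obtain ⟨D, d1, d2, hc⟩ := ho.cycle hE hv he
  have h1 := h.cycle hs he hne d1 d2 hc
  by_contra h0
  have hc' : N.Circ fun x => -((if x = e then 1 else 0) + D x) := fun v hv => by
    simp only [neg_mul, sum_neg_distrib, hc v hv, neg_zero]
  have h2 := h.circ hc' (fun x _ => by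
    have := d2 x
    by_cases hx : ar o x
    · have := hs x hx
      have : x ≠ e := fun h => hne (h ▸ hx)
      split_ifs <;> omega
    · have := d1 x hx
      split_ifs with h3
      · subst h3; omega
      · omega) he (by simp [d1 e hne])
  simp only [mul_neg, sum_neg_distrib] at h2
  omega

theorem UOpt.off_sl (hE : N.Ends) {f : ℕ → ℕ} (h : N.UOpt f) {o : List (ℕ × ℕ)} (ho : N.Gd o)
    (hs : ∀ e, ar o e → f e ≠ 0) (hv : ∀ u < N.n, vs o u) {e : ℕ} (he : e < N.m)
    (hne : ¬ ar o e) {y : ℕ → ℝ} (hy : ∀ x, ar o x → 0 ≤ N.sl y x) :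
    1 ≤ N.sl y e + ∑ x ∈ range N.m, (f x : ℝ) * N.sl y x := by
  obtain ⟨D, d1, d2, hc⟩ := ho.cycle hE hv he
  have h3 : (1 : ℝ) ≤ ((∑ x ∈ range N.m, N.c.get x * ((if x = e then 1 else 0) + D x) : ℤ) : ℝ) := by
    exact_mod_cast h.cycle hs he hne d1 d2 hc
  rw [← hc.sum_sl hE y] at h3
  refine h3.trans ?_
  simp only [Int.cast_add, Int.cast_ite, Int.cast_one, Int.cast_zero, add_mul, sum_add_distrib,
    ite_mul, one_mul, zero_mul, sum_ite_eq', mem_range, he, if_true]
  refine add_le_add le_rfl (sum_le_sum fun x hx => ?_)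
  by_cases h4 : ar o x
  · have h5 := hs x h4
    have h6 := d2 x
    refine mul_le_mul_of_nonneg_right ?_ (hy x h4)
    exact_mod_cast (by omega : D x ≤ (f x : ℤ))
  · simp [d1 x h4, h.off_zero hE ho hs hv (mem_range.1 hx) h4]

theorem UOpt.sum_zero (hE : N.Ends) {f : ℕ → ℕ} (h : N.UOpt f) {o : List (ℕ × ℕ)} (ho : N.Gd o)
    (hs : ∀ e, ar o e → f e ≠ 0) (hv : ∀ u < N.n, vs o u) {y : ℕ → ℝ}
    (hy : ∀ x, ar o x → N.sl y x = 0) : ∑ x ∈ range N.m, (f x : ℝ) * N.sl y x = 0 :=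
  sum_eq_zero fun x hx => by
    by_cases h2 : ar o x
    · simp [hy x h2]
    · simp [h.off_zero hE ho hs hv (mem_range.1 hx) h2]

/-- Potentials with slack zero on the tree are feasible. -/
theorem UOpt.feas (hE : N.Ends) {f : ℕ → ℕ} (h : N.UOpt f) {o : List (ℕ × ℕ)} (ho : N.Gd o)
    (hs : ∀ e, ar o e → f e ≠ 0) (hv : ∀ u < N.n, vs o u) {y : ℕ → ℝ}
    (hy : ∀ x, ar o x → N.sl y x = 0) : N.Feas y := by
  intro e he
  by_cases hx : ar o e
  · exact (hy e hx).ge
  · have := h.off_sl hE ho hs hv he hx fun x hx => (hy x hx).ge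
    rw [h.sum_zero hE ho hs hv hy] at this
    linarith

/-- The tight arcs of an almost optimal potential form the support of the optimal flow. -/
theorem UOpt.tight (hE : N.Ends) {f : ℕ → ℕ} (h : N.UOpt f) {o : List (ℕ × ℕ)} (ho : N.Gd o)
    (hs : ∀ e, ar o e → f e ≠ 0) (hv : ∀ u < N.n, vs o u) {ys y : ℕ → ℝ} (hys : N.DOpt ys)
    (hy : N.Pos y) (hg : N.obj y - N.obj ys < 1 / 2) {l : List ℕ} (hl : N.Tight y l) (e : ℕ) :
    e ∈ l ↔ e < N.m ∧ f e ≠ 0 := by
  classical
  obtain ⟨P, p1, -, -, -⟩ := ho.exists_path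
  have hz : ∀ x, ar o x →
      N.sl (fun u => ∑ x ∈ range N.m, (P u x : ℝ) * N.c.get x) x = 0 := fun x hx => by
    simp only [sl, dl, ← sum_sub_distrib, ← sub_mul, ← Int.cast_sub, p1 x hx, Int.cast_ite,
      Int.cast_one, Int.cast_zero, ite_mul, one_mul, zero_mul, sum_ite_eq', mem_range,
      (ho.ends hx).1, if_true, sub_self]
  have h1 := hys.2 _ (h.feas hE ho hs hv hz)
  rw [h.1.1.obj_eq hE, h.1.1.obj_eq hE, h.sum_zero hE ho hs hv hz] at h1
  rw [h.1.1.obj_eq hE, h.1.1.obj_eq hE] at hg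
  have hnn : ∀ x ∈ range N.m, 0 ≤ (f x : ℝ) * N.sl y x := fun x hx =>
    mul_nonneg (Nat.cast_nonneg _) (hy x (mem_range.1 hx)).le
  have h3 : ∑ x ∈ range N.m, (f x : ℝ) * N.sl y x < 1 / 2 := by linarith
  rw [hl e]
  refine and_congr_right fun he => ⟨fun h4 => ?_, fun h4 => ?_⟩
  · refine hs e (by_contra fun hx => ?_)
    have h5 := h.off_sl hE ho hs hv he hx fun x hx => (hy x (ho.ends hx).1).le
    linarith
  · have h5 := single_le_sum hnn (mem_range.2 he)
    have h6 : (1 : ℝ) ≤ f e := by exact_mod_cast Nat.one_le_iff_ne_zero.2 h4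
    have h7 := hy e he
    nlinarith

/-- A function that vanishes outside a tree is determined by its excesses. -/
theorem Gd.abs_le (hE : N.Ends) {o : List (ℕ × ℕ)} (ho : N.Gd o) {g k : ℕ → ℤ}
    (hg : ∀ e < N.m, ¬ ar o e → g e = 0) (hc : N.Circ fun e => g e - k e) {x : ℕ} (hx : ar o x) :
    |g x| ≤ ∑ e ∈ range N.m, |k e| := by
  obtain ⟨P, p1, -, p3, -⟩ := ho.exists_path
  have h1 := hc.sum_eq hE fun u => P u x
  simp only [Int.cast_id, sub_mul, sum_sub_distrib] at h1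
  have h2 : ∑ e ∈ range N.m, g e * (P (N.hd.get e) x - P (N.tl.get e) x) = g x := by
    rw [sum_eq_single_of_mem x (mem_range.2 (ho.ends hx).1)]
    · simp [p1 x hx]
    · intro e he hne
      by_cases h3 : ar o e
      · simp [p1 e h3, hne.symm]
      · simp [hg e (mem_range.1 he) h3]
  rw [← h2, sub_eq_zero.1 h1]
  refine (abs_sum_le_sum_abs _ _).trans (sum_le_sum fun e _ => ?_)
  rw [abs_mul]
  exact mul_le_of_le_one_right (abs_nonneg _) (p3 _ _ _)

end Net

end Vale.Agent.P305F
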