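import Vale.Agent.P305F.Net

/-!
# Flow: the analysis of the interior point method
-/

namespace Vale.Agent.P305F

open Vale.Agent.P305E Finset

/-- The change of the barrier of one arc. -/
theorem arc_step {δ S ε η s ut x : ℝ} (hs : 0 < s) (ha : |uu δ s - ut| ≤ ε * ut) (hδ : 0 ≤ δ)
    (hS : 0 < S) (hε : ε ≤ 1) (hu : 0 ≤ ut) (hx : ut * |x| ≤ η) (hη : η ≤ 1 / 4) :
    0 < s - x ∧ Real.log (S / (s - x)) + δ / (s - x) ≤
      Real.log (S / s) + δ / s + ut * x + (ε + 8 * η) * (ut * |x|) := by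
  have ha' := abs_le.1 ha
  have hx0 := abs_nonneg x
  have h1 : 1 / s ≤ uu δ s := le_add_of_nonneg_right (by positivity)
  have h2 : uu δ s ≤ 2 * ut := by nlinarith
  have h3 : uu δ s * |x| ≤ 2 * (ut * |x|) := by nlinarith
  have h4 : |x| / s ≤ 2 * η := by
    have : 1 / s * |x| ≤ uu δ s * |x| := mul_le_mul_of_nonneg_right h1 hx0
    rw [div_eq_inv_mul, ← one_div]
    linarith
  have h5 : |x| ≤ s / 2 := by
    rw [div_le_iff₀ hs] at h4
    nlinarith
  have h6 := abs_le.1 h5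
  have h7 : 0 < s - x := by linarith
  refine ⟨h7, ?_⟩
  have h8 : s / (s - x) - 1 ≤ x / s + 2 * (x / s) ^ 2 := by
    have e : x / s + 2 * (x / s) ^ 2 - (s / (s - x) - 1) = x ^ 2 * (s - 2 * x) / (s ^ 2 * (s - x)) := by
      field_simp
      ring
    have : 0 ≤ x ^ 2 * (s - 2 * x) / (s ^ 2 * (s - x)) :=
      div_nonneg (mul_nonneg (sq_nonneg _) (by linarith)) (by positivity)
    linarith
  have h9 : Real.log (S / (s - x)) ≤ Real.log (S / s) + (s / (s - x) - 1) := by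
    have e : S / (s - x) = S / s * (s / (s - x)) := by field_simp
    rw [e, Real.log_mul (by positivity) (by positivity)]
    have := Real.log_le_sub_one_of_pos (div_pos hs h7)
    linarith
  have h10 : δ / (s - x) = δ / s + δ / s * (s / (s - x) - 1) := by
    field_simp
    ring
  have h11 : δ / s * (s / (s - x) - 1) ≤ δ / s * (x / s + 2 * (x / s) ^ 2) :=
    mul_le_mul_of_nonneg_left h8 (by positivity)
  have h12 : (1 + δ / s) * (x / s + 2 * (x / s) ^ 2) =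
      uu δ s * x + 2 * (uu δ s * |x|) * (|x| / s) := by
    have : 2 * (uu δ s * |x|) * (|x| / s) = 2 * uu δ s * (|x| * |x|) / s := by ring
    rw [this, abs_mul_abs_self]
    unfold uu
    field_simp
  have h13 : uu δ s * x ≤ ut * x + ε * (ut * |x|) := by
    have : (uu δ s - ut) * x ≤ |uu δ s - ut| * |x| := by
      rw [← abs_mul]
      exact le_abs_self _
    nlinarith
  have h14 : 2 * (uu δ s * |x|) * (|x| / s) ≤ 2 * (2 * (ut * |x|)) * (2 * η) :=
    mul_le_mul (by linarith) h4 (by positivity) (by positivity)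
  nlinarith

namespace Net
variable {N : Net} {C F : ℕ}

theorem Pos.feas {y : ℕ → ℝ} (hy : N.Pos y) : N.Feas y := fun e he => (hy e he).le

theorem pot_le (h : N.OK C F) {y : ℕ → ℝ} (hy : N.Feas y) {v : ℕ} (hv : v < N.n) :
    |y v - y 0| ≤ C := by
  by_cases h0 : v = 0
  · simp [h0]
  obtain ⟨e, he, h1, h2⟩ := h.out v hv h0
  obtain ⟨e', he', h1', h2'⟩ := h.inn v hv h0
  have a1 := hy e he
  have a2 := hy e' he'
  have a3 : (N.c.get e : ℝ) ≤ C := by exact_mod_cast h.c_le e he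
  have a4 : (N.c.get e' : ℝ) ≤ C := by exact_mod_cast h.c_le e' he'
  simp only [sl, dl, h1, h2, h1', h2'] at a1 a2
  exact abs_le.2 ⟨by linarith, by linarith⟩

theorem sl_le (h : N.OK C F) {y : ℕ → ℝ} (hy : N.Feas y) {e : ℕ} (he : e < N.m) :
    N.sl y e ≤ 3 * C := by
  have a1 := abs_le.1 (pot_le h hy (h.hd_lt e he))
  have a2 := abs_le.1 (pot_le h hy (h.tl_lt e he))
  have a3 : (N.c.get e : ℝ) ≤ C := by exact_mod_cast h.c_le e he
  simp only [sl, dl]
  linarith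

theorem obj_nonneg {y : ℕ → ℝ} (hy : N.Feas y) : 0 ≤ N.obj y :=
  sum_nonneg fun e he => mul_nonneg (Nat.cast_nonneg _) (hy e (mem_range.1 he))

theorem sum_f0_mul_le (h : N.OK C F) {g : ℕ → ℝ} {x : ℝ} (hx : 0 ≤ x)
    (hg : ∀ e < N.m, g e ≤ x) : ∑ e ∈ range N.m, (N.f0.get e : ℝ) * g e ≤ x * F := by
  have h1 : ∑ e ∈ range N.m, (N.f0.get e : ℝ) ≤ F := by exact_mod_cast h.f_le
  calc _ ≤ ∑ e ∈ range N.m, (N.f0.get e : ℝ) * x := sum_le_sum fun e he =>
        mul_le_mul_of_nonneg_left (hg e (mem_range.1 he)) (Nat.cast_nonneg _)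
    _ = x * ∑ e ∈ range N.m, (N.f0.get e : ℝ) := by rw [← sum_mul, mul_comm]
    _ ≤ _ := mul_le_mul_of_nonneg_left h1 hx

theorem obj_le (h : N.OK C F) {y : ℕ → ℝ} (hy : N.Feas y) : N.obj y ≤ 3 * C * F :=
  sum_f0_mul_le h (by positivity) fun _ he => sl_le h hy he

theorem pos_zero (h : N.OK C F) : N.Pos fun _ => 0 := fun e he => by
  have : (1 : ℝ) ≤ N.c.get e := by exact_mod_cast h.c_pos e he
  simp only [sl, dl]
  linarith

theorem exists_DOpt (h : N.OK C F) : ∃ ys, N.DOpt ys := by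
  have hsl : ∀ e, Continuous fun y : ℕ → ℝ => N.sl y e := fun e => by
    unfold sl dl
    fun_prop
  have hobj : Continuous N.obj := by
    unfold obj
    exact continuous_finsetSum _ fun e _ => continuous_const.mul (hsl e)
  have hK : IsCompact (Set.pi Set.univ (fun _ : ℕ => Set.Icc (-(C : ℝ)) C) ∩ {y | N.Feas y}) := by
    refine (isCompact_univ_pi fun _ => isCompact_Icc).inter_right ?_
    have : {y | N.Feas y} = ⋂ e, ⋂ _ : e < N.m, {y | 0 ≤ N.sl y e} := by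
      ext y
      simp [Feas]
    rw [this]
    exact isClosed_iInter fun e => isClosed_iInter fun _ => isClosed_le continuous_const (hsl e)
  obtain ⟨ys, hys, hmin⟩ := hK.exists_isMinOn ⟨fun _ => 0, fun _ _ => by simp, (pos_zero h).feas⟩
    hobj.continuousOn
  refine ⟨ys, hys.2, fun y hy => ?_⟩
  have e1 : ∀ e < N.m, N.sl (fun v => if v < N.n then y v - y 0 else 0) e = N.sl y e := by
    intro e he
    simp only [sl, dl, if_pos (h.hd_lt e he), if_pos (h.tl_lt e he)]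
    ring
  have e2 : N.obj (fun v => if v < N.n then y v - y 0 else 0) = N.obj y :=
    sum_congr rfl fun e he => by rw [e1 e (mem_range.1 he)]
  rw [← e2]
  refine hmin ⟨fun v _ => ?_, fun e he => by rw [e1 e he]; exact hy e he⟩
  by_cases hv : v < N.n
  · simpa [hv] using abs_le.1 (pot_le h hy hv)
  · simp [hv]

theorem isFlow_iff (h : N.OK C F) (f : ℕ → ℕ) : N.IsFlow f ↔ ∀ ψ : ℕ → ℝ,
    ∑ e ∈ range N.m, (f e : ℝ) * N.dl ψ e = ∑ e ∈ range N.m, (N.f0.get e : ℝ) * N.dl ψ e := by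
  constructor
  · intro hf ψ
    rw [← sub_eq_zero, ← sum_sub_distrib]
    have e1 : ∀ e ∈ range N.m, (f e : ℝ) * N.dl ψ e - (N.f0.get e : ℝ) * N.dl ψ e =
        ∑ v ∈ range N.n, ψ v * (((f e : ℝ) - N.f0.get e) *
          ((if N.hd.get e = v then 1 else 0) - (if N.tl.get e = v then 1 else 0))) := by
      intro e he
      have h1 := h.hd_lt e (mem_range.1 he)
      have h2 := h.tl_lt e (mem_range.1 he)
      simp only [mul_sub, mul_ite, mul_one, mul_zero, sum_sub_distrib, sum_ite_eq, mem_range, h1,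
        h2, if_true, dl]
      ring
    rw [sum_congr rfl e1, sum_comm]
    refine sum_eq_zero fun v hv => ?_
    rw [← mul_sum]
    have h3 := congrArg (Int.cast : ℤ → ℝ) (hf v (mem_range.1 hv))
    push_cast at h3
    rw [h3, mul_zero]
  · intro hf v _
    have h1 := hf fun w => if w = v then 1 else 0
    rw [← sub_eq_zero, ← sum_sub_distrib] at h1
    have h2 : ((∑ e ∈ range N.m, ((f e : ℤ) - N.f0.get e) * ((if N.hd.get e = v then 1 else 0) -
        (if N.tl.get e = v then 1 else 0)) : ℤ) : ℝ) = 0 := by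
      rw [← h1]
      push_cast
      exact sum_congr rfl fun e _ => by simp only [dl]; ring
    exact_mod_cast h2

theorem sl_add (y ψ : ℕ → ℝ) (e : ℕ) : N.sl (fun v => y v + ψ v) e = N.sl y e - N.dl ψ e := by
  simp only [sl, dl]
  ring

theorem step {lam δ S lb ε η : ℝ} {ut y ψ : ℕ → ℝ} (hy : N.Pos y) (ha : N.Apx δ ε ut y)
    (hδ : 0 ≤ δ) (hS : 0 < S) (hε0 : 0 ≤ ε) (hε : ε ≤ 1) (hu : ∀ e < N.m, 0 ≤ ut e)
    (hν : N.nu ut ψ ≤ η) (hη : η ≤ 1 / 4) :
    N.Pos (fun v => y v + ψ v) ∧ N.Xi lam δ S lb (fun v => y v + ψ v) ≤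
      N.Xi lam δ S lb y + N.gt lam ut ψ + ε * η + 8 * η ^ 2 := by
  have h0 : ∀ e ∈ range N.m, 0 ≤ ut e * |N.dl ψ e| := fun e he =>
    mul_nonneg (hu e (mem_range.1 he)) (abs_nonneg _)
  have h1 := fun e (he : e < N.m) => arc_step (S := S) (x := N.dl ψ e) (hy e he) (ha e he) hδ hS hε
    (hu e he) ((single_le_sum h0 (mem_range.2 he)).trans hν) hη
  refine ⟨fun e he => by rw [sl_add]; exact (h1 e he).1, ?_⟩
  have h2 := sum_le_sum fun e (he : e ∈ range N.m) => (h1 e (mem_range.1 he)).2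
  have h3 : 0 ≤ η := (sum_nonneg h0).trans hν
  have h4 : (ε + 8 * η) * N.nu ut ψ ≤ (ε + 8 * η) * η :=
    mul_le_mul_of_nonneg_left hν (by positivity)
  have h5 : N.obj (fun v => y v + ψ v) = N.obj y - ∑ e ∈ range N.m, N.f0.get e * N.dl ψ e := by
    simp only [obj, sl_add, mul_sub, sum_sub_distrib]
  have h6 : N.gt lam ut ψ = ∑ e ∈ range N.m, ut e * N.dl ψ e -
      lam * ∑ e ∈ range N.m, N.f0.get e * N.dl ψ e := by
    simp only [gt, sub_mul, sum_sub_distrib, mul_sum, mul_assoc]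
  rw [sum_add_distrib (s := range N.m) (g := fun e => (ε + 8 * η) * (ut e * |N.dl ψ e|)),
    sum_add_distrib (s := range N.m) (g := fun e => ut e * N.dl ψ e), ← mul_sum] at h2
  unfold Xi
  rw [h5, h6]
  simp only [sl_add]
  unfold nu at h4
  nlinarith

theorem sl_yc (δ : ℝ) (ys : ℕ → ℝ) (e : ℕ) :
    N.sl (yc δ ys) e = (1 - δ) * N.sl ys e + δ * N.c.get e := by
  simp only [sl, dl, yc]
  ring

theorem yc_feas (h : N.OK C F) {δ : ℝ} {ys : ℕ → ℝ} (hs : N.Feas ys) (hδ : 0 ≤ δ) (hδ1 : δ ≤ 1) :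
    N.Feas (yc δ ys) := fun e he => by
  have := h.npos
  rw [sl_yc]
  exact add_nonneg (mul_nonneg (by linarith) (hs e he)) (by positivity)

theorem witness (h : N.OK C F) {lam δ ε mm : ℝ} {ut y ys : ℕ → ℝ} (hs : N.DOpt ys)
    (hy : N.Pos y) (ha : N.Apx δ ε ut y) (hε0 : 0 ≤ ε) (hε : ε ≤ 1 / 24) (hδ : 0 < δ)
    (hδ1 : δ ≤ 1) (hl : 0 ≤ lam) (hlδ : lam * δ * (C * F) ≤ mm) (hm : (N.m : ℝ) ≤ mm)
    (hu : ∀ e < N.m, 0 ≤ ut e) :
    lam * (N.obj y - N.obj ys) ≤ N.Wv lam δ ys y ∧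
    N.nu ut (fun v => yc δ ys v - y v) ≤ 4 * mm + 5 / 2 * N.Wv lam δ ys y ∧
    (8 * mm < N.Wv lam δ ys y →
      N.gt lam ut (fun v => yc δ ys v - y v) ≤ -(N.Wv lam δ ys y / 4)) := by
  have hd : ∀ e, N.dl (fun v => yc δ ys v - y v) e = N.sl y e - N.sl (yc δ ys) e := fun e => by
    simp only [sl, dl]
    ring
  have hc : ∀ e < N.m, δ ≤ N.sl (yc δ ys) e := fun e he => by
    have h1 : (1 : ℝ) ≤ N.c.get e := by exact_mod_cast h.c_pos e he
    have h2 := mul_nonneg (sub_nonneg.2 hδ1) (hs.1 e he)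
    rw [sl_yc]
    nlinarith
  have hup : ∀ e < N.m, 0 < uu δ (N.sl y e) := fun e he => by
    have := hy e he
    unfold uu
    positivity
  have hus : ∀ e < N.m, uu δ (N.sl y e) * N.sl y e ≤
      2 + uu δ (N.sl y e) * N.sl (yc δ ys) e / 4 := fun e he => by
    have h0 := hy e he
    have h1 : uu δ (N.sl y e) * N.sl y e = 1 + δ / N.sl y e := by
      unfold uu
      field_simp
    have h2 : (δ / N.sl y e) ^ 2 ≤ uu δ (N.sl y e) * δ := by
      have : uu δ (N.sl y e) * δ = δ / N.sl y e + (δ / N.sl y e) ^ 2 := by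
        unfold uu
        field_simp
      rw [this]
      exact le_add_of_nonneg_left (by positivity)
    have h3 := mul_le_mul_of_nonneg_left (hc e he) (hup e he).le
    nlinarith [sq_nonneg (δ / N.sl y e - 2)]
  obtain ⟨A, hA⟩ : ∃ A, A = ∑ e ∈ range N.m, uu δ (N.sl y e) * N.sl (yc δ ys) e := ⟨_, rfl⟩
  have hA0 : 0 ≤ A := hA ▸ sum_nonneg fun e he =>
    mul_nonneg (hup e (mem_range.1 he)).le (hδ.le.trans (hc e (mem_range.1 he)))
  have hg : 0 ≤ lam * (N.obj y - N.obj ys) := mul_nonneg hl (sub_nonneg.2 (hs.2 y hy.feas))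
  have hW : N.Wv lam δ ys y = lam * (N.obj y - N.obj ys) + A := by rw [hA]; rfl
  have hnu : N.nu ut (fun v => yc δ ys v - y v) ≤ 4 * N.m + 5 / 2 * A := by
    have : ∀ e ∈ range N.m, ut e * |N.dl (fun v => yc δ ys v - y v) e| ≤
        4 + 5 / 2 * (uu δ (N.sl y e) * N.sl (yc δ ys) e) := by
      intro e he
      have he := mem_range.1 he
      have h1 := abs_le.1 (ha e he)
      have h2 : ut e ≤ 2 * uu δ (N.sl y e) := by nlinarith [hu e he]
      have h3 : |N.dl (fun v => yc δ ys v - y v) e| ≤ N.sl y e + N.sl (yc δ ys) e := by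
        have := hy e he
        have := hc e he
        rw [hd]
        exact abs_le.2 ⟨by linarith, by linarith⟩
      have h4 := mul_le_mul h2 h3 (abs_nonneg _) (by have := hup e he; positivity)
      have := hus e he
      nlinarith
    refine (sum_le_sum this).trans (le_of_eq ?_)
    rw [sum_add_distrib, ← mul_sum, ← hA]
    simp [mul_comm]
  refine ⟨by linarith, by linarith, fun h8 => ?_⟩
  have hobj : N.obj (yc δ ys) ≤ N.obj ys + δ * (C * F) := by
    have h1 : N.obj (yc δ ys) = (1 - δ) * N.obj ys +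
        δ * ∑ e ∈ range N.m, (N.f0.get e : ℝ) * N.c.get e := by
      simp only [obj, sl_yc, mul_sum, ← sum_add_distrib]
      exact sum_congr rfl fun e _ => by ring
    have h2 := sum_f0_mul_le h (g := fun e => (N.c.get e : ℝ)) (x := C) (Nat.cast_nonneg _)
      fun e he => by exact_mod_cast h.c_le e he
    have h3 := obj_nonneg hs.1
    rw [h1]
    nlinarith
  have hgt : N.gt lam ut (fun v => yc δ ys v - y v) ≤ 2 * N.m - 3 / 4 * A +
      ε * N.nu ut (fun v => yc δ ys v - y v) - lam * (N.obj y - N.obj (yc δ ys)) := by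
    have : ∀ e ∈ range N.m, (ut e - lam * N.f0.get e) * N.dl (fun v => yc δ ys v - y v) e ≤
        2 - 3 / 4 * (uu δ (N.sl y e) * N.sl (yc δ ys) e) +
        ε * (ut e * |N.dl (fun v => yc δ ys v - y v) e|) -
        lam * (N.f0.get e * N.sl y e - N.f0.get e * N.sl (yc δ ys) e) := by
      intro e he
      have he := mem_range.1 he
      have h1 : (ut e - uu δ (N.sl y e)) * N.dl (fun v => yc δ ys v - y v) e ≤
          |uu δ (N.sl y e) - ut e| * |N.dl (fun v => yc δ ys v - y v) e| := by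
        rw [abs_sub_comm, ← abs_mul]
        exact le_abs_self _
      have h2 := mul_le_mul_of_nonneg_right (ha e he) (abs_nonneg (N.dl (fun v => yc δ ys v - y v) e))
      have h3 := hus e he
      rw [hd] at h1 h2 ⊢
      nlinarith
    refine (sum_le_sum this).trans (le_of_eq ?_)
    rw [sum_sub_distrib, sum_add_distrib, sum_sub_distrib, ← mul_sum, ← mul_sum, ← mul_sum,
      sum_sub_distrib, ← hA]
    simp [nu, obj, mul_comm]
  have h1 := mul_le_mul_of_nonneg_left hobj hl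
  have h2 : 0 ≤ N.nu ut (fun v => yc δ ys v - y v) :=
    sum_nonneg fun e he => mul_nonneg (hu e (mem_range.1 he)) (abs_nonneg _)
  have h3 := mul_le_mul_of_nonneg_right hε h2
  rw [hW] at h8 ⊢
  nlinarith

theorem Xi_term_nonneg (h : N.OK C F) {δ : ℝ} {y : ℕ → ℝ} (hy : N.Pos y) {e : ℕ} (he : e < N.m) :
    δ / N.sl y e ≤ Real.log (3 * C / N.sl y e) + δ / N.sl y e :=
  le_add_of_nonneg_left (Real.log_nonneg ((one_le_div (hy e he)).2 (sl_le h hy.feas he)))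

theorem Xi_nonneg (h : N.OK C F) {lam δ lb : ℝ} {y : ℕ → ℝ} (hy : N.Pos y) (hl : 0 ≤ lam)
    (hδ : 0 ≤ δ) (hlb : lb ≤ N.obj y) : 0 ≤ N.Xi lam δ (3 * C) lb y :=
  add_nonneg (mul_nonneg hl (sub_nonneg.2 hlb)) (sum_nonneg fun e he =>
    (div_nonneg hδ (hy e (mem_range.1 he)).le).trans (Xi_term_nonneg h hy (mem_range.1 he)))

theorem sl_ge (h : N.OK C F) {lam δ lb X : ℝ} {y : ℕ → ℝ} (hy : N.Pos y) (hl : 0 ≤ lam)
    (hδ : 0 ≤ δ) (hlb : lb ≤ N.obj y) (hX : N.Xi lam δ (3 * C) lb y ≤ X) {e : ℕ} (he : e < N.m) :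
    δ ≤ X * N.sl y e := by
  rw [← div_le_iff₀ (hy e he)]
  refine (Xi_term_nonneg h hy he).trans (le_trans ?_ hX)
  refine le_trans (single_le_sum (f := fun e => Real.log (3 * C / N.sl y e) + δ / N.sl y e)
    (fun e he => (div_nonneg hδ (hy e (mem_range.1 he)).le).trans
      (Xi_term_nonneg h hy (mem_range.1 he))) (mem_range.2 he)) ?_
  exact le_add_of_nonneg_left (mul_nonneg hl (sub_nonneg.2 hlb))

theorem Xi_double (lam δ S lb : ℝ) (y : ℕ → ℝ) :
    N.Xi (2 * lam) δ S lb y = N.Xi lam δ S lb y + lam * (N.obj y - lb) := by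
  unfold Xi
  ring

theorem Xi_zero (h : N.OK C F) {lam δ lb : ℝ} (hl : 0 ≤ lam) (hδ : 0 ≤ δ) (hδ1 : δ ≤ 1)
    (hlb : 0 ≤ lb) {K : ℕ} (hK : 3 * C ≤ 2 ^ K) :
    N.Xi lam δ (3 * C) lb (fun _ => 0) ≤ lam * (C * F) + N.m * (K + 1) := by
  have h0 : ∀ e, N.sl (fun _ => 0) e = N.c.get e := fun e => by simp [sl, dl]
  have h1 : N.obj (fun _ => 0) ≤ C * F := sum_f0_mul_le h (Nat.cast_nonneg _) fun e he => by
    rw [h0]
    exact_mod_cast h.c_le e he
  have h2 : ∀ e ∈ range N.m, Real.log (3 * C / N.sl (fun _ => 0) e) + δ / N.sl (fun _ => 0) e ≤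
      K + 1 := by
    intro e he
    have a1 : (1 : ℝ) ≤ N.c.get e := by exact_mod_cast h.c_pos e (mem_range.1 he)
    have a2 : (N.c.get e : ℝ) ≤ C := by exact_mod_cast h.c_le e (mem_range.1 he)
    have a3 : (3 * C : ℝ) ≤ 2 ^ K := by exact_mod_cast hK
    rw [h0]
    refine add_le_add ?_ ((div_le_one (by linarith)).2 (by linarith))
    calc Real.log (3 * C / N.c.get e) ≤ Real.log (2 ^ K) :=
          Real.log_le_log (div_pos (by linarith) (by linarith))
            ((div_le_self (by linarith) a1).trans a3)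
      _ = K * Real.log 2 := by rw [Real.log_pow]
      _ ≤ K := mul_le_of_le_one_right (Nat.cast_nonneg _)
          (by have := Real.log_le_sub_one_of_pos (two_pos : (0 : ℝ) < 2); linarith)
  have h3 := sum_le_card_nsmul _ _ _ h2
  rw [card_range, nsmul_eq_mul] at h3
  have h4 := mul_le_mul_of_nonneg_left (show N.obj (fun _ => 0) - lb ≤ C * F by linarith) hl
  unfold Xi
  linarith

end Net

theorem lam_uu {D Lam Dd σ : ℕ} {δ : ℝ} (hD : 0 < D) (hδ : δ * D ^ 2 = Dd) (hσ : 0 < σ) :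
    Lam * uu δ (σ / D) = ((Lam * D : ℕ) : ℝ) / σ + ((Lam * Dd : ℕ) : ℝ) / ((σ * σ : ℕ) : ℝ) := by
  have h1 : (0 : ℝ) < D := by exact_mod_cast hD
  have h2 : (0 : ℝ) < σ := by exact_mod_cast hσ
  unfold uu
  push_cast
  rw [← hδ]
  field_simp

theorem cast_div_lt {a b : ℕ} (hb : 0 < b) : (a : ℝ) / b ≤ ((a / b : ℕ) : ℝ) + 1 := by
  rw [div_le_iff₀ (by exact_mod_cast hb), mul_comm]
  exact_mod_cast (Nat.lt_mul_div_succ a hb).le

theorem gam_ge {D Lam Dd σ : ℕ} {δ : ℝ} (hD : 0 < D) (hδ : δ * D ^ 2 = Dd) (hσ : 0 < σ) :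
    Lam * uu δ (σ / D) ≤ gam D Lam Dd σ := by
  have h1 := cast_div_lt (a := Lam * D) hσ
  have h2 := cast_div_lt (a := Lam * Dd) (Nat.mul_pos hσ hσ)
  rw [lam_uu hD hδ hσ, gam, Nat.cast_add, Nat.cast_add, Nat.cast_ofNat]
  linarith

theorem gam_le {D Lam Dd σ : ℕ} {δ : ℝ} (hD : 0 < D) (hδ : δ * D ^ 2 = Dd) (hσ : 0 < σ) :
    (gam D Lam Dd σ : ℝ) ≤ Lam * uu δ (σ / D) + 2 := by
  have h1 := Nat.cast_div_le (α := ℝ) (m := Lam * D) (n := σ)
  have h2 := Nat.cast_div_le (α := ℝ) (m := Lam * Dd) (n := σ * σ)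
  rw [lam_uu hD hδ hσ, gam, Nat.cast_add, Nat.cast_add, Nat.cast_ofNat]
  linarith

theorem gam_le_of {D Lam Dd σ : ℕ} {δ X : ℝ} (hD : 0 < D) (hδ : δ * D ^ 2 = Dd) (hσ : 0 < σ)
    (hδ0 : 0 < δ) (hX : 1 ≤ X) (h : δ ≤ X * (σ / D)) :
    (gam D Lam Dd σ : ℝ) ≤ 2 * Lam * X ^ 2 / δ + 2 := by
  refine (gam_le hD hδ hσ).trans (add_le_add_left ?_ _)
  have hs : (0 : ℝ) < σ / D := by positivity
  generalize (σ : ℝ) / D = s at h hs
  have h1 : 1 / s ≤ X / δ := by
    rw [div_le_div_iff₀ hs hδ0]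
    linarith
  have h2 : δ / s ^ 2 ≤ X ^ 2 / δ := by
    rw [div_le_div_iff₀ (by positivity) hδ0]
    nlinarith
  have h3 : X / δ ≤ X ^ 2 / δ := div_le_div_of_nonneg_right (by nlinarith) hδ0.le
  have h4 : uu δ s ≤ 2 * (X ^ 2 / δ) := by
    unfold uu
    linarith
  calc _ ≤ (Lam : ℝ) * (2 * (X ^ 2 / δ)) := mul_le_mul_of_nonneg_left h4 (Nat.cast_nonneg _)
    _ = _ := by ring

theorem uu_drift {δ ε s s₀ : ℝ} (hδ : 0 ≤ δ) (h0 : 0 < s₀) (hε : ε ≤ 1 / 10)
    (h : |s - s₀| ≤ ε * s₀) : |uu δ s - uu δ s₀| ≤ 3 * ε * uu δ s₀ := by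
  obtain ⟨r, rfl⟩ : ∃ r, s = s₀ * (1 + r) := ⟨s / s₀ - 1, by field_simp; ring⟩
  have h1 : |r| ≤ ε := by
    rw [show s₀ * (1 + r) - s₀ = r * s₀ by ring, abs_mul, abs_of_pos h0] at h
    exact le_of_mul_le_mul_right h h0
  have h2 := abs_le.1 h1
  have h3 : 0 < 1 + r := by linarith
  have a1 : |1 / (1 + r) - 1| ≤ 3 * ε := by
    rw [abs_le, le_sub_iff_add_le, le_div_iff₀ h3, sub_le_iff_le_add, div_le_iff₀ h3]
    constructor <;> nlinarith
  have a2 : |1 / (1 + r) ^ 2 - 1| ≤ 3 * ε := by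
    have h4 : 0 < (1 + r) ^ 2 := by positivity
    rw [abs_le, le_sub_iff_add_le, le_div_iff₀ h4, sub_le_iff_le_add, div_le_iff₀ h4]
    constructor
    · have : (1 + r) ^ 2 ≤ 1 + 3 * ε := by nlinarith
      nlinarith
    · have : 1 - 2 * ε ≤ (1 + r) ^ 2 := by nlinarith
      nlinarith
  have e : uu δ (s₀ * (1 + r)) - uu δ s₀ =
      1 / s₀ * (1 / (1 + r) - 1) + δ / s₀ ^ 2 * (1 / (1 + r) ^ 2 - 1) := by
    unfold uu
    field_simp
    ring
  have p1 : 0 ≤ 1 / s₀ := by positivity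
  have p2 : 0 ≤ δ / s₀ ^ 2 := by positivity
  rw [e]
  refine (abs_add_le _ _).trans ?_
  rw [abs_mul, abs_mul, abs_of_nonneg p1, abs_of_nonneg p2]
  have := mul_le_mul_of_nonneg_left a1 p1
  have := mul_le_mul_of_nonneg_left a2 p2
  unfold uu
  linarith

theorem gam_drift {D Lam Dd σ : ℕ} {δ ε S s : ℝ} (hD : 0 < D) (hL : 0 < Lam)
    (hδ : δ * D ^ 2 = Dd) (hσ : 0 < σ) (hS : (σ : ℝ) / D ≤ S) (hε : ε ≤ 1 / 10)
    (hSL : 2 * S ≤ ε * Lam) (hz : gam D Lam Dd σ * |s - σ / D| ≤ ε * Lam) :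
    |uu δ s - gam D Lam Dd σ / Lam| ≤ 6 * ε * (gam D Lam Dd σ / Lam) := by
  have h1 := gam_ge (Lam := Lam) hD hδ hσ
  have h2 := gam_le (Lam := Lam) hD hδ hσ
  have hs : (0 : ℝ) < σ / D := by positivity
  have hL' : (0 : ℝ) < Lam := by exact_mod_cast hL
  have hδ0 : 0 ≤ δ := by
    have : (0 : ℝ) < (D : ℝ) ^ 2 := by positivity
    exact nonneg_of_mul_nonneg_left (hδ ▸ Nat.cast_nonneg _) this
  generalize (σ : ℝ) / D = s₀ at *
  obtain ⟨g, hg⟩ : ∃ g, g = (gam D Lam Dd σ : ℝ) / Lam := ⟨_, rfl⟩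
  have hg' : (gam D Lam Dd σ : ℝ) = g * Lam := by rw [hg]; field_simp
  rw [← hg]
  rw [hg'] at h1 h2 hz
  have a1 : uu δ s₀ ≤ g := by nlinarith
  have a2 : 1 ≤ uu δ s₀ * s₀ := by
    have : uu δ s₀ * s₀ = 1 + δ / s₀ := by
      unfold uu
      field_simp
    rw [this]
    exact le_add_of_nonneg_right (by positivity)
  have hε0 : 0 ≤ ε := by nlinarith
  have a3 : g * |s - s₀| ≤ ε := by nlinarith
  have a4 : |s - s₀| ≤ ε * s₀ := by
    have b1 : 1 ≤ g * s₀ := by nlinarith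
    have b2 := abs_nonneg (s - s₀)
    nlinarith
  have a5 := abs_le.1 (uu_drift hδ0 hs hε a4)
  have a6 : g ≤ uu δ s₀ + ε * g := by
    have b1 : 2 ≤ ε * g * Lam := by
      have : 2 * s₀ * g ≤ ε * Lam * g := mul_le_mul_of_nonneg_right (by linarith) (by nlinarith)
      nlinarith
    nlinarith
  have a7 : ε * uu δ s₀ ≤ ε * g := mul_le_mul_of_nonneg_left a1 hε0
  have a8 : 0 ≤ ε * g := mul_nonneg hε0 (by nlinarith)
  exact abs_le.2 ⟨by linarith, by linarith⟩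

end Vale.Agent.P305F
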