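import Vale.Agent.P305F.End3
import Vale.Agent.P305F.Ipm

/-!
# Flow, end, part 4: from the dual solver to an optimal flow
-/

namespace Vale.Agent.P305F

open Vale.Agent.P305E Finset

/-- The flow of `N` on a spanning tree of the arcs in `l`, if it passes the test with the
potentials for the costs of `N'`. -/
def post (N N' : Net) (l : List ℕ) : M (Option (Arr ℕ)) :=
  search N' l >>= fun s => rangeP N.n >>= fun ul => anyP (fun v => !s.1.get v) ul >>= fun b =>
    if b = true then pure none else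
      reroute N s.2.2 >>= fun r => rangeP N.m >>= fun el =>
        anyP (fun e => decide ((N.f0.get e : ℤ) + r.1.get e < 0 ∨
          (N'.c.get e : ℤ) < s.2.1.get (N.hd.get e) - s.2.1.get (N.tl.get e))) el >>= fun b' =>
          if b' = true then pure none else
            tabM (fun e => inum (N.f0.get e + r.1.get e) >>= fun z => pure z.toNat) 0 N.m >>=
              fun f => pure (some f)

@[fun_prop] theorem impl_post : Impl fun p : Net × Net × List ℕ => post p.1 p.2.1 p.2.2 := by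
  unfold post
  fun_prop

theorem post_tri {B wb C F : ℕ} {cn : Bool} {N : Net} {w : Arr ℕ} (hN : N.OK C F)
    (hw : ∀ e, w.get e < 2 ^ wb) {l : List ℕ} (hnd : l.Nodup) (hl : ∀ e ∈ l, e < N.m)
    (hB : (N.n + N.m + 2) ^ 2 * (pC wb C F + pF N.m F + 1) * 10 ≤ B) :
    Tri ⟨B, cn⟩ (post N (N.pert (2 ^ wb * (C * F + 1)) w) l) fun r t =>
      (∀ f, r = some f → N.OptFlow f.get) ∧
      ((N.pert (2 ^ wb * (C * F + 1)) w).Supp l → r ≠ none) ∧ t ≤ 10 * (N.n + N.m) := by
  set N' := N.pert (2 ^ wb * (C * F + 1)) w with hN'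
  have hO : N'.OK (pC wb C F) (pF N.m F) := Net.pert_OK hN hw
  have hlen : l.length ≤ N.m := by
    simpa using (List.subperm_of_subset hnd (l₂ := List.range N.m)
      fun e he => List.mem_range.2 (hl e he)).length_le
  have hF : F ≤ pF N.m F := by unfold pF; nlinarith
  have hsq : N.n + 2 ≤ (N.n + N.m + 2) ^ 2 := by nlinarith [Nat.zero_le N.m]
  have hB' := (Nat.mul_le_mul_right 10 (Nat.mul_le_mul_right _ hsq)).trans hB
  refine (search_tri hO hl (by simp only [hN', Net.pert_n]; nlinarith)).bind ?_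
  rintro s t ⟨hI, hc, ht⟩
  have hg : N.Gd s.2.2 := Net.pert_gd.1 hI.gd
  simp only [Tri_bind, Tri_rangeP, Tri_anyP, Tri_ite, Tri_pure, List.length_range,
    List.any_eq_true, List.mem_range, Bool.not_eq_true', decide_eq_true_eq]
  refine ⟨fun h1 => ⟨by simp, ?_, by omega⟩, fun h1 => ?_⟩
  · rintro ⟨f, hf, hs⟩
    obtain ⟨v, hv, h2⟩ := h1
    have := (hI.vis v).2 (Net.pert_conn hN hf.1.1 (Or.inl rfl)
      (fun e he h0 => hc e ((hs e).2 ⟨he, h0⟩)) hv)
    simp [this] at h2
  have hv : ∀ u < N.n, vs s.2.2 u := fun u hu => (hI.vis u).1 (by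
    by_contra h2
    exact h1 ⟨u, hu, by simpa using h2⟩)
  have hz : ∀ e, ar s.2.2 e → N'.sl (fun u => (s.2.1.get u : ℝ)) e = 0 := fun e he => by
    have := congrArg (Int.cast : ℤ → ℝ) (hI.pot e he)
    push_cast at this
    simp only [Net.sl, Net.dl, this, sub_self]
  have hsl : ∀ e, 0 ≤ N'.sl (fun u => (s.2.1.get u : ℝ)) e ↔
      ¬ (N'.c.get e : ℤ) < s.2.1.get (N.hd.get e) - s.2.1.get (N.tl.get e) := fun e => by
    simp only [Net.sl, Net.dl, not_lt, sub_nonneg, hN', Net.pert_hd, Net.pert_tl]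
    exact_mod_cast Iff.rfl
  refine (reroute_tri hN hg hv (by nlinarith)).mono ?_
  rintro r t' ⟨r1, r2, r3, r4⟩
  refine ⟨fun h2 => ⟨by simp, ?_, by omega⟩, fun h2 => ?_⟩
  · rintro ⟨f, hf, hs⟩
    obtain ⟨e, he, h3⟩ := h2
    have h4 : ∀ e, ar s.2.2 e → f e ≠ 0 := fun e he => ((hs e).1 (hI.sub e he)).2
    rcases h3 with h3 | h3
    · exact absurd (Net.tree_nonneg hN hf hg h4 hv r1 r2 he) (not_le.2 h3)
    · exact absurd h3 ((hsl e).1 (hf.feas hO.ends hI.gd h4 hv hz e he))
  · refine (Tri.tabM (P := fun e (x : ℕ) => (x : ℤ) = N.f0.get e + r.1.get e) (T := 0)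
      fun e he => ?_).mono ?_
    · have h3 := r3 e
      have h4 : N.f0.get e ≤ F := le_trans (single_le_sum (f := N.f0.get)
        (fun _ _ => Nat.zero_le _) (mem_range.2 he)) hN.f_le
      have h5 : (2 * N.n + 2) * F ≤ B := by nlinarith
      simp only [Tri_bind, Tri_inum, Tri_pure]
      refine ⟨le_trans (Int.natAbs_add_le _ _) ?_, Int.toNat_of_nonneg ?_, le_rfl⟩
      · simp only [Int.natAbs_natCast]
        nlinarith
      · exact not_lt.1 fun h => h2 ⟨e, he, Or.inl h⟩
    · rintro f t'' ⟨f1, -, f2⟩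
      refine ⟨?_, by simp, by omega⟩
      rintro _ ⟨rfl⟩
      refine Net.opt_of_check hN hw (y := fun u => (s.2.1.get u : ℝ)) (fun v hv => ?_)
        (fun e he => (hsl e).2 fun h => h2 ⟨e, he, Or.inr h⟩) fun e he h0 => hz e ?_
      · refine Eq.trans (sum_congr rfl fun e he => ?_) (r1 v hv)
        rw [f1 e (mem_range.1 he), Net.inc]
        ring
      · by_contra h3
        have := r2 e he h3
        have := f1 e he
        omega

/-- The perturbed network is built. -/
def mkPert (wb C F : ℕ) (N : Net) (w : Arr ℕ) : M Net :=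
  pow2 wb >>= fun p => tabM (fun e => num (p * (C * F + 1) * N.c.get e + w.get e)) 0 N.m >>=
    fun c => tabM (fun e => num ((N.m + 1) * N.f0.get e +
      if N.tl.get e = 0 ∧ N.hd.get e ≠ 0 then 1 else 0)) 0 N.m >>= fun f =>
        pure ⟨N.n, N.m, N.tl, N.hd, c, f⟩

@[fun_prop] theorem impl_mkPert : Impl fun p : ℕ × ℕ × ℕ × Net × Arr ℕ =>
    mkPert p.1 p.2.1 p.2.2.1 p.2.2.2.1 p.2.2.2.2 := by
  unfold mkPert
  fun_prop

theorem mkPert_tri {B wb C F : ℕ} {cn : Bool} {N : Net} {w : Arr ℕ} (hN : N.OK C F)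
    (hw : ∀ e, w.get e < 2 ^ wb) (hB : pC wb C F + pF N.m F ≤ B) :
    Tri ⟨B, cn⟩ (mkPert wb C F N w) fun N' t =>
      N' = N.pert (2 ^ wb * (C * F + 1)) w ∧ t ≤ 2 * N.m := by
  have hO := Net.pert_OK hN hw
  simp only [mkPert, Tri_bind, Tri_pow2, Tri_pure]
  refine ⟨by unfold pC at hB; omega, (Tri.tabM (T := 0)
    (P := fun e x => x = (N.pert (2 ^ wb * (C * F + 1)) w).c.get e) fun e he => ?_).mono ?_⟩
  · have := hO.c_le e he
    rw [Net.pert_c he] at this ⊢
    simp only [Tri_num, le_refl, and_true]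
    omega
  rintro c t ⟨c1, c2, c3⟩
  refine (Tri.tabM (T := 0)
    (P := fun e x => x = (N.pert (2 ^ wb * (C * F + 1)) w).f0.get e) fun e he => ?_).mono ?_
  · have := le_trans (single_le_sum (f := (N.pert (2 ^ wb * (C * F + 1)) w).f0.get)
      (fun _ _ => Nat.zero_le _) (mem_range.2 he)) hO.f_le
    rw [Net.pert_f0 he, Net.chi] at this ⊢
    simp only [Tri_num, le_refl, and_true]
    omega
  rintro f t' ⟨f1, f2, f3⟩
  refine ⟨?_, by omega⟩
  have e1 : c = (N.pert (2 ^ wb * (C * F + 1)) w).c := by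
    ext e
    rcases lt_or_ge e N.m with he | he
    · exact c1 e he
    · exact (c2 e he).trans (if_neg (not_lt.2 he)).symm
  have e2 : f = (N.pert (2 ^ wb * (C * F + 1)) w).f0 := by
    ext e
    rcases lt_or_ge e N.m with he | he
    · exact f1 e he
    · exact (f2 e he).trans (if_neg (not_lt.2 he)).symm
  rw [e1, e2]
  rfl

/-- One attempt. -/
def attempt (dual : Net → M (List ℕ)) (wb C F : ℕ) (N : Net) : M (Option (Arr ℕ)) :=
  tabM (fun _ => rbits wb) 0 N.m >>= fun w => mkPert wb C F N w >>= fun N' =>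
    dual N' >>= fun l => post N N' l

theorem attempt_le {B wb C F : ℕ} {N : Net} {dual : Net → M (List ℕ)} {T ε : ℝ}
    (hN : N.OK C F)
    (hd : ∀ N' : Net, N'.n = N.n → N'.m = N.m → N'.OK (pC wb C F) (pF N.m F) →
      DualSpec B N' (dual N') T ε)
    (hw : 10 * N.m * ((C + 1) * pF N.m F) ≤ 2 ^ wb)
    (hB : (N.n + N.m + 2) ^ 2 * (pC wb C F + pF N.m F + 1) * 10 ≤ B)
    {G : Option (Arr ℕ) → ℕ → ℝ} {C₀ C₁ τ : ℝ} (hτ : 0 ≤ τ) (h0 : 0 ≤ C₀) (h01 : C₀ ≤ C₁)
    (hG : ∀ r t, G r t ≤ 1) (hs : ∀ f t, N.OptFlow f.get → G (some f) t ≤ C₀ + τ * t)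
    (hn : ∀ t, G none t ≤ C₁ + τ * t) :
    wp B (attempt dual wb C F N) G 1 ≤
      C₀ + (C₁ - C₀) / 5 + τ * (T + ((2 * wb + 13) * (N.n + N.m) : ℕ)) + ε := by
  classical
  have hB1 : pC wb C F + pF N.m F ≤ B := by
    have : 1 ≤ (N.n + N.m + 2) ^ 2 := Nat.one_le_pow _ _ (by omega)
    nlinarith
  have hB2 : 2 ^ wb ≤ B := by unfold pC at hB1; omega
  have ht := Tri.tabM (c := ⟨B, true⟩) (g := fun _ => rbits wb) (d := 0) (m := N.m)
    (P := fun _ x => x < 2 ^ wb) (T := 2 * wb) fun _ _ =>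
      (Tri.rbits hB2).mono fun _ _ h => ⟨h.1, h.2.le⟩
  set X : ℝ := C₀ + (C₁ - C₀) / 10 + τ * (T + ((2 * wb + 13) * (N.n + N.m) : ℕ)) + ε with hX
  rw [attempt, wp_bind]
  refine (wp_le_of_Tri ht (G := fun w _ => X + (C₁ - C₀) * if (∀ j, w.get j < 2 ^ wb) ∧
      ¬ ∃ f, (N.pert (2 ^ wb * (C * F + 1)) w).UOpt f then 1 else 0) ?_ 1
      (X + (C₁ - C₀) * 0)).trans ?_
  · rintro w t₀ ⟨w1, w2, w3⟩
    have hw' : ∀ j, w.get j < 2 ^ wb := fun j => by
      rcases lt_or_ge j N.m with h | h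
      · exact w1 j h
      · rw [w2 j h]; positivity
    rw [wp_bind]
    refine wp_le_const_of_Tri (mkPert_tri (cn := true) hN hw' hB1) ?_ 1
    rintro _ t₁ ⟨rfl, h1⟩
    rw [wp_bind]
    have hO := Net.pert_OK hN hw'
    obtain ⟨ys, hys⟩ := Net.exists_DOpt hO
    set Y : ℝ := τ * ((2 * wb + 13) * (N.n + N.m) : ℕ) with hY
    have hY0 : 0 ≤ Y := by positivity
    have key : ∀ l t (c : ℝ), l.Nodup → (∀ e ∈ l, e < N.m) → C₀ ≤ c →
        (C₁ ≤ c ∨ (N.pert (2 ^ wb * (C * F + 1)) w).Supp l) →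
        wp B (post N (N.pert (2 ^ wb * (C * F + 1)) w) l)
          (fun b t' => G b (t₀ + (t₁ + (t + t')))) 1 ≤ c + Y + τ * t := by
      intro l t c l1 l2 c1 c2
      refine wp_le_const_of_Tri (post_tri (cn := true) hN hw' l1 l2 hB) ?_ 1
      rintro r t' ⟨r1, r2, r3⟩
      have h2 : τ * ((t₀ + (t₁ + (t + t')) : ℕ) : ℝ) ≤ Y + τ * t := by
        rw [hY, ← mul_add]
        refine mul_le_mul_of_nonneg_left ?_ hτ
        have : t₀ + (t₁ + (t + t')) ≤ (2 * wb + 13) * (N.n + N.m) + t := by nlinarith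
        exact_mod_cast this
      cases r with
      | none =>
        have := hn (t₀ + (t₁ + (t + t')))
        have := c2.resolve_right fun h => r2 h rfl
        linarith
      | some f =>
        have := hs f (t₀ + (t₁ + (t + t'))) (r1 f rfl)
        linarith
    have hle : ∀ l t, wp B (post N (N.pert (2 ^ wb * (C * F + 1)) w) l)
        (fun b t' => G b (t₀ + (t₁ + (t + t')))) 1 ≤ 1 := fun l t =>
      wp_le_const (fun _ _ => hG _ _) le_rfl
    split_ifs with h2
    · refine (hd _ Net.pert_n Net.pert_m hO ys hys _ (C₁ + Y) (C₁ + Y) τ hτ (by linarith) le_rfl hle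
        (fun l t l1 l2 => key l t C₁ l1 l2 h01 (Or.inl le_rfl))
        fun l t y l1 _ _ l2 => key l t C₁ l1 (fun e he => ((l2 e).1 he).1) h01
          (Or.inl le_rfl)).trans ?_
      rw [hX, mul_add]
      linarith
    · obtain ⟨f, hf⟩ := not_not.1 fun h => h2 ⟨hw', h⟩
      refine (hd _ Net.pert_n Net.pert_m hO ys hys _ (C₀ + Y) (C₁ + Y) τ hτ (by linarith) (by linarith) hle
        (fun l t l1 l2 => key l t C₁ l1 l2 h01 (Or.inl le_rfl))
        fun l t y l1 y1 y2 l2 => key l t C₀ l1 (fun e he => ((l2 e).1 he).1) le_rfl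
          (Or.inr (Net.supp_of_tight hN hf hys y1 y2 l2))).trans ?_
      rw [hX, mul_add]
      linarith
  · rw [wp_const_add, wp_mul_left]
    have := mul_le_mul_of_nonneg_left (wp_isolate hN hB2 hw) (sub_nonneg.2 h01)
    linarith

/-- `reps` attempts: perturb, call the dual solver, read off the tree flow, verify it. -/
noncomputable def flow (dual : Net → M (List ℕ)) (wb C F reps : ℕ) (N : Net) : M (Arr ℕ) :=
  iterM (fun s _ => s.elim (attempt dual wb C F N) fun f => pure (some f)) none reps >>= fun s =>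
    pure (s.getD (Arr.const 0))

theorem impl_flow {α : Type} [Rep α] {dual : α → Net → M (List ℕ)} {wb C F reps : α → ℕ}
    {N : α → Net} (hd : Impl fun p : α × Net => dual p.1 p.2) (h1 : Pure wb) (h2 : Pure C)
    (h3 : Pure F) (h4 : Pure reps) (h5 : Pure N) :
    Impl fun a => flow (dual a) (wb a) (C a) (F a) (reps a) (N a) := by
  unfold flow attempt
  fun_prop

theorem flow_spec {B wb C F reps : ℕ} {N : Net} {dual : Net → M (List ℕ)} {T ε : ℝ}
    (hN : N.OK C F) (hT : 0 ≤ T) (hε : 0 ≤ ε)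
    (hd : ∀ N' : Net, N'.n = N.n → N'.m = N.m → N'.OK (pC wb C F) (pF N.m F) →
      DualSpec B N' (dual N') T ε)
    (hw : 10 * N.m * ((C + 1) * pF N.m F) ≤ 2 ^ wb)
    (hB : (N.n + N.m + 2) ^ 2 * (pC wb C F + pF N.m F + 1) * 10 ≤ B) :
    FlowSpec B N (flow dual wb C F reps N)
      (reps * (T + 100 * (wb + 1) * (N.n + N.m + 1))) (reps * ε + (1 / 5) ^ reps) := by
  classical
  intro G C₀ τ hτ h0 hG hs
  set X : ℝ := T + 100 * (wb + 1) * (N.n + N.m + 1) with hX
  have hX1 : T + ((2 * wb + 13) * (N.n + N.m) : ℕ) + 1 ≤ X := by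
    have a : (0 : ℝ) ≤ wb := Nat.cast_nonneg _
    have b : (0 : ℝ) ≤ (N.n : ℝ) + N.m := by positivity
    rw [hX]
    push_cast
    nlinarith [mul_nonneg a b]
  have hX2 : 1 ≤ X := le_trans (by
    have : (0 : ℝ) ≤ ((2 * wb + 13) * (N.n + N.m) : ℕ) := Nat.cast_nonneg _
    linarith) hX1
  rw [flow, wp_bind]
  refine (wp_iterM_le (fun _ _ _ => True) (fun k s t => min 1 (C₀ + τ * t +
    ((reps - k : ℕ) : ℝ) * (τ * X + ε) + s.elim ((1 / 5) ^ (reps - k))
      fun f => if N.OptFlow f.get then 0 else 1)) trivial (fun _ _ _ _ _ => Par_true _) ?_ ?_).trans ?_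
  · intro k s t hk _
    obtain ⟨r, hr⟩ : ∃ r, reps - k = r + 1 := ⟨reps - k - 1, by omega⟩
    have hr' : reps - (k + 1) = r := by omega
    have hp : (0 : ℝ) ≤ r * (τ * X + ε) := by positivity
    have hq := mul_le_mul_of_nonneg_left hX1 hτ
    have hq' := mul_le_mul_of_nonneg_left hX2 hτ
    rw [hr, hr']
    refine le_min (wp_le_const (fun _ _ => min_le_left _ _) le_rfl) ?_
    cases s with
    | none =>
      refine (attempt_le hN hd hw hB (C₀ := C₀ + τ * (t + 1) + r * (τ * X + ε))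
        (C₁ := C₀ + τ * (t + 1) + r * (τ * X + ε) + (1 / 5) ^ r) hτ (by positivity)
        (le_add_of_nonneg_right (by positivity)) (fun _ _ => min_le_left _ _)
        (fun f t' hf => (min_le_right _ _).trans (le_of_eq ?_))
        fun t' => (min_le_right _ _).trans (le_of_eq ?_)).trans ?_
      · simp only [Option.elim_some, if_pos hf]
        push_cast
        ring
      · simp only [Option.elim_none]
        push_cast
        ring
      · simp only [Option.elim_none]
        push_cast at hq ⊢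
        rw [pow_succ]
        linarith
    | some f =>
      simp only [Option.elim_some, wp_pure]
      refine (min_le_right _ _).trans ?_
      push_cast
      linarith
  · intro s t _
    refine le_min (hG _ _) ?_
    have h1 : 0 ≤ τ * t := by positivity
    simp only [wp_pure, Nat.sub_self, Nat.cast_zero, zero_mul, add_zero, pow_zero]
    cases s with
    | none =>
      have := hG (Arr.const 0) t
      simp only [Option.elim_none, Option.getD_none]
      linarith
    | some f =>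
      simp only [Option.elim_some, Option.getD_some]
      split_ifs with hf
      · simpa using hs f t hf
      · have := hG f t
        linarith
  · refine (min_le_right _ _).trans (le_of_eq ?_)
    simp only [Nat.sub_zero, Option.elim_none, Nat.cast_zero]
    ring

end Vale.Agent.P305F
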