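import Vale.Agent.P305F.Level1

/-!
# Flow: a level that is built on another level satisfies the invariants
-/

namespace Vale.Agent.P305F

open Vale.Agent.P305E Vale.Agent.P305S Finset

variable {N : Net} {P : Pm} {C F gm lam i : ℕ} {sg : ℕ → ℕ} {b v lo hi : Lev} {A U : List ℕ}
  {cs : List (ℕ → ℕ)}

theorem sum_split {X : Type} {n : ℕ} (hA : ∀ a ∈ A, a < n) (l : List (ℕ × X))
    (hl : ∀ p ∈ l, p.1 ∈ A) (μ : ℕ × X → ℝ) (g o : ℕ → ℝ) :
    ∑ a ∈ range n, (if a ∈ A then ((l.filter fun p => p.1 = a).map μ).sum * g a else o a) =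
      ∑ a ∈ range n, (if a ∈ A then 0 else o a) + (l.map fun p => μ p * g p.1).sum := by
  induction l with
  | nil => simp
  | cons p l ih =>
    have h1 := hl p (by simp)
    have h2 : ∀ a ∈ range n, (if a ∈ A then (((p :: l).filter fun p => p.1 = a).map μ).sum * g a
        else o a) = (if a ∈ A then ((l.filter fun p => p.1 = a).map μ).sum * g a else o a) +
        if p.1 = a then μ p * g a else 0 := by
      intro a _
      by_cases ha : p.1 = a
      · subst ha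
        simp [h1, add_mul, add_comm]
      · simp [ha]
    rw [sum_congr rfl h2, sum_add_distrib, ih fun q hq => hl q (by simp [hq]), sum_ite_eq,
      if_pos (mem_range.2 (hA _ h1)), List.map_cons, List.sum_cons]
    ring

theorem sum_ents {r : ℕ} (H : List HEdge) (f : ℕ × WT × ℤ → ℝ) :
    ((ents cs r H).map f).sum = (H.map fun h => ((sdA r cs h.1 h.2.1 []).map fun p =>
      f (p.1, h.2.2.1, if p.2 = true then h.2.2.2 else -h.2.2.2)).sum).sum := by
  induction H with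
  | nil => simp [ents]
  | cons h H ih =>
    simp only [ents, List.map_cons, List.flatten_cons, List.map_append, List.sum_append,
      List.sum_cons] at ih ⊢
    rw [ih, entsOf, List.map_map]
    rfl

theorem Built.closed (hN : N.OK C F) (hb : LevOK N P gm lam sg i b)
    (hv : Built N P sg i b A U cs v) (hg : ∀ e < N.m, P.g (sg e) ≤ gm) :
    ∀ c ∈ cs, ∀ x ∈ A, c x ∈ A := by
  intro c hc x hx
  have h := (hEdges_ok hN hb hv.ndA hv.memA hv.ndU hv.memU hg).2.2.2.2.1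
  rcases hv.clo c hc x with e | e
  · rwa [e]
  · simp only [ends, mem_union, List.mem_toFinset, List.mem_map] at e
    rcases e with ⟨d, hd, e⟩ | ⟨d, hd, e⟩
    · exact e ▸ (h d hd).2.1
    · exact e ▸ (h d hd).2.2

theorem Built.fix (hv : Built N P sg i b A U cs v) : ∀ c ∈ cs, c v.rt = v.rt :=
  hv.rt ▸ hv.her.fix b.rt

theorem Built.lt (hN : N.OK C F) (hb : LevOK N P gm lam sg i b)
    (hv : Built N P sg i b A U cs v) : ∀ a ∈ A, a < N.n :=
  fun a ha => hb.inA_lt hN ((hv.memA a).1 ha)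

theorem Built.ult (hb : LevOK N P gm lam sg i b) (hv : Built N P sg i b A U cs v) :
    ∀ e ∈ U, e < N.m := fun e he => hb.ult e ((hv.memU e).1 he)

theorem Built.tree (hN : N.OK C F) (hb : LevOK N P gm lam sg i b)
    (hv : Built N P sg i b A U cs v) (hg : ∀ e < N.m, P.g (sg e) ≤ gm) :
    IsTree N.n v.rt v.par.get (1 + (i + 1) * (P.Ls + 1)) ∧ v.rt ∈ A ∧
      ∀ a ∈ A, v.par.get a ∈ A := by
  have h := newTree hb.tree A (hv.lt hN hb) ((hv.memA _).2 inA_rt) hv.her (hv.closed hN hb hg)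
  rw [← hv.rt, ← (funext hv.par : v.par.get = _), hv.len] at h
  exact ⟨h.1.mono (le_of_eq (by ring)), h.2.1, fun a ha => by
    rw [hv.par, if_pos ha]; exact h.2.2 a ha⟩

theorem Built.par_mem (hN : N.OK C F) (hb : LevOK N P gm lam sg i b)
    (hv : Built N P sg i b A U cs v) (hg : ∀ e < N.m, P.g (sg e) ≤ gm) :
    v.rt ∈ A ∧ ∀ a ∈ A, v.par.get a ∈ A := (hv.tree hN hb hg).2

theorem Built.ents (hN : N.OK C F) (hb : LevOK N P gm lam sg i b)
    (hv : Built N P sg i b A U cs v) (hg : ∀ e < N.m, P.g (sg e) ≤ gm) :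
    (∀ p ∈ ents cs v.rt (hEdges N P sg b A U), p.1 ∈ A ∧ p.1 ≠ v.rt) ∧
    ((ents cs v.rt (hEdges N P sg b A U)).map fun p => ww p.2.1).sum ≤
      2 * (cs.length + 1) * ((hEdges N P sg b A U).map fun h => ww h.2.2.1).sum := by
  have h := (hEdges_ok hN hb hv.ndA hv.memA hv.ndU hv.memU hg).2.1
  have h' := ents_mem (hv.closed hN hb hg) hv.fix fun x hx => ⟨(h x hx).1, (h x hx).2.1⟩
  exact ⟨fun p hp => ⟨(h'.2.1 p hp).1, (h'.2.1 p hp).2.1⟩, h'.2.2⟩

/-- Additive functions of the weighted trees of the new level. -/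
theorem Built.sum_wt (hN : N.OK C F) (hb : LevOK N P gm lam sg i b)
    (hv : Built N P sg i b A U cs v) (hg : ∀ e < N.m, P.g (sg e) ≤ gm) (μ : WT → ℕ)
    (hμ : ∀ d l t, Coll N.m d l t → μ t = (l.map μ).sum) (g : ℕ → ℕ → ℝ) :
    ∑ a ∈ range N.n, (μ (v.wt.get a) : ℝ) * g a (v.par.get a) =
      ∑ a ∈ range N.n, (if a ∈ A then 0 else (μ (b.wt.get a) : ℝ) * g a (b.par.get a)) +
      ((P305F.ents cs v.rt (hEdges N P sg b A U)).map fun p =>
        (μ p.2.1 : ℝ) * g p.1 (parOf cs v.rt p.1)).sum := by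
  rw [← sum_split (hv.lt hN hb) _ (fun p hp => ((hv.ents hN hb hg).1 p hp).1)
    (fun p => (μ p.2.1 : ℝ)) fun a => g a (parOf cs v.rt a)]
  refine sum_congr rfl fun a _ => ?_
  rw [hv.par]
  split_ifs with ha
  · rw [hμ _ _ _ (hv.wtA a ha), Nat.cast_list_sum, List.map_map, List.map_map]
    rfl
  · rw [hv.wt a ha]

theorem Built.sum_nm (hN : N.OK C F) (hb : LevOK N P gm lam sg i b)
    (hv : Built N P sg i b A U cs v) (hg : ∀ e < N.m, P.g (sg e) ≤ gm) (μ : WT → ℕ)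
    (hμ : ∀ d l t, Coll N.m d l t → μ t = (l.map μ).sum) (ψ : ℕ → ℝ) :
    ∑ a ∈ range N.n, (μ (v.wt.get a) : ℝ) * |ψ a - ψ (v.par.get a)| =
      ∑ a ∈ range N.n, (if a ∈ A then 0 else (μ (b.wt.get a) : ℝ) * |ψ a - ψ (b.par.get a)|) +
      ((hEdges N P sg b A U).map fun h => (μ h.2.2.1 : ℝ) * ((sdA v.rt cs h.1 h.2.1 []).map
        fun p => |ψ p.1 - ψ (parOf cs v.rt p.1)|).sum).sum := by
  rw [hv.sum_wt hN hb hg μ hμ fun a c => |ψ a - ψ c|, sum_ents]
  simp only [List.sum_map_mul_left]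

theorem Built.low (hN : N.OK C F) (hb : LevOK N P gm lam sg i b)
    (hv : Built N P sg i b A U cs v) (hg : ∀ e < N.m, P.g (sg e) ≤ gm) (μ : WT → ℕ)
    (hμ : ∀ d l t, Coll N.m d l t → μ t = (l.map μ).sum) (ψ : ℕ → ℝ) :
    ∑ a ∈ range N.n, (μ (b.wt.get a) : ℝ) * |ψ a - ψ (b.par.get a)| +
      ∑ e ∈ range N.m, (if e ∈ U then (μ (BT.leaf (P.g (sg e), e)) : ℝ) * |N.dl ψ e| else 0) ≤
    ∑ a ∈ range N.n, (μ (v.wt.get a) : ℝ) * |ψ a - ψ (v.par.get a)| := by
  have h1 : ((hEdges N P sg b A U).map fun h => (μ h.2.2.1 : ℝ) * |ψ h.1 - ψ h.2.1|).sum ≤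
      ((hEdges N P sg b A U).map fun h => (μ h.2.2.1 : ℝ) * ((sdA v.rt cs h.1 h.2.1 []).map
        fun p => |ψ p.1 - ψ (parOf cs v.rt p.1)|).sum).sum :=
    List.sum_le_sum fun h _ =>
      mul_le_mul_of_nonneg_left (sdA_abs_ge hv.her ψ) (Nat.cast_nonneg _)
  rw [hv.sum_nm hN hb hg μ hμ]
  refine le_trans (le_of_eq ?_) (add_le_add_right h1 _)
  rw [sum_hEdges (hv.lt hN hb) hv.ndA (hv.ult hb) hv.ndU, ← add_assoc, ← sum_add_distrib]
  congr 1
  exact sum_congr rfl fun a _ => by split_ifs <;> simp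

theorem Built.grad (hN : N.OK C F) (hb : LevOK N P gm lam sg i b)
    (hv : Built N P sg i b A U cs v) (hg : ∀ e < N.m, P.g (sg e) ≤ gm) (ψ : ℕ → ℝ) :
    ∑ a ∈ range N.n, (v.G.get a : ℝ) * (ψ a - ψ (v.par.get a)) =
      ∑ e ∈ range N.m, ((v.snap.get e : ℝ) - lam * N.f0.get e) * N.dl ψ e := by
  have h1 : ∑ a ∈ range N.n, (v.G.get a : ℝ) * (ψ a - ψ (v.par.get a)) =
      ∑ a ∈ range N.n, (if a ∈ A then 0 else (b.G.get a : ℝ) * (ψ a - ψ (b.par.get a))) +
      ((P305F.ents cs v.rt (hEdges N P sg b A U)).map fun p =>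
        (p.2.2 : ℝ) * (ψ p.1 - ψ (parOf cs v.rt p.1))).sum := by
    rw [← sum_split (hv.lt hN hb) _ (fun p hp => ((hv.ents hN hb hg).1 p hp).1)
      (fun p => (p.2.2 : ℝ)) fun a => ψ a - ψ (parOf cs v.rt a)]
    refine sum_congr rfl fun a _ => ?_
    rw [hv.par, hv.G]
    split_ifs with ha
    · rw [Int.cast_list_sum, List.map_map]
      rfl
    · rfl
  have h2 : ∀ h : HEdge, ((sdA v.rt cs h.1 h.2.1 []).map fun p =>
      (((if p.2 = true then h.2.2.2 else -h.2.2.2 : ℤ) : ℝ)) *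
        (ψ p.1 - ψ (parOf cs v.rt p.1))).sum = (h.2.2.2 : ℝ) * (ψ h.1 - ψ h.2.1) := by
    intro h
    rw [← sdA_sum (r := v.rt) hv.her ψ, ← List.sum_map_mul_left]
    congr 1
    refine List.map_congr_left fun p _ => ?_
    split_ifs <;> push_cast <;> ring
  rw [h1, sum_ents]
  simp only [h2]
  rw [sum_hEdges (hv.lt hN hb) hv.ndA (hv.ult hb) hv.ndU, ← add_assoc, ← sum_add_distrib,
    sum_congr rfl (g := fun a => (b.G.get a : ℝ) * (ψ a - ψ (b.par.get a)))
      (fun a _ => by split_ifs <;> simp), hb.grad, ← sum_add_distrib]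
  refine sum_congr rfl fun e _ => ?_
  rw [hv.snap]
  split_ifs
  · simp only [Net.dl]
    push_cast
    ring
  · ring

theorem Built.levOK (hN : N.OK C F) (hb : LevOK N P gm lam sg i b)
    (hv : Built N P sg i b A U cs v) (hg : ∀ e < N.m, P.g (sg e) ≤ gm) :
    LevOK N P gm lam sg (i + 1) v := by
  have ht := hv.tree hN hb hg
  have he := hv.ents hN hb hg
  refine ⟨ht.1, fun a ha => ?_, ?_, hv.grad hN hb hg, ?_, fun e he _ ψ => ?_, fun e he _ => ?_,
    fun e he => ?_, by simp [hv.U], fun a => ?_⟩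
  · by_cases h : a ∈ A
    · exact ⟨(hv.wtA a h).ok, (hv.wtA a h).dp⟩
    · rw [hv.wt a h]
      exact ⟨(hb.wok a ha).1, (hb.wok a ha).2.trans (Nat.mul_le_mul_right _ (by omega))⟩
  · have h1 := hv.sum_wt hN hb hg ww (fun _ _ _ h => h.w) fun _ _ => 1
    have h2 : ∑ a ∈ range N.n, ww (v.wt.get a) ≤ ∑ a ∈ range N.n, ww (b.wt.get a) +
        ((P305F.ents cs v.rt (hEdges N P sg b A U)).map fun p => ww p.2.1).sum := by
      rw [← Nat.cast_le (α := ℝ), Nat.cast_add, Nat.cast_list_sum, List.map_map, Nat.cast_sum,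
        Nat.cast_sum]
      simp only [mul_one] at h1
      rw [h1]
      refine add_le_add (sum_le_sum fun a _ => ?_) le_rfl
      split_ifs <;> simp
    have h3 := (hEdges_ok hN hb hv.ndA hv.memA hv.ndU hv.memU hg).2.2.1
    have h4 := he.2.trans (Nat.mul_le_mul_left _ h3)
    have h5 := hb.tot
    rw [hv.len] at h4
    rw [pow_succ', mul_assoc]
    generalize (2 * P.Ls + 3) ^ i * (N.m * gm) = T at *
    nlinarith
  · rw [hv.G, if_pos ht.2.1, List.filter_eq_nil_iff.2 fun p hp => by simpa using (he.1 p hp).2]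
    rfl
  · refine le_trans ?_ (hv.low hN hb hg (mass e) (fun _ _ _ h => h.ms e) ψ)
    have h1 : 0 ≤ ∑ a ∈ range N.n, (mass e (b.wt.get a) : ℝ) * |ψ a - ψ (b.par.get a)| :=
      sum_nonneg fun _ _ => by positivity
    have h2 : ∀ d ∈ range N.m, (0 : ℝ) ≤ if d ∈ U then
        (mass e (BT.leaf (P.g (sg d), d)) : ℝ) * |N.dl ψ d| else 0 := fun _ _ => by
      split_ifs <;> positivity
    rw [hv.snap]
    split_ifs with hU
    · have h3 := single_le_sum h2 (mem_range.2 he)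
      simp only [hU, if_true, mass] at h3
      simp only [mass]
      linarith
    · have h3 := hb.mss e he (fun h => hU ((hv.memU e).2 h)) ψ
      have h4 := sum_nonneg h2
      linarith
  · rw [hv.snap]
    split_ifs with hU
    · rfl
    · exact hb.snp e he fun h => hU ((hv.memU e).2 h)
  · rw [hv.snap]
    split_ifs
    · exact (hg e he).trans (Nat.le_add_right _ _)
    · exact hb.snb e he
  · rw [hv.cnd]
    by_cases h : a ∈ A
    · simp [h, hv.lt hN hb a h]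
    · rw [if_neg h, hb.cnd, hv.wt a h, hv.G, if_neg h]

theorem Built.ref (hN : N.OK C F) (hb : LevOK N P gm lam sg i b)
    (hv : Built N P sg i b A U cs v) (hg : ∀ e < N.m, P.g (sg e) ≤ gm) (hlo : Ref N lo b)
    (hrt : InA N lo b.rt) : Ref N lo v := by
  have ht := hv.par_mem hN hb hg
  have key : ∀ a ∈ A, InA N lo a := by
    intro a ha
    obtain ⟨x, j, hx, rfl⟩ := (hv.memA a).1 ha
    have h1 : x < N.n := hb.inA_lt hN ⟨x, 0, hx, rfl⟩
    clear ha
    induction j with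
    | zero =>
      rcases hx with rfl | ⟨e, he, rfl | rfl⟩
      exacts [hrt, inA_hd (hlo.sub e he), inA_tl (hlo.sub e he)]
    | succ j ih =>
      rw [Function.iterate_succ_apply']
      exact hlo.clo _ (hb.tree.iter_lt h1 j) ih
  refine ⟨by simp [hv.U], fun a ha hn => ?_, fun a ha h => ?_, key _ ht.1,
    fun ψ => (hlo.dom ψ).trans ?_⟩
  · rw [hv.par, if_neg fun h => hn (key a h), hlo.same a ha hn]
  · by_cases hA : a ∈ A
    · exact key _ (ht.2 a hA)
    · rw [hv.par, if_neg hA]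
      exact hlo.clo a ha h
  · refine le_trans (le_add_of_nonneg_right (sum_nonneg fun _ _ => ?_))
      (hv.low hN hb hg ww (fun _ _ _ h => h.w) ψ)
    split_ifs <;> positivity

theorem Built.nm_le (hN : N.OK C F) (hb : LevOK N P gm lam sg i b)
    (hv : Built N P sg i b A U cs v) (hg : ∀ e < N.m, P.g (sg e) ≤ gm) {ψ : ℕ → ℝ} {Osc : ℝ}
    (hψ : ∀ a b, |ψ a - ψ b| ≤ Osc) :
    v.nm N.n ψ ≤ b.rest N.n A ψ + TN Osc ψ cs (sEdges (hEdges N P sg b A U)) := by
  have h := sdA_le_TN (r := v.rt) hv.her hψ (sEdges (hEdges N P sg b A U))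
  rw [wsum_sEdges] at h
  rw [Lev.nm, hv.sum_nm hN hb hg ww (fun _ _ _ h => h.w)]
  exact add_le_add le_rfl h

end Vale.Agent.P305F
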