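import Vale.Agent.P305F.Tree

/-!
# Flow: simple facts on levels, and the edge list of a rebuild
-/

namespace Vale.Agent.P305F

open Vale.Agent.P305E Vale.Agent.P305S Finset

variable {N : Net} {P : Pm} {C F gm lam i : ℕ} {sg : ℕ → ℕ} {b v lo hi : Lev} {A U : List ℕ}
  {cs : List (ℕ → ℕ)}

theorem sum_list_eq {β : Type} [AddCommMonoid β] {n : ℕ} {l : List ℕ} (hn : l.Nodup)
    (hl : ∀ a ∈ l, a < n) (f : ℕ → β) :
    (l.map f).sum = ∑ a ∈ range n, if a ∈ l then f a else 0 := by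
  rw [← List.sum_toFinset f hn, ← sum_filter]
  refine sum_congr ?_ fun _ _ => rfl
  ext a
  simp only [List.mem_toFinset, mem_filter, mem_range]
  exact ⟨fun h => ⟨hl a h, h⟩, fun h => h.2⟩

theorem length_le_of_nodup {n : ℕ} {l : List ℕ} (hn : l.Nodup) (hl : ∀ a ∈ l, a < n) :
    l.length ≤ n := by
  rw [← List.toFinset_card_of_nodup hn]
  refine (card_le_card fun a ha => ?_).trans (card_range n).le
  exact mem_range.2 (hl a (List.mem_toFinset.1 ha))

theorem LevOK.mono {i' : ℕ} (h : LevOK N P gm lam sg i v) (hi : i ≤ i') :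
    LevOK N P gm lam sg i' v :=
  ⟨h.tree.mono (Nat.add_le_add_left (Nat.mul_le_mul_right _ hi) _),
    fun a ha => ⟨(h.wok a ha).1, (h.wok a ha).2.trans (Nat.mul_le_mul_right _ hi)⟩,
    h.tot.trans (Nat.mul_le_mul_right _ (Nat.pow_le_pow_right (by omega) hi)),
    h.grad, h.grt, h.mss, h.snp, h.snb, h.ult, h.cnd⟩

theorem LevOK.inA_lt (hN : N.OK C F) (h : LevOK N P gm lam sg i v) {a : ℕ} (ha : InA N v a) :
    a < N.n := by
  obtain ⟨x, j, hx, rfl⟩ := ha
  refine h.tree.iter_lt ?_ j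
  rcases hx with rfl | ⟨e, he, rfl | rfl⟩
  exacts [h.tree.rt_lt, hN.hd_lt e (h.ult e he), hN.tl_lt e (h.ult e he)]

theorem inA_par {a : ℕ} (ha : InA N v a) : InA N v (v.par.get a) := by
  obtain ⟨x, j, hx, rfl⟩ := ha
  exact ⟨x, j + 1, hx, Function.iterate_succ_apply' _ _ _⟩

theorem inA_rt : InA N v v.rt := ⟨_, 0, Or.inl rfl, rfl⟩

theorem inA_hd {e : ℕ} (he : e ∈ v.U) : InA N v (N.hd.get e) :=
  ⟨_, 0, Or.inr ⟨e, he, Or.inl rfl⟩, rfl⟩

theorem inA_tl {e : ℕ} (he : e ∈ v.U) : InA N v (N.tl.get e) :=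
  ⟨_, 0, Or.inr ⟨e, he, Or.inr rfl⟩, rfl⟩

theorem LevOK.G_le (hN : N.OK C F) (h : LevOK N P gm lam sg i v) {a : ℕ} (ha : a < N.n) :
    (v.G.get a).natAbs ≤ N.m * gm + lam * F := by
  by_cases hr : a = v.rt
  · rw [hr, h.grt]
    exact Nat.zero_le _
  obtain ⟨ψ, hψ⟩ : ∃ ψ : ℕ → ℝ, ψ = fun x =>
    ((ind v.par.get v.rt (1 + i * (P.Ls + 1)) a x : ℤ) : ℝ) := ⟨_, rfl⟩
  have h1 := h.grad ψ
  have h2 : ∀ x ∈ range N.n, (v.G.get x : ℝ) * (ψ x - ψ (v.par.get x)) =
      if x = a then (v.G.get x : ℝ) else 0 := by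
    intro x hx
    have := congrArg (Int.cast : ℤ → ℝ) (h.tree.ind_par le_rfl hr (mem_range.1 hx))
    push_cast at this
    rw [hψ]
    beta_reduce
    rw [this]
    split_ifs <;> simp
  rw [sum_congr rfl h2, sum_ite_eq', if_pos (mem_range.2 ha)] at h1
  have h3 : ∀ e ∈ range N.m, |((v.snap.get e : ℝ) - lam * N.f0.get e) * N.dl ψ e| ≤
      gm + lam * N.f0.get e := by
    intro e he
    have a1 : (v.snap.get e : ℝ) ≤ gm + lam * N.f0.get e := by
      exact_mod_cast h.snb e (mem_range.1 he)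
    have a2 : |N.dl ψ e| ≤ 1 := by
      simp only [Net.dl, hψ, ind]
      split_ifs <;> simp
    have a3 : (0 : ℝ) ≤ lam * N.f0.get e := by positivity
    have a4 : (0 : ℝ) ≤ v.snap.get e := Nat.cast_nonneg _
    have a5 : (0 : ℝ) ≤ gm := Nat.cast_nonneg _
    rw [abs_mul]
    exact (mul_le_of_le_one_right (abs_nonneg _) a2).trans (abs_le.2 ⟨by linarith, by linarith⟩)
  have h4 : ∑ e ∈ range N.m, (N.f0.get e : ℝ) ≤ F := by exact_mod_cast hN.f_le
  have h5 := (abs_sum_le_sum_abs _ _).trans (sum_le_sum h3)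
  rw [← h1, sum_add_distrib, ← mul_sum, sum_const, card_range, nsmul_eq_mul] at h5
  have h6 := mul_le_mul_of_nonneg_left h4 (Nat.cast_nonneg (α := ℝ) lam)
  have h7 : (((v.G.get a).natAbs : ℕ) : ℝ) = |(v.G.get a : ℝ)| := by
    rw [← Int.cast_natCast, Int.natCast_natAbs, Int.cast_abs]
  have h8 : (((v.G.get a).natAbs : ℕ) : ℝ) ≤ N.m * gm + lam * F := by linarith
  exact_mod_cast h8

theorem LevOK.note (h : LevOK N P gm lam sg i v) {l : List ℕ} {sg' : ℕ → ℕ}
    (hl : ∀ e ∈ l, e < N.m) (hs : ∀ e, e ∉ l → sg' e = sg e) :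
    LevOK N P gm lam sg' i { v with U := l ++ v.U } :=
  ⟨h.tree, h.wok, h.tot, h.grad, h.grt,
    fun e he hU => h.mss e he fun h' => hU (List.mem_append_right _ h'),
    fun e he hU => by
      rw [hs e fun h' => hU (List.mem_append_left _ h')]
      exact h.snp e he fun h' => hU (List.mem_append_right _ h'),
    h.snb, fun e he => (List.mem_append.1 he).elim (hl e) (h.ult e), h.cnd⟩

theorem LevOK.all (h : LevOK N P gm lam sg i v) (hU : v.U = List.range N.m) (sg' : ℕ → ℕ) :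
    LevOK N P gm lam sg' i v :=
  ⟨h.tree, h.wok, h.tot, h.grad, h.grt, h.mss,
    fun _ he hn => absurd (hU ▸ List.mem_range.2 he) hn, h.snb, h.ult, h.cnd⟩

theorem Ref.refl (N : Net) (v : Lev) : Ref N v v :=
  ⟨fun _ h => h, fun _ _ _ => rfl, fun _ _ h => inA_par h, inA_rt, fun _ => le_rfl⟩

theorem Ref.note (h : Ref N lo hi) (l : List ℕ) :
    Ref N { lo with U := l ++ lo.U } { hi with U := l ++ hi.U } := by
  have key : ∀ a, InA N lo a → InA N { lo with U := l ++ lo.U } a := by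
    rintro a ⟨x, j, hx, hj⟩
    exact ⟨x, j, hx.imp_right fun ⟨e, he, h'⟩ => ⟨e, List.mem_append_right _ he, h'⟩, hj⟩
  refine ⟨fun e he => List.mem_append.2 ((List.mem_append.1 he).imp_right (h.sub e)),
    fun a ha hn => h.same a ha fun h' => hn (key a h'), fun a ha hA => ?_, key _ h.rt, h.dom⟩
  by_cases h' : InA N lo a
  · exact key _ (h.clo a ha h')
  · have := inA_par hA
    rw [show ({ hi with U := l ++ hi.U } : Lev).par.get a = lo.par.get a from h.same a ha h']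
    exact this

theorem Ref.note_all (h : Ref N lo hi) (hU : lo.U = List.range N.m) {l : List ℕ}
    (hl : ∀ e ∈ l, e < N.m) : Ref N lo { hi with U := l ++ hi.U } :=
  ⟨fun e he => (List.mem_append.1 he).elim (fun h' => hU ▸ List.mem_range.2 (hl e h')) (h.sub e),
    h.same, h.clo, h.rt, h.dom⟩

theorem Virt.levOK (hN : N.OK C F) (h : Virt N lam v) : LevOK N P gm lam sg 0 v := by
  have hn := hN.npos
  refine ⟨⟨h.rt ▸ hn, by simp [h.par, h.rt], fun _ _ => by simpa [h.par] using hn,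
    fun x => if x = 0 then 0 else 1, fun x _ => ?_, fun x _ hx => ?_⟩,
    fun a _ => by simp [h.wt, WOK, dep], by simp [h.wt, ww], fun ψ => ?_, by simp [h.G],
    fun e he hU => absurd (h.U ▸ List.mem_range.2 he) hU,
    fun e he hU => absurd (h.U ▸ List.mem_range.2 he) hU,
    fun e he => by rw [h.snap e he]; omega, fun e he => List.mem_range.1 (h.U ▸ he),
    fun a => by simp [h.cand, h.G, good]⟩
  · beta_reduce
    split_ifs <;> omega
  · rw [h.rt] at hx
    simp [h.par, hx]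
  · simp only [h.G, Arr.get_const, Int.cast_zero, zero_mul, sum_const_zero]
    refine (sum_eq_zero fun e he => ?_).symm
    rw [h.snap e (mem_range.1 he)]
    push_cast
    ring

theorem Virt.inA (hN : N.OK C F) (h : Virt N lam v) {a : ℕ} (ha : a < N.n) : InA N v a := by
  by_cases h0 : a = 0
  · rw [h0, ← h.rt]
    exact inA_rt
  · obtain ⟨e, he, -, h2⟩ := hN.out a ha h0
    exact h2 ▸ inA_hd (h.U ▸ List.mem_range.2 he)

theorem LevOK.nm_zero (h : LevOK N P gm lam sg 0 v) (ψ : ℕ → ℝ) : v.nm N.n ψ = 0 := by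
  have h1 : ∑ a ∈ range N.n, ww (v.wt.get a) = 0 := by
    have := h.tot
    rw [pow_zero, one_mul] at this
    omega
  exact sum_eq_zero fun a ha => by simp [sum_eq_zero_iff.1 h1 a ha]

theorem LevOK.nm_le (h : LevOK N P gm lam sg i v) {ψ : ℕ → ℝ} {Osc : ℝ}
    (hψ : ∀ a b, |ψ a - ψ b| ≤ Osc) :
    v.nm N.n ψ ≤ (((2 * P.Ls + 3) ^ i * (N.m * gm) : ℕ) : ℝ) * Osc := by
  have h1 : ((∑ a ∈ range N.n, ww (v.wt.get a) : ℕ) : ℝ) ≤
      (((2 * P.Ls + 3) ^ i * (N.m * gm) : ℕ) : ℝ) :=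
    Nat.cast_le.2 ((Nat.le_add_right _ _).trans h.tot)
  refine le_trans ?_ (mul_le_mul_of_nonneg_right h1 ((abs_nonneg _).trans (hψ 0 0)))
  rw [Nat.cast_sum, sum_mul]
  exact sum_le_sum fun a _ => mul_le_mul_of_nonneg_left (hψ _ _) (Nat.cast_nonneg _)

theorem wsum_sEdges (H : List HEdge) (f : ℕ → ℕ → ℝ) :
    wsum (sEdges H) f = (H.map fun h => (ww h.2.2.1 : ℝ) * f h.1 h.2.1).sum := by
  induction H with
  | nil => rfl
  | cons h H ih =>
    unfold sEdges at ih ⊢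
    by_cases h0 : ww h.2.2.1 = 0 <;> simp [h0, ih]

/-- A sum over the edge list. -/
theorem sum_hEdges {β : Type} [AddCommMonoid β] (hA : ∀ a ∈ A, a < N.n) (ndA : A.Nodup)
    (hU : ∀ e ∈ U, e < N.m) (ndU : U.Nodup) (f : HEdge → β) :
    ((hEdges N P sg b A U).map f).sum =
      (∑ a ∈ range N.n, if a ∈ A then f (a, b.par.get a, b.wt.get a, b.G.get a) else 0) +
      ∑ e ∈ range N.m, if e ∈ U then f (N.hd.get e, N.tl.get e, BT.leaf (P.g (sg e), e),
        (P.g (sg e) : ℤ) - b.snap.get e) else 0 := by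
  rw [hEdges, List.map_append, List.sum_append, List.map_map, List.map_map, sum_list_eq ndA hA,
    sum_list_eq ndU hU]
  rfl

/-- The facts on the edge list that do not depend on the hierarchy. -/
theorem hEdges_ok (hN : N.OK C F) (hb : LevOK N P gm lam sg i b) (ndA : A.Nodup)
    (memA : ∀ a, a ∈ A ↔ InA N b a) (ndU : U.Nodup) (memU : ∀ e, e ∈ U ↔ e ∈ b.U)
    (hg : ∀ e < N.m, P.g (sg e) ≤ gm) :
    (hEdges N P sg b A U).length ≤ N.n + N.m ∧
    (∀ h ∈ hEdges N P sg b A U, h.1 ∈ A ∧ h.2.1 ∈ A ∧ WOK N.m h.2.2.1 ∧ dep h.2.2.1 ≤ i * P.bb ∧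
      h.2.2.2.natAbs ≤ N.m * gm + lam * F) ∧
    ((hEdges N P sg b A U).map fun h => ww h.2.2.1).sum ≤ (2 * P.Ls + 3) ^ i * (N.m * gm) ∧
    (sEdges (hEdges N P sg b A U)).length ≤ (hEdges N P sg b A U).length ∧
    (∀ e ∈ sEdges (hEdges N P sg b A U), 1 ≤ e.2.2 ∧ e.1 ∈ A ∧ e.2.1 ∈ A) ∧
    tot (sEdges (hEdges N P sg b A U)) ≤ (((2 * P.Ls + 3) ^ i * (N.m * gm) : ℕ) : ℝ) ∧
    ∀ ψ : ℕ → ℝ, b.rest N.n A ψ + nrm (sEdges (hEdges N P sg b A U)) ψ ≤
      b.nm N.n ψ + N.nu (fun e => P.g (sg e)) ψ := by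
  have hA : ∀ a ∈ A, a < N.n := fun a ha => hb.inA_lt hN ((memA a).1 ha)
  have hU : ∀ e ∈ U, e < N.m := fun e he => hb.ult e ((memU e).1 he)
  have h2 : ∀ h ∈ hEdges N P sg b A U, h.1 ∈ A ∧ h.2.1 ∈ A ∧ WOK N.m h.2.2.1 ∧
      dep h.2.2.1 ≤ i * P.bb ∧ h.2.2.2.natAbs ≤ N.m * gm + lam * F := by
    intro h hh
    simp only [hEdges, List.mem_append, List.mem_map] at hh
    rcases hh with ⟨a, ha, rfl⟩ | ⟨e, he, rfl⟩
    · exact ⟨ha, (memA _).2 (inA_par ((memA a).1 ha)), (hb.wok a (hA a ha)).1,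
        (hb.wok a (hA a ha)).2, hb.G_le hN (hA a ha)⟩
    · have a1 := hU e he
      refine ⟨(memA _).2 (inA_hd ((memU e).1 he)), (memA _).2 (inA_tl ((memU e).1 he)),
        Or.inr a1, Nat.zero_le _, ?_⟩
      have a2 := hg e a1
      have a3 := hb.snb e a1
      have a4 : N.f0.get e ≤ F :=
        (single_le_sum (fun _ _ => Nat.zero_le _) (mem_range.2 a1)).trans hN.f_le
      have a5 : lam * N.f0.get e ≤ lam * F := Nat.mul_le_mul_left _ a4
      have a6 : gm ≤ N.m * gm := Nat.le_mul_of_pos_left _ (by omega)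
      simp only
      omega
  have h3 : ((hEdges N P sg b A U).map fun h => ww h.2.2.1).sum ≤
      (2 * P.Ls + 3) ^ i * (N.m * gm) := by
    rw [sum_hEdges hA ndA hU ndU]
    refine le_trans (Nat.add_le_add (sum_le_sum fun a _ => ?_) ?_) hb.tot
    · split_ifs <;> simp
    · refine (sum_le_card_nsmul _ _ gm fun e he => ?_).trans (by simp)
      split_ifs
      · exact hg e (mem_range.1 he)
      · exact Nat.zero_le _
  refine ⟨?_, h2, h3, List.length_filterMap_le _ _, fun e he => ?_, ?_, fun ψ => ?_⟩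
  · have := length_le_of_nodup ndA hA
    have := length_le_of_nodup ndU hU
    simp only [hEdges, List.length_append, List.length_map]
    omega
  · obtain ⟨h, hh, he⟩ := List.mem_filterMap.1 he
    split_ifs at he with h0
    obtain rfl := Option.some.inj he
    exact ⟨Nat.pos_of_ne_zero h0, (h2 h hh).1, (h2 h hh).2.1⟩
  · refine le_trans (le_of_eq ?_) (Nat.cast_le.2 h3)
    rw [tot, wsum_sEdges, Nat.cast_list_sum, List.map_map]
    simp [Function.comp_def]
  · rw [nrm, wsum_sEdges, sum_hEdges hA ndA hU ndU, ← add_assoc]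
    refine add_le_add (le_of_eq ?_) (sum_le_sum fun e _ => ?_)
    · rw [Lev.rest, ← sum_add_distrib]
      exact sum_congr rfl fun a _ => by split_ifs <;> simp
    · split_ifs
      · exact le_rfl
      · positivity

theorem ents_mem {H : List HEdge} {r : ℕ} (hc : ∀ c ∈ cs, ∀ v ∈ A, c v ∈ A)
    (hr : ∀ c ∈ cs, c r = r) (hH : ∀ h ∈ H, h.1 ∈ A ∧ h.2.1 ∈ A) :
    (ents cs r H).length ≤ 2 * (cs.length + 1) * H.length ∧
    (∀ p ∈ ents cs r H, p.1 ∈ A ∧ p.1 ≠ r ∧
      ∃ h ∈ H, p.2.1 = h.2.2.1 ∧ p.2.2.natAbs = h.2.2.2.natAbs) ∧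
    ((ents cs r H).map fun p => ww p.2.1).sum ≤
      2 * (cs.length + 1) * (H.map fun h => ww h.2.2.1).sum := by
  refine ⟨?_, fun p hp => ?_, ?_⟩
  · clear hH
    induction H with
    | nil => simp [ents]
    | cons h H ih =>
      have := sdA_length (cs := cs) (r := r) (x := h.1) (y := h.2.1)
      simp only [ents, List.map_cons, List.flatten_cons, List.length_append, List.length_cons,
        entsOf, List.length_map] at ih ⊢
      nlinarith
  · simp only [ents, List.mem_flatten, List.mem_map] at hp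
    obtain ⟨_, ⟨h, hh, rfl⟩, hp⟩ := hp
    obtain ⟨q, hq, rfl⟩ := List.mem_map.1 hp
    have := sdA_mem hc hr (hH h hh).1 (hH h hh).2 q hq
    refine ⟨this.1, this.2, h, hh, rfl, ?_⟩
    simp only
    split_ifs <;> simp
  · clear hH
    induction H with
    | nil => simp [ents]
    | cons h H ih =>
      have h1 := sdA_length (cs := cs) (r := r) (x := h.1) (y := h.2.1)
      have h2 : ((entsOf cs r h).map fun p => ww p.2.1).sum =
          (sdA r cs h.1 h.2.1 []).length * ww h.2.2.1 := by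
        simp [entsOf, Function.comp_def]
      simp only [ents, List.map_cons, List.flatten_cons, List.map_append, List.sum_append,
        List.sum_cons, h2] at ih ⊢
      nlinarith [Nat.mul_le_mul_right (ww h.2.2.1) h1]

end Vale.Agent.P305F
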