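import Vale.Agent.P305F.Net
import Vale.Agent.P305E.Fuel

/-!
# Flow: the interface of the solver for minimum-cost flows
-/

namespace Vale.Agent.P305F

open Vale.Agent.P305E

/-- `mcf b N` finds an optimal flow of every network of size, costs and total flow at most `2 ^ b`,
on words up to `2 ^ (c (b + 1))`, in expected time `(n + m + 1) g(b)` with `g` subpolynomial in
`2 ^ b`; it fails with probability at most `2 ^ (-b)`. -/
structure McfOK (mcf : ℕ → Net → M (Arr ℕ)) (c : ℕ) (g : ℕ → ℕ) : Prop where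
  impl : Impl fun p : ℕ × Net => mcf p.1 p.2
  sub : ∀ a, Sub fun N => g (a * Nat.size N + a)
  mono : Monotone g
  spec : ∀ (B b : ℕ) (N : Net), N.OK (2 ^ b) (2 ^ b) → N.n + N.m ≤ 2 ^ b → 2 ^ (c * (b + 1)) ≤ B →
    FlowSpec B N (mcf b N) (((N.n + N.m + 1) * g b : ℕ) : ℝ) (1 / 2 ^ b)

end Vale.Agent.P305F
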