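import Vale.Agent.P305E.Arr
import Vale.Agent.P305E.Wp
import Mathlib.Analysis.SpecialFunctions.Log.Basic

/-!
# Flow, part 0: networks, flows, potentials and the quantities of the interior point method
-/

namespace Vale.Agent.P305F

open Vale.Agent.P305E Finset

/-- A transshipment problem: `n` vertices, `m` arcs with tails, heads and costs, and one feasible
flow `f0`, which fixes the demands. -/
structure Net where
  n : ℕ
  m : ℕ
  tl : Arr ℕ
  hd : Arr ℕ
  c : Arr ℕ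
  f0 : Arr ℕ

/-- Encoding of networks. -/
def Net.enc (N : Net) : ℕ × ℕ × Arr ℕ × Arr ℕ × Arr ℕ × Arr ℕ :=
  (N.n, N.m, N.tl, N.hd, N.c, N.f0)

instance : Rep Net := Rep.comap Net.enc

@[fun_prop] theorem Net.pn : Pure Net.n := Pure.of_comap Net.enc (h := fun p => p.1) (by fun_prop)
@[fun_prop] theorem Net.pm : Pure Net.m :=
  Pure.of_comap Net.enc (h := fun p => p.2.1) (by fun_prop)
@[fun_prop] theorem Net.ptl : Pure Net.tl :=
  Pure.of_comap Net.enc (h := fun p => p.2.2.1) (by fun_prop)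
@[fun_prop] theorem Net.phd : Pure Net.hd :=
  Pure.of_comap Net.enc (h := fun p => p.2.2.2.1) (by fun_prop)
@[fun_prop] theorem Net.pc : Pure Net.c :=
  Pure.of_comap Net.enc (h := fun p => p.2.2.2.2.1) (by fun_prop)
@[fun_prop] theorem Net.pf0 : Pure Net.f0 :=
  Pure.of_comap Net.enc (h := fun p => p.2.2.2.2.2) (by fun_prop)
@[fun_prop] theorem Net.pmk {α : Type} [Rep α] {n m : α → ℕ} {tl hd c f0 : α → Arr ℕ}
    (h1 : Pure n) (h2 : Pure m) (h3 : Pure tl) (h4 : Pure hd) (h5 : Pure c) (h6 : Pure f0) :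
    Pure fun x => Net.mk (n x) (m x) (tl x) (hd x) (c x) (f0 x) :=
  Pure.to_comap Net.enc (by unfold Net.enc; fun_prop)

namespace Net

variable (N : Net)

/-- Costs lie in `[1, C]`, the flow `f0` has total at most `F`, and every vertex is joined to the
root `0` in both directions. -/
structure OK (C F : ℕ) : Prop where
  npos : 0 < N.n
  tl_lt : ∀ e < N.m, N.tl.get e < N.n
  hd_lt : ∀ e < N.m, N.hd.get e < N.n
  c_pos : ∀ e < N.m, 1 ≤ N.c.get e
  c_le : ∀ e < N.m, N.c.get e ≤ C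
  f_le : ∑ e ∈ range N.m, N.f0.get e ≤ F
  out : ∀ v < N.n, v ≠ 0 → ∃ e < N.m, N.tl.get e = 0 ∧ N.hd.get e = v
  inn : ∀ v < N.n, v ≠ 0 → ∃ e < N.m, N.tl.get e = v ∧ N.hd.get e = 0

/-- `f` has the same excess as `f0` at every vertex. -/
def IsFlow (f : ℕ → ℕ) : Prop :=
  ∀ v < N.n, ∑ e ∈ range N.m, ((f e : ℤ) - N.f0.get e) *
    ((if N.hd.get e = v then 1 else 0) - (if N.tl.get e = v then 1 else 0)) = 0

/-- The cost of a flow. -/
def cost (f : ℕ → ℕ) : ℕ := ∑ e ∈ range N.m, N.c.get e * f e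

/-- A flow of least cost. -/
def OptFlow (f : ℕ → ℕ) : Prop := N.IsFlow f ∧ ∀ g, N.IsFlow g → N.cost f ≤ N.cost g

/-- The difference of a potential along an arc. -/
def dl (ψ : ℕ → ℝ) (e : ℕ) : ℝ := ψ (N.hd.get e) - ψ (N.tl.get e)

/-- The slack of an arc. -/
def sl (y : ℕ → ℝ) (e : ℕ) : ℝ := N.c.get e - N.dl y e

/-- The dual objective (to be minimised). -/
def obj (y : ℕ → ℝ) : ℝ := ∑ e ∈ range N.m, N.f0.get e * N.sl y e

/-- Feasible potentials. -/
def Feas (y : ℕ → ℝ) : Prop := ∀ e < N.m, 0 ≤ N.sl y e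

/-- Strictly feasible potentials. -/
def Pos (y : ℕ → ℝ) : Prop := ∀ e < N.m, 0 < N.sl y e

/-- Optimal potentials. -/
def DOpt (ys : ℕ → ℝ) : Prop := N.Feas ys ∧ ∀ y, N.Feas y → N.obj ys ≤ N.obj y

/-- `l` is the list of the arcs of slack below one half. -/
def Tight (y : ℕ → ℝ) (l : List ℕ) : Prop := ∀ e, e ∈ l ↔ e < N.m ∧ N.sl y e < 1 / 2

end Net

/-- Minus the derivative of the barrier `- log s + δ / s`. -/
noncomputable def uu (δ s : ℝ) : ℝ := 1 / s + δ / s ^ 2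

/-- The witness point. -/
def yc (δ : ℝ) (ys : ℕ → ℝ) : ℕ → ℝ := fun v => (1 - δ) * ys v

namespace Net

variable (N : Net)

/-- The potential function of the interior point method. -/
noncomputable def Xi (lam δ S lb : ℝ) (y : ℕ → ℝ) : ℝ :=
  lam * (N.obj y - lb) + ∑ e ∈ range N.m, (Real.log (S / N.sl y e) + δ / N.sl y e)

/-- The scale of the witness direction. -/
noncomputable def Wv (lam δ : ℝ) (ys y : ℕ → ℝ) : ℝ :=
  lam * (N.obj y - N.obj ys) + ∑ e ∈ range N.m, uu δ (N.sl y e) * N.sl (yc δ ys) e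

/-- The approximate gradient in direction `ψ`. -/
def gt (lam : ℝ) (ut ψ : ℕ → ℝ) : ℝ :=
  ∑ e ∈ range N.m, (ut e - lam * N.f0.get e) * N.dl ψ e

/-- The norm of a direction. -/
def nu (ut ψ : ℕ → ℝ) : ℝ := ∑ e ∈ range N.m, ut e * |N.dl ψ e|

/-- `ut` approximates the weights of the barrier at `y`. -/
def Apx (δ ε : ℝ) (ut y : ℕ → ℝ) : Prop :=
  ∀ e < N.m, |uu δ (N.sl y e) - ut e| ≤ ε * ut e

end Net

/-- What the dual solver `prog` achieves: for every value function `F ≤ 1` that is at most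
`C₁ + τ t` on all lists of arcs and at most `C₀ + τ t` on the list of tight arcs of a potential
with gap below one half, the expectation is at most `C₀ + (C₁ - C₀) / 10 + τ T + ε`. -/
def DualSpec (B : ℕ) (N : Net) (prog : M (List ℕ)) (T ε : ℝ) : Prop :=
  ∀ ys, N.DOpt ys → ∀ (F : List ℕ → ℕ → ℝ) (C₀ C₁ τ : ℝ), 0 ≤ τ → 0 ≤ C₀ → C₀ ≤ C₁ →
    (∀ l t, F l t ≤ 1) →
    (∀ l t, l.Nodup → (∀ e ∈ l, e < N.m) → F l t ≤ C₁ + τ * t) →
    (∀ l t y, l.Nodup → N.Pos y → N.obj y - N.obj ys < 1 / 2 → N.Tight y l →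
      F l t ≤ C₀ + τ * t) →
    wp B prog F 1 ≤ C₀ + (C₁ - C₀) / 10 + τ * T + ε

/-- What the flow solver `prog` achieves: for every value function `F ≤ 1` that is at most
`C₀ + τ t` on optimal flows, the expectation is at most `C₀ + τ T + ε`. -/
def FlowSpec (B : ℕ) (N : Net) (prog : M (Arr ℕ)) (T ε : ℝ) : Prop :=
  ∀ (F : Arr ℕ → ℕ → ℝ) (C₀ τ : ℝ), 0 ≤ τ → 0 ≤ C₀ → (∀ f t, F f t ≤ 1) →
    (∀ f t, N.OptFlow f.get → F f t ≤ C₀ + τ * t) → wp B prog F 1 ≤ C₀ + τ * T + ε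

/-- The integer capacity of an arc with scaled slack `σ`. -/
def gam (D Lam Dd σ : ℕ) : ℕ := Lam * D / σ + Lam * Dd / (σ * σ) + 2

end Vale.Agent.P305F
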