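import Vale.Agent.P305F.Dual2

/-!
# Flow: the choice of the parameters
-/

namespace Vale.Agent.P305F

open Vale.Agent.P305E Vale.Agent.P305S Finset

/-- The parameters for networks with `m < 2 ^ sm` arcs and numbers up to `2 ^ b`. -/
def mkPm (b L e sm : ℕ) : Pm where
  L := L
  kb := sm / L + 1
  Ls := L * (3 * (35 * b) + 10)
  bb := 2 * b
  D := 2 ^ (15 * b + 36)
  Lam := 2 ^ (2 * b + 9)
  Dd := 2 ^ (26 * b + 65)
  kk := 2 ^ e
  hh := 2 ^ (e + 6)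
  Ns := 18 * b + 4
  rb := 16 * b + 38
  Rb := (sm / L + 1) * L + 4 * e
  J := 4 * b + 7
  lam0 := 2 ^ 9
  Dm := 1 + (L + 1) * (L * (3 * (35 * b) + 10) + 1)
  wd := (L + 1) * (2 * b)

/-- The relations between the exponents. -/
structure Hb (b L e c : ℕ) : Prop where
  lt : b < 2 ^ L
  big : 30 ≤ L
  he : e = (4 * c + 8) * L ^ 3
  eb : e ≤ b

theorem p2_mul {x y i j : ℕ} (h : x ≤ 2 ^ i) (h' : y ≤ 2 ^ j) : x * y ≤ 2 ^ (i + j) := by
  rw [pow_add]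
  exact Nat.mul_le_mul h h'

theorem p2_mono {x i j : ℕ} (h : x ≤ 2 ^ i) (hij : i ≤ j) : x ≤ 2 ^ j :=
  h.trans (Nat.pow_le_pow_right (by norm_num) hij)

theorem p2_add {x y i j k : ℕ} (h : x ≤ 2 ^ i) (h' : y ≤ 2 ^ j) (hi : i ≤ k) (hj : j ≤ k) :
    x + y ≤ 2 ^ (k + 1) := by
  have := p2_mono h hi
  have := p2_mono h' hj
  rw [pow_succ]
  omega

theorem p2_pow {x i : ℕ} (h : x ≤ 2 ^ i) (k : ℕ) : x ^ k ≤ 2 ^ (i * k) := by
  rw [pow_mul]
  exact Nat.pow_le_pow_left h _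

theorem p2_self (x : ℕ) : x ≤ 2 ^ x := Nat.lt_two_pow_self.le

theorem p2_refl (i : ℕ) : 2 ^ i ≤ 2 ^ i := le_rfl

theorem p2_one (i : ℕ) : 1 ≤ 2 ^ i := Nat.one_le_two_pow

theorem two_pow_le_exp (k : ℕ) : (2 : ℝ) ^ k ≤ Real.exp k := by
  rw [← mul_one (k : ℝ), Real.exp_nat_mul]
  exact pow_le_pow_left₀ (by norm_num) (by linarith [Real.add_one_le_exp (1 : ℝ)]) _

namespace Hb

variable {b L e c sm : ℕ} (h : Hb b L e c)
include h

theorem cube : 8 * L ^ 3 + 4 * c * L ^ 3 = e := by rw [h.he]; ring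

theorem sq_le : 30 * (L * L) ≤ L ^ 3 := by
  have := h.big
  nlinarith [Nat.zero_le (L * L)]

theorem lin_le : 30 * L ≤ L * L := Nat.mul_le_mul_right _ h.big

theorem e_ge : 240 * (L * L) ≤ e := by
  have := h.cube
  have := h.sq_le
  omega

theorem lin (a k : ℕ) (ha : a ≤ 2 ^ k) : a * b + a ≤ 2 ^ (L + k) := by
  have := p2_mul (show b + 1 ≤ 2 ^ L from h.lt) ha
  nlinarith

theorem Ls_le : 2 * (L * (3 * (35 * b) + 10)) + 3 ≤ 2 ^ (2 * L + 9) := by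
  have h1 := h.lin 128 7 (by norm_num)
  have h2 := p2_mul (p2_self L) (show 3 * (35 * b) + 10 ≤ 2 ^ (L + 7) by omega)
  have h3 : 2 ^ (2 * L + 9) = 4 * 2 ^ (L + (L + 7)) := by ring
  have := p2_mono (p2_refl 1) (show 1 ≤ L + (L + 7) by omega)
  omega

theorem Ls_pow : (2 * (L * (3 * (35 * b) + 10)) + 3) ^ (L + 1) ≤ 2 ^ e := by
  refine p2_mono (p2_pow h.Ls_le _) ?_
  have := h.e_ge
  have := h.lin_le
  have := h.big
  nlinarith

theorem Dm_le : 1 + (L + 1) * (L * (3 * (35 * b) + 10) + 1) + 1 ≤ 2 ^ (3 * L + 10) := by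
  have h1 := p2_mul (show L + 1 ≤ 2 ^ L from Nat.lt_two_pow_self)
    (show L * (3 * (35 * b) + 10) + 1 ≤ 2 ^ (2 * L + 9) by have := h.Ls_le; omega)
  have h3 : 2 ^ (3 * L + 10) = 2 * 2 ^ (L + (2 * L + 9)) := by ring
  have := p2_mono (p2_refl 1) (show 1 ≤ L + (2 * L + 9) by omega)
  omega

theorem kbL (hs : sm ≤ b + 1) : (sm / L + 1) * L ≤ 2 * b + 1 := by
  have := Nat.div_mul_le_self sm L
  have := h.e_ge
  have := h.lin_le
  have := h.eb
  rw [add_mul]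
  omega

theorem mm_le (hs : sm ≤ b + 1) : (mkPm b L e sm).mm ≤ 2 ^ (2 * b + 1) := by
  unfold Pm.mm
  rw [← pow_mul]
  exact p2_mono (p2_refl _) (h.kbL hs)

theorem le_mm : 2 ^ sm ≤ (mkPm b L e sm).mm := by
  unfold Pm.mm
  rw [← pow_mul]
  refine p2_mono (p2_refl _) ?_
  have := Nat.lt_div_mul_add (a := sm) (b := L) (by have := h.big; omega)
  simp only [mkPm]
  rw [add_mul]
  omega

end Hb

theorem mkPm_δ (b L e sm : ℕ) : (mkPm b L e sm).δ = 1 / 2 ^ (4 * b + 7) := by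
  simp only [Pm.δ, mkPm]
  push_cast
  rw [div_eq_div_iff (by positivity) (by positivity)]
  ring

variable {B b L e c : ℕ} {N : Net}

theorem size_le_of {m b : ℕ} (h : m ≤ 2 ^ b) : Nat.size m ≤ b + 1 :=
  Nat.size_le.2 (by rw [pow_succ]; have := p2_one b; omega)

theorem mkPm_ok (h : Hb b L e c) (hN : N.OK (2 ^ b) (2 ^ b)) (hs : N.n + N.m ≤ 2 ^ b)
    (hB : 2 ^ (210 * b + 20) ≤ B) :
    PmOK B N (mkPm b L e (Nat.size N.m)) (2 ^ b) (2 ^ b) (2 ^ (14 * b + 38)) (2 ^ (4 * b + 16))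
      (2 ^ b) (2 ^ (16 * b + 38)) := by
  have hm : N.m ≤ 2 ^ b := by omega
  have h1 := h.eb
  have h2 := h.e_ge
  have h3 := h.lin_le
  have h4 := h.big
  have hG : N.m * 2 ^ (14 * b + 38) + 2 ^ (4 * b + 16) * 2 ^ b ≤ 2 ^ (15 * b + 38 + 1) :=
    p2_add (p2_mul hm (p2_refl _)) (p2_mul (p2_refl _) (p2_refl _)) (by omega) (by omega)
  refine ⟨hN, hs, ?_, ?_, le_rfl, le_rfl, ?_, ?_, ?_, ?_, le_rfl, ?_, ?_, ?_, ?_, ?_, ?_, ?_, ?_,
    ?_⟩ <;> try simp only [mkPm]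
  · exact p2_mono (p2_mul h.Ls_pow (p2_mul hm (p2_refl _))) (by omega)
  · exact p2_mono (p2_mul (show 2 * (L * (3 * (35 * b) + 10) + 1) ≤ 2 ^ (2 * L + 9) by
      have := h.Ls_le; omega) hs) (by omega)
  · exact (p2_mono (p2_mul (p2_refl _) hG) (by omega)).trans hB
  · exact (p2_mono (p2_refl _) (by omega)).trans hB
  · exact (p2_mono (p2_mul (p2_mul (show 3 ≤ 2 ^ 2 by norm_num) (p2_refl _)) (p2_refl _))
      (by omega)).trans hB
  · exact (p2_mono (p2_self _) (by omega)).trans hB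
  · exact (p2_mono (p2_refl _) (by omega)).trans hB
  · rw [← pow_add 2 e, ← pow_add 2 (15 * b + 36)]
    exact p2_mono (p2_mul (p2_refl (e + (e + 6))) hG) (by omega)
  · positivity
  · positivity
  · positivity
  · rw [pow_add]
    omega
  · exact p2_mono (p2_mul (p2_mul (show 288 ≤ 2 ^ 9 by norm_num) (p2_refl _)) (p2_refl _))
      (by omega)
  · positivity
  · rw [← pow_mul]
    exact p2_mono (p2_refl _) (by omega)

theorem mkPm_an (h : Hb b L e c) (hs : N.n + N.m ≤ 2 ^ b) (hB : 2 ^ (210 * b + 20) ≤ B) :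
    AnOK B N (mkPm b L e (Nat.size N.m)) (2 ^ b) (2 ^ b) (2 ^ (14 * b + 38)) (2 ^ (4 * b + 16))
      (2 ^ (16 * b + 38)) (2 ^ (2 * c * (L * L))) (2 ^ (2 * (L * L))) (17 * b + 41 : ℕ)
      (2 ^ (L + 8)) (2 ^ (4 * b + 10)) (48 * 2 ^ e * (9 * b + 2 : ℕ)) := by
  have hm : N.m ≤ 2 ^ b := by omega
  have h1 := h.eb
  have h2 := h.e_ge
  have h3 := h.lin_le
  have h4 := h.big
  have hmm : (1 : ℝ) ≤ (mkPm b L e (Nat.size N.m)).mm := by exact_mod_cast Pm.mm_pos _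
  refine ⟨Nat.le_add_left _ _, (Nat.lt_size_self _).le.trans h.le_mm,
    (p2_mono (h.mm_le (size_le_of hm)) (by omega)).trans hB, one_le_pow₀ (by norm_num),
    one_le_pow₀ (by norm_num), by positivity, ?_, one_le_pow₀ (by norm_num), ?_, ?_, ?_, ?_,
    by positivity, ?_⟩
  · have := h.lin 256 8 (by norm_num)
    exact_mod_cast (by omega : 8 * (17 * b + 41 + 1) ≤ 2 ^ (L + 8))
  · rw [mkPm_δ]
    simp only [mkPm]
    push_cast
    have e1 : (2 : ℝ) * 2 ^ (2 * b + 9) * (2 ^ (4 * b + 10)) ^ 2 / (1 / 2 ^ (4 * b + 7)) =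
        2 ^ (14 * b + 37) := by
      field_simp
      ring
    have e2 : (2 : ℝ) ^ 1 ≤ 2 ^ (14 * b + 37) := pow_le_pow_right₀ (by norm_num) (by omega)
    rw [e1, pow_succ _ (14 * b + 37)]
    linarith
  · have e0 : 1 ≤ (mkPm b L e (Nat.size N.m)).M0 := by
      have : (1 : ℝ) ≤ (mkPm b L e (Nat.size N.m)).Lam := by exact_mod_cast p2_one _
      unfold Pm.M0
      nlinarith
    have e1 := two_pow_le_exp (17 * b + 41)
    have e2 : ((2 ^ (16 * b + 38) : ℕ) : ℝ) * (4 * ((2 ^ b : ℕ) : ℝ)) = 2 ^ (17 * b + 40) := by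
      push_cast
      ring
    have e3 : (2 : ℝ) ^ 1 ≤ 2 ^ (17 * b + 40) := pow_le_pow_right₀ (by norm_num) (by omega)
    rw [e2]
    rw [pow_succ _ (17 * b + 40)] at e1
    nlinarith
  · simp only [mkPm]
    have e1 : 12 * (4 * (2 ^ (2 * c * (L * L)) * 2 ^ (2 * (L * L)))) ^ (L + 1) ≤ 2 ^ e := by
      refine p2_mono (p2_mul (show 12 ≤ 2 ^ 4 by norm_num) (p2_pow (p2_mul
        (show 4 ≤ 2 ^ 2 by norm_num) (p2_mul (p2_refl _) (p2_refl _))) _)) ?_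
      have k1 := h.cube
      have k2 := h.sq_le
      have k3 : c * (L * L) ≤ c * L ^ 3 := Nat.mul_le_mul_left _ (by omega)
      nlinarith
    exact_mod_cast e1
  · rw [mkPm_δ]
    refine le_trans (le_of_eq ?_) hmm
    simp only [mkPm]
    push_cast
    field_simp
    ring
  · simp only [mkPm]
    push_cast
    have : (0 : ℝ) ≤ 2 ^ e * (9 * b + 2) := by positivity
    rw [pow_add]
    nlinarith

theorem mkPm_out (h : Hb b L e c) (hs : N.n + N.m ≤ 2 ^ b) (hB : 2 ^ (210 * b + 20) ≤ B) :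
    OutOK B (mkPm b L e (Nat.size N.m)) (2 ^ b) (2 ^ b) (2 ^ (4 * b + 16)) (b + 2)
      (2 ^ (2 * (L * L))) (17 * b + 41 : ℕ) (2 ^ (L + 8)) (2 ^ (4 * b + 10)) := by
  have hm : N.m ≤ 2 ^ b := by omega
  have h1 := h.eb
  have h2 := h.e_ge
  have h3 := h.lin_le
  have h4 := h.big
  have hmm := h.mm_le (size_le_of hm)
  have hkb := h.kbL (size_le_of hm)
  have hJ : 4 * b + 7 ≤ 2 ^ (L + 3) := by have := h.lin 8 3 (by norm_num); omega
  refine ⟨?_, (p2_mono (p2_refl _) (by omega)).trans hB, ?_, Nat.le_add_left _ _, ?_, ?_, ?_, ?_,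
    ?_, ?_⟩
  · simp only [mkPm]
    ring
  · exact (p2_mono (p2_refl _) (by simp only [mkPm]; omega)).trans hB
  · rw [pow_add]
    omega
  · refine le_trans (le_of_eq ?_) (Nat.le_mul_of_pos_right _ (Pm.mm_pos _))
    simp only [mkPm]
    ring
  · refine (p2_mul (p2_mul (show 32 ≤ 2 ^ 5 by norm_num) hmm) (p2_refl (2 * b + 9))).trans_lt ?_
    exact Nat.pow_lt_pow_right (by norm_num) (by omega)
  · have e1 : (mkPm b L e (Nat.size N.m)).mm * (b + 2 + 2) + 3 * 2 ^ (4 * b + 7) ≤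
        2 ^ (4 * b + 9 + 1) :=
      p2_add (p2_mul hmm (p2_self _)) (p2_mul (show 3 ≤ 2 ^ 2 by norm_num) (p2_refl _))
        (by omega) (by omega)
    have e2 : ((2 ^ (4 * b + 16) : ℕ) : ℝ) / (mkPm b L e (Nat.size N.m)).Lam *
        (3 * ((2 ^ b : ℕ) : ℝ) * ((2 ^ b : ℕ) : ℝ)) = 3 * 2 ^ (4 * b + 7) := by
      simp only [mkPm]
      push_cast
      field_simp
      ring
    rw [e2]
    exact_mod_cast e1
  · have k1 : 2 * (2 ^ (L + 8)) ^ (L + 2) + 1 ≤ 2 ^ (1 + (L + 8) * (L + 2) + 1) :=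
      p2_add (p2_mul (p2_refl 1) (p2_pow (p2_refl _) _)) (p2_refl 0) le_rfl (by omega)
    have k2 := p2_mul (p2_mul (p2_mul (show 4 ≤ 2 ^ 2 by norm_num) (p2_refl e)) (p2_refl (e + 6)))
      k1
    have k3 : b + 2 + 2 + 8 * (4 * b + 7) ≤ 2 ^ (L + 7) := by
      have := h.lin 128 7 (by norm_num); omega
    have k4 : 17 * b + 41 ≤ 2 ^ (L + 7) := by have := h.lin 128 7 (by norm_num); omega
    have k5 := p2_mul (p2_mul (p2_refl 1) (p2_pow (p2_refl (L + 8)) (L + 1))) k4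
    have k6 := p2_mul (p2_mul (show 20 ≤ 2 ^ 5 by norm_num) hJ)
      (p2_add (p2_mul k2 k3) k5 le_rfl (by nlinarith))
    have k7 := Nat.mul_le_mul_left (mkPm b L e (Nat.size N.m)).mm
      (p2_mono k6 (show _ ≤ 4 * e by nlinarith))
    have k8 : 2 ^ (mkPm b L e (Nat.size N.m)).Rb = (mkPm b L e (Nat.size N.m)).mm * 2 ^ (4 * e) := by
      simp only [Pm.mm, mkPm]
      rw [pow_add, pow_mul]
    rw [← k8] at k7
    have k9 := (Nat.cast_le (α := ℝ)).2 k7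
    refine le_trans (le_of_eq ?_) (k9.trans (le_of_eq (by push_cast; rfl)))
    generalize (mkPm b L e (Nat.size N.m)).mm = mm
    simp only [c1, mkPm]
    push_cast
    ring
  · have e1 : 360 * (4 * b + 7) * (2 ^ (L + 8)) ^ (L + 1) ≤ 2 ^ (2 * (L * L)) :=
      p2_mono (p2_mul (p2_mul (show 360 ≤ 2 ^ 9 by norm_num) hJ) (p2_pow (p2_refl _) _))
        (by nlinarith)
    simp only [mkPm]
    exact_mod_cast e1

end Vale.Agent.P305F
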