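import Vale.Agent.P305F.Params1
import Vale.Agent.P305F.SamFam
import Vale.Agent.P305F.Mcf

/-!
# Flow: the sampler, the error and the time for the chosen parameters
-/

namespace Vale.Agent.P305F

open Vale.Agent.P305E Vale.Agent.P305S Finset

variable {B b L e c : ℕ} {N : Net}

theorem le_tot {E : List Edge} {x : Edge} (hx : x ∈ E) : (x.2.2 : ℝ) ≤ tot E := by
  induction E with
  | nil => simp at hx
  | cons y E ih =>
    have h0 := tot_nonneg E
    simp only [tot, wsum_cons, mul_one] at ih h0 ⊢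
    rcases List.mem_cons.1 hx with rfl | hx
    · linarith
    · have : (0 : ℝ) ≤ y.2.2 := Nat.cast_nonneg _
      linarith [ih hx]

theorem Hb.poly (h : Hb b L e c) : (35 * b + 2) ^ c ≤ 2 ^ (2 * c * L) := by
  have h1 := h.lin 64 6 (by norm_num)
  refine p2_mono (p2_pow (show 35 * b + 2 ≤ 2 ^ (L + 6) by omega) c) ?_
  have := h.big
  nlinarith

theorem Hb.cL (h : Hb b L e c) : 2 * c * L + 2 * (L * L) ≤ e := by
  have k1 := h.cube
  have k2 := h.sq_le
  have k3 := h.lin_le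
  have k4 : c * L ≤ c * L ^ 3 := Nat.mul_le_mul_left _ (by omega)
  nlinarith

theorem mkPm_samp {sam : ℕ → ℕ → ℕ → List Edge → M (List (Arr ℕ))} (hs : SamFam sam c)
    (h : Hb b L e c) (hB : 2 ^ (210 * b + 20) ≤ B) :
    SampOK B (sam (35 * b) (b / L + 2 + 2 * c * L) L) (L * (3 * (35 * b) + 10))
      (2 ^ (b / L + 2 + 2 * c * L) * (35 * b + 2) ^ c * L) (2 ^ b) (2 ^ (16 * b + 38))
      (2 ^ (2 * c * (L * L))) (4 * (2 ^ b : ℕ)) := by
  have h1 := h.eb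
  have h2 := h.e_ge
  have h3 := h.lin_le
  have h4 := h.big
  have h5 := h.cL
  have h6 := Nat.div_le_self b L
  have hz : 0 ≤ b / L := Nat.zero_le _
  have h7 := p2_pow h.poly L
  have pre : ∀ E : List Edge, E.length ≤ 2 ^ b →
      (∀ x ∈ E, 1 ≤ x.2.2 ∧ x.1 < 2 ^ b ∧ x.2.1 < 2 ^ b) → tot E ≤ (2 ^ (16 * b + 38) : ℕ) →
      SamPre c B (35 * b) (b / L + 2 + 2 * c * L) L E := by
    intro E k1 k2 k3
    have k4 : 2 ^ b ≤ 2 ^ (35 * b) := p2_mono (p2_refl _) (by omega)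
    refine ⟨k1.trans k4, fun x hx => ⟨(k2 x hx).1, ?_, (k2 x hx).2.1.trans_le k4,
      (k2 x hx).2.2.trans_le k4⟩, (p2_mono (p2_refl _) (by omega)).trans hB, by omega, by omega,
      by omega, ?_,
      p2_mono h.poly (by omega)⟩
    · have k5 : x.2.2 ≤ 2 ^ (16 * b + 38) := by exact_mod_cast (le_tot hx).trans k3
      exact k5.trans_lt (Nat.pow_lt_pow_right (by norm_num) (by omega))
    · refine (p2_mul k1 h7).trans_lt (Nat.pow_lt_pow_right (by norm_num) ?_)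
      have := Nat.lt_div_mul_add (a := b) (b := L) (by omega)
      rw [add_mul, add_mul]
      omega
  refine ⟨fun E k1 k2 k3 => hs.tri _ _ _ _ _ (pre E k1 k2 k3), fun E k1 k2 k3 ψ hψ => ?_⟩
  refine (hs.wp _ _ _ _ _ (pre E k1 k2 k3) ψ _ hψ ?_).trans (add_le_add
    (mul_le_mul_of_nonneg_right ?_ (nrm_nonneg _ _)) le_rfl)
  · have k4 : (L * (3 * (35 * b) + 10) + 1) * 2 * (4 * 2 ^ b) * 2 ^ (16 * b + 38) * L *
        (2 ^ (16 * b + 38) + 1) ≤ 2 ^ (35 * b) :=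
      p2_mono (p2_mul (p2_mul (p2_mul (p2_mul
        (show (L * (3 * (35 * b) + 10) + 1) * 2 ≤ 2 ^ (2 * L + 9) by have := h.Ls_le; omega)
        (p2_mul (show 4 ≤ 2 ^ 2 by norm_num) (p2_refl b))) (p2_refl _)) (p2_self L))
        (p2_add (p2_refl _) (p2_refl 0) le_rfl (by omega))) (by omega)
    have k5 := (Nat.cast_le (α := ℝ)).2 k4
    have k6 := tot_nonneg E
    refine le_trans ?_ (k5.trans (le_of_eq (by push_cast; rfl)))
    push_cast at k3 ⊢
    gcongr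
  · rw [mul_assoc] at h7
    rw [mul_assoc 2 c] at h7 ⊢
    exact_mod_cast p2_mono h7 (by nlinarith)

theorem mkPm_eps (h : Hb b L e c) (hs : N.n + N.m ≤ 2 ^ b) :
    ((N.m : ℝ) + (mkPm b L e (Nat.size N.m)).J * 2 ^ (mkPm b L e (Nat.size N.m)).Rb * N.m) /
      Real.exp (48 * 2 ^ e * (9 * b + 2 : ℕ) / (48 * (mkPm b L e (Nat.size N.m)).kk)) ≤
      1 / 2 ^ b := by
  have hm : N.m ≤ 2 ^ b := by omega
  have h1 := h.eb
  have h2 := h.e_ge
  have h3 := h.lin_le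
  have h4 := h.big
  have hkb := h.kbL (size_le_of hm)
  have hJ : 4 * b + 7 ≤ 2 ^ (L + 3) := by have := h.lin 8 3 (by norm_num); omega
  have e1 : (N.m + (4 * b + 7) * 2 ^ ((Nat.size N.m / L + 1) * L + 4 * e) * N.m) * 2 ^ b ≤
      2 ^ (9 * b + 2) :=
    p2_mono (p2_mul (p2_add hm (p2_mul (p2_mul hJ (p2_refl _)) hm) (k := 8 * b + 1) (by omega)
      (by omega)) (p2_refl b)) (by omega)
  have e2 := (Nat.cast_le (α := ℝ)).2 e1
  have e3 : (48 * 2 ^ e * (9 * b + 2 : ℕ) / (48 * (mkPm b L e (Nat.size N.m)).kk) : ℝ) =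
      (9 * b + 2 : ℕ) := by
    simp only [mkPm]
    push_cast
    field_simp
  rw [e3, div_le_div_iff₀ (Real.exp_pos _) (by positivity), one_mul]
  refine le_trans ?_ (two_pow_le_exp _)
  simp only [mkPm]
  exact_mod_cast e1

theorem mkPm_time (h : Hb b L e c) (hs : N.n + N.m ≤ 2 ^ b) :
    cDual N (mkPm b L e (Nat.size N.m)) (2 ^ (b / L + 2 + 2 * c * L) * (35 * b + 2) ^ c * L) ≤
      (N.m + 1) * 2 ^ (2 * (b / L) + 15 * e) := by
  have hm : N.m ≤ 2 ^ b := by omega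
  have h1 := h.eb
  have h2 := h.e_ge
  have h3 := h.lin_le
  have h4 := h.big
  have h5 := h.cL
  have hsm := size_le_of hm
  have hkb := h.kbL hsm
  have hl := h.lin 64 6 (by norm_num)
  have hD := h.Dm_le
  have hLs := h.Ls_le
  have hz : 0 ≤ b / L := Nat.zero_le _
  have hk : Nat.size N.m / L + 1 ≤ b / L + 2 := by
    have : Nat.size N.m / L ≤ (b + L) / L := Nat.div_le_div_right (by omega)
    rw [Nat.add_div_right _ (by omega)] at this
    omega
  have hT : 2 ^ (b / L + 2 + 2 * c * L) * (35 * b + 2) ^ c * L + 1 ≤ 2 ^ (b / L + 2 * e + 1) :=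
    p2_add (p2_mul (p2_mul (p2_refl _) h.poly) (p2_self L)) (p2_refl 0) (by omega) (by omega)
  obtain ⟨Ts, hTs⟩ : ∃ Ts, Ts = 2 ^ (b / L + 2 + 2 * c * L) * (35 * b + 2) ^ c * L := ⟨_, rfl⟩
  rw [← hTs] at hT ⊢
  have c1 : cReb (mkPm b L e (Nat.size N.m)) Ts ≤ 2 ^ (b / L + 3 * e) :=
    p2_mono (p2_mul (p2_mul (p2_mul (p2_mul (show 100 ≤ 2 ^ 7 by norm_num) (p2_pow hD 2))
      (show L * (3 * (35 * b) + 10) + 1 ≤ 2 ^ (2 * L + 9) by omega))
      (show 2 * b + 1 ≤ 2 ^ (L + 6) by omega)) hT) (by omega)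
  have c0 : (L + 1) * (2 * b) ≤ 2 ^ (L + (L + 6)) :=
    p2_mul (show L + 1 ≤ 2 ^ L from Nat.lt_two_pow_self) (by omega)
  have c2 : cStep (mkPm b L e (Nat.size N.m)) ≤ 2 ^ e := by
    have k1 : 2 ^ (L + 6) ≤ 2 ^ (3 * L + 10) := p2_mono (p2_refl _) (by omega)
    have k2 := p2_mono c0 (show _ ≤ 3 * L + 10 by omega)
    have k3 : 2 ^ (3 * L + 13) = 8 * 2 ^ (3 * L + 10) := by ring
    refine p2_mono (p2_mul (show 18 * b + 4 + 1 ≤ 2 ^ (L + 6) by omega)
      (show _ ≤ 2 ^ (3 * L + 13) by simp only [mkPm]; omega)) (by omega)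
  have c3 : cRound (mkPm b L e (Nat.size N.m)) Ts ≤ 2 ^ (2 * (b / L) + 5 * e) :=
    p2_mono (p2_add (p2_add (p2_add (p2_add c2
      (show 2 * ((Nat.size N.m / L + 1) * L) ≤ 2 ^ (L + 6) by omega) le_rfl (by omega))
      (p2_mul (p2_refl 1) c1) (k := b / L + 3 * e + 1) (by omega) (by omega)) (p2_refl 0)
      le_rfl (by omega)) (p2_mul c1 (p2_mul (p2_mono (p2_refl _) hk) (p2_mul (p2_self L)
      (show 18 * b + 4 ≤ 2 ^ (L + 6) by omega)))) (k := 2 * (b / L) + 4 * e) (by omega)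
      (by omega)) (by omega)
  have c4 : 2 ^ (mkPm b L e (Nat.size N.m)).Rb ≤ (N.m + 1) * 2 ^ (5 * e) := by
    have k1 : 2 ^ Nat.size N.m ≤ (N.m + 1) * 2 := by
      rcases Nat.eq_zero_or_pos N.m with h0 | h0
      · simp [h0]
      · have := two_pow_size_le h0
        omega
    have k2 := Nat.div_mul_le_self (Nat.size N.m) L
    calc 2 ^ (mkPm b L e (Nat.size N.m)).Rb ≤ 2 ^ (Nat.size N.m + (L + 4 * e)) :=
          p2_mono (p2_refl _) (by simp only [mkPm]; rw [add_mul]; omega)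
      _ ≤ (N.m + 1) * 2 * 2 ^ (L + 4 * e) := by
          rw [pow_add]
          exact Nat.mul_le_mul_right _ k1
      _ ≤ (N.m + 1) * 2 ^ (5 * e) := by
          rw [mul_assoc]
          exact Nat.mul_le_mul_left _ (p2_mono (p2_mul (p2_refl 1) (p2_refl _)) (by omega))
  have c5 : 2 + cReb (mkPm b L e (Nat.size N.m)) Ts + (2 * (mkPm b L e (Nat.size N.m)).Rb + 1) +
      2 ^ (5 * e) * cRound (mkPm b L e (Nat.size N.m)) Ts ≤ 2 ^ (2 * (b / L) + 10 * e + 1) :=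
    p2_add (p2_add (p2_add (p2_refl 1) c1 (by omega) le_rfl)
      (show _ ≤ 2 ^ (L + 6) by simp only [mkPm]; omega) le_rfl (by omega))
      (p2_mul (p2_refl _) c3) (by omega) (by omega)
  have c6 : 3 + (4 * (mkPm b L e (Nat.size N.m)).Dm + 2) + (mkPm b L e (Nat.size N.m)).J *
      2 ^ (2 * (b / L) + 10 * e + 1) ≤ 2 ^ (2 * (b / L) + 15 * e) := by
    have k3 : 2 ^ (3 * L + 13) = 8 * 2 ^ (3 * L + 10) := by ring
    exact p2_mono (p2_add (show _ ≤ 2 ^ (3 * L + 13) by simp only [mkPm]; omega)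
      (p2_mul (show _ ≤ 2 ^ (L + 6) by simp only [mkPm]; omega) (p2_refl _))
      (k := 2 * (b / L) + 11 * e) (by omega) (by omega)) (by omega)
  refine le_trans ?_ (Nat.mul_le_mul_left _ c6)
  have c7 : cPh N (mkPm b L e (Nat.size N.m)) Ts + 1 +
      2 ^ (mkPm b L e (Nat.size N.m)).Rb * cRound (mkPm b L e (Nat.size N.m)) Ts ≤
      (N.m + 1) * 2 ^ (2 * (b / L) + 10 * e + 1) := by
    refine le_trans ?_ (Nat.mul_le_mul_left _ c5)
    have := Nat.mul_le_mul_right (cRound (mkPm b L e (Nat.size N.m)) Ts) c4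
    unfold cPh
    nlinarith [Nat.zero_le (N.m * (mkPm b L e (Nat.size N.m)).Rb)]
  have c8 := Nat.mul_le_mul_left (mkPm b L e (Nat.size N.m)).J c7
  unfold cDual
  nlinarith [Nat.zero_le (mkPm b L e (Nat.size N.m)).Dm]

end Vale.Agent.P305F
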