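import Vale.Agent.P305F.Params2
import Vale.Agent.P305F.End4

/-!
# Flow: the solver for minimum-cost flows
-/

namespace Vale.Agent.P305F

open Vale.Agent.P305E Vale.Agent.P305S Finset

/-- The computation of the parameters. -/
def pmP (b L e sm : ℕ) : M Pm :=
  num (sm / L + 1) >>= fun kb => num (L * (3 * (35 * b) + 10)) >>= fun Ls =>
  num (2 * b) >>= fun bb => num (15 * b + 36) >>= fun x1 => pow2 x1 >>= fun D =>
  num (2 * b + 9) >>= fun x2 => pow2 x2 >>= fun Lam =>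
  num (26 * b + 65) >>= fun x3 => pow2 x3 >>= fun Dd => pow2 e >>= fun kk =>
  num (e + 6) >>= fun x4 => pow2 x4 >>= fun hh => num (18 * b + 4) >>= fun Ns =>
  num (16 * b + 38) >>= fun rb => num (kb * L + 4 * e) >>= fun Rb => num (4 * b + 7) >>= fun J =>
  num (1 + (L + 1) * (Ls + 1)) >>= fun Dm => num ((L + 1) * bb) >>= fun wd =>
  pure ⟨L, kb, Ls, bb, D, Lam, Dd, kk, hh, Ns, rb, Rb, J, 512, Dm, wd⟩

@[fun_prop] theorem impl_pmP : Impl fun p : ℕ × ℕ × ℕ × ℕ => pmP p.1 p.2.1 p.2.2.1 p.2.2.2 := by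
  unfold pmP
  fun_prop

theorem Tri_pmP {cx : Cx} {b L e c sm : ℕ} (h : Hb b L e c) (hs : sm ≤ b + 1)
    (hB : 2 ^ (210 * b + 20) ≤ cx.B) :
    Tri cx (pmP b L e sm) fun P t => P = mkPm b L e sm ∧ t = 0 := by
  have h1 := h.eb
  have h2 := h.e_ge
  have h3 := h.lin_le
  have h4 := h.big
  have h5 := h.kbL hs
  have h6 := p2_self (210 * b + 20)
  have h7 := Nat.div_le_self sm L
  have h8 := (p2_mono h.Ls_le (by omega)).trans hB
  have h9 := (p2_mono h.Dm_le (by omega)).trans hB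
  have h10 : (L + 1) * (2 * b) ≤ cx.B := (p2_mono (p2_mul (p2_self (L + 1)) (p2_self (2 * b)))
    (by omega)).trans hB
  have key : ∀ k, k ≤ 210 * b + 20 → 2 ^ k ≤ cx.B := fun k hk => (p2_mono (p2_refl k) hk).trans hB
  unfold pmP
  simp only [Tri_bind, Tri_num, Tri_pow2, Tri_pure]
  refine ⟨by omega, by omega, by omega, by omega, key _ (by omega), by omega, key _ (by omega),
    by omega, key _ (by omega), key _ (by omega), by omega, key _ (by omega), by omega, by omega,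
    by omega, by omega, by omega, h10, rfl, trivial⟩

/-- The dual solver with its parameters. -/
noncomputable def dualP (sam : ℕ → ℕ → ℕ → List Edge → M (List (Arr ℕ))) (c b : ℕ) (N : Net) :
    M (List ℕ) :=
  num ((4 * c + 8) * (Nat.size b * Nat.size b * Nat.size b)) >>= fun e =>
  pmP b (Nat.size b) e (Nat.size N.m) >>= fun P =>
  num (b / Nat.size b + 2 + 2 * c * Nat.size b) >>= fun tau => num (35 * b) >>= fun s =>
  dual (sam s tau (Nat.size b)) P N

/-- The exponent of the overhead. -/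
def eOf (c b : ℕ) : ℕ := (4 * c + 8) * Nat.size b ^ 3

theorem impl_dualP {sam : ℕ → ℕ → ℕ → List Edge → M (List (Arr ℕ))} {c : ℕ} (hs : SamFam sam c) :
    Impl fun p : ℕ × Net => dualP sam c p.1 p.2 := by
  have := hs.impl
  unfold dualP
  refine Impl.bind (by fun_prop) (Impl.bind (by fun_prop) (Impl.bind (by fun_prop)
    (Impl.bind (by fun_prop) (impl_dual ?_ (by fun_prop) (by fun_prop)))))
  fun_prop

theorem dualP_spec {sam : ℕ → ℕ → ℕ → List Edge → M (List (Arr ℕ))} {B b c : ℕ} {N : Net}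
    (hs : SamFam sam c) (h : Hb b (Nat.size b) (eOf c b) c) (hN : N.OK (2 ^ b) (2 ^ b))
    (hn : N.n + N.m ≤ 2 ^ b) (hB : 2 ^ (210 * b + 20) ≤ B) :
    DualSpec B N (dualP sam c b N)
      (((N.m + 1) * 2 ^ (2 * (b / Nat.size b) + 15 * eOf c b) : ℕ) : ℝ) (1 / 2 ^ b) := by
  intro ys hys G C₀ C₁ τ hτ hC hC' hG1 hG hG'
  have e := dual_spec (mkPm_ok h hN hn hB) (mkPm_an h hn hB) (mkPm_out h hn hB) (mkPm_samp hs h hB)
    ys hys G C₀ C₁ τ hτ hC hC' hG1 hG hG'
  have e1 := mkPm_eps h hn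
  have e2 := mul_le_mul_of_nonneg_left ((Nat.cast_le (α := ℝ)).2 (mkPm_time h hn)) hτ
  have h1 := h.eb
  have h5 := h.cL
  have h6 := p2_self (210 * b + 20)
  have h7 := Nat.div_le_self b (Nat.size b)
  have h8 : (4 * c + 8) * (Nat.size b * Nat.size b * Nat.size b) = eOf c b := by
    unfold eOf
    ring
  unfold dualP
  rw [wp_bind, h8, wp_num, if_pos (by omega), wp_bind]
  refine wp_le_const_of_Tri (c := ⟨B, true⟩) (Tri_pmP h (size_le_of (by omega)) hB) ?_ 1
  rintro P t ⟨rfl, rfl⟩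
  rw [wp_bind, wp_num, if_pos (by omega), wp_bind, wp_num, if_pos (by omega)]
  simp only [Nat.zero_add]
  linarith

theorem exists_b1 (c : ℕ) : ∃ b1, ∀ b, b1 ≤ b → Hb b (Nat.size b) (eOf c b) c := by
  refine ⟨2 ^ (2048 * (4 * c + 8)), fun b hb => ?_⟩
  have h1 : 2048 * (4 * c + 8) < Nat.size b := Nat.lt_size.2 hb
  have h2 := lg_pow_le_lin 4 (x := b) ((p2_one _).trans hb)
  have h3 : Nat.size b ^ 4 ≤ lg b ^ 4 := Nat.pow_le_pow_left (Nat.le_add_right _ _) _
  refine ⟨Nat.lt_size_self _, by omega, rfl, ?_⟩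
  have h4 := Nat.mul_le_mul_right (Nat.size b ^ 3) h1.le
  unfold eOf
  have h5 : Nat.size b * Nat.size b ^ 3 = Nat.size b ^ 4 := by ring
  have h6 : 2048 * (4 * c + 8) * Nat.size b ^ 3 = 2048 * ((4 * c + 8) * Nat.size b ^ 3) := by ring
  omega

theorem Net.OK.mono {N : Net} {C F C' F' : ℕ} (h : N.OK C F) (hC : C ≤ C') (hF : F ≤ F') :
    N.OK C' F' :=
  ⟨h.npos, h.tl_lt, h.hd_lt, h.c_pos, fun e he => (h.c_le e he).trans hC, h.f_le.trans hF, h.out,
    h.inn⟩

/-- The solver for minimum-cost flows. -/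
noncomputable def mcf (sam : ℕ → ℕ → ℕ → List Edge → M (List (Arr ℕ))) (c b1 b0 : ℕ) (N : Net) :
    M (Arr ℕ) :=
  num (7 * b0 + 9 + b1) >>= fun b => num (4 * b0 + 7) >>= fun wb => pow2 b0 >>= fun C =>
  num (b0 + 1) >>= fun reps => flow (dualP sam c b) wb C C reps N

/-- A monotone bound for `b / log b`. -/
def hdiv (b : ℕ) : ℕ := (range (b + 1)).sup fun x => x / Nat.size x

theorem le_hdiv (b : ℕ) : b / Nat.size b ≤ hdiv b :=
  le_sup (f := fun x => x / Nat.size x) (self_mem_range_succ b)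

theorem hdiv_mono : Monotone hdiv := fun _ _ h => sup_mono (range_mono (Nat.succ_le_succ h))

theorem lin_hdiv (a : ℕ) : Lin fun N => hdiv (a * Nat.size N + a) := by
  refine Lin.of_mul_le (2 * a + 8 * 2 ^ 2) fun N hN => ?_
  have h1 := two_le_size hN
  have h2 := two_le_size (two_le_size h1)
  obtain ⟨x, hx, e⟩ := exists_mem_eq_sup (range (a * Nat.size N + a + 1)) ⟨0, by simp⟩
    fun x => x / Nat.size x
  have h3 := mem_range.1 hx
  rw [hdiv, e]
  have h4 : a ≤ a * Nat.size N := Nat.le_mul_of_pos_right _ (by omega)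
  by_cases hc : Nat.size (Nat.size (Nat.size N)) ≤ Nat.size x
  · have := (Nat.mul_le_mul_left (x / Nat.size x) hc).trans (Nat.div_mul_le_self _ _)
    nlinarith
  · have h5 : x < Nat.size (Nat.size N) := by
      by_contra h6
      exact hc (Nat.size_le_size (not_lt.1 h6))
    have h7 := lg_pow_le_lin 2 (x := Nat.size N) (by omega)
    have h8 : x / Nat.size x ≤ lg (Nat.size N) :=
      (Nat.div_le_self _ _).trans (h5.le.trans (Nat.le_add_right _ _))
    have h9 : Nat.size (Nat.size (Nat.size N)) ≤ lg (Nat.size N) :=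
      (size_le_self _).trans (Nat.le_add_right _ _)
    have := Nat.mul_le_mul h8 h9
    nlinarith

theorem eOf_mono (c : ℕ) : Monotone (eOf c) := fun _ _ h =>
  Nat.mul_le_mul_left _ (Nat.pow_le_pow_left (Nat.size_le_size h) _)

theorem lin_eOf (c a : ℕ) : Lin fun N => eOf c (a * Nat.size N + a) := by
  refine ((Lin.size_size_pow 3).const_mul ((4 * c + 8) * (a + 2) ^ 3)).mono fun N hN => ?_
  have h1 := two_le_size hN
  have h2 := two_le_size h1
  have h3 : Nat.size (a * Nat.size N + a) ≤ (a + 2) * Nat.size (Nat.size N) := by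
    rw [Nat.size_le]
    have k1 := p2_mul (p2_self a) (show Nat.size N + 1 ≤ 2 ^ Nat.size (Nat.size N) from
      Nat.lt_size_self _)
    refine lt_of_le_of_lt (by rwa [mul_add, mul_one] at k1) (Nat.pow_lt_pow_right (by norm_num) ?_)
    nlinarith
  unfold eOf
  rw [mul_assoc, ← mul_pow]
  exact Nat.mul_le_mul_left _ (Nat.pow_le_pow_left h3 _)

/-- The overhead. -/
def gOf (c b1 b0 : ℕ) : ℕ := (b0 + 1) *
  (2 ^ (2 * hdiv (7 * b0 + 9 + b1) + 15 * eOf c (7 * b0 + 9 + b1)) + 100 * (4 * b0 + 8))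

theorem sub_lin (a k : ℕ) : Sub fun N => a * Nat.size N + k :=
  ((Sub.const a).mul Sub.size).add (Sub.const k)

/-- **Minimum-cost flows in almost linear time**, given the static sampler. -/
theorem mcfOK {sam : ℕ → ℕ → ℕ → List Edge → M (List (Arr ℕ))} {c : ℕ} (hs : SamFam sam c) :
    ∃ mc c' g, McfOK mc c' g := by
  obtain ⟨b1, hb1⟩ := exists_b1 c
  refine ⟨mcf sam c b1, 210 * (16 + b1) + 20, gOf c b1, ?_, fun a => ?_, fun x y hxy => ?_,
    fun B b0 N hN hn hB => ?_⟩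
  · have := impl_dualP hs
    unfold mcf
    refine Impl.bind (by fun_prop) (Impl.bind (by fun_prop) (Impl.bind (by fun_prop)
      (Impl.bind (by fun_prop) (impl_flow ?_ (by fun_prop) (by fun_prop) (by fun_prop)
      (by fun_prop) (by fun_prop)))))
    fun_prop
  · refine ((sub_lin a (a + 1)).mul ((Sub.two_pow (((lin_hdiv (7 * a + 9 + b1)).const_mul 2).add
      ((lin_eOf c (7 * a + 9 + b1)).const_mul 15))).add
      (sub_lin (400 * a) (400 * a + 800)))).mono fun N hN => ?_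
    have h1 : 7 * (a * Nat.size N + a) + 9 + b1 ≤
        (7 * a + 9 + b1) * Nat.size N + (7 * a + 9 + b1) := by nlinarith [Nat.zero_le (Nat.size N)]
    refine Nat.mul_le_mul (by omega) (Nat.add_le_add (Nat.pow_le_pow_right (by norm_num)
      (Nat.add_le_add (Nat.mul_le_mul_left _ (hdiv_mono h1))
      (Nat.mul_le_mul_left _ (eOf_mono c h1)))) (le_of_eq (by ring)))
  · have h1 : 7 * x + 9 + b1 ≤ 7 * y + 9 + b1 := by omega
    exact Nat.mul_le_mul (by omega) (Nat.add_le_add (Nat.pow_le_pow_right (by norm_num)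
      (Nat.add_le_add (Nat.mul_le_mul_left _ (hdiv_mono h1))
      (Nat.mul_le_mul_left _ (eOf_mono c h1)))) (by omega))
  · obtain ⟨b, hb⟩ : ∃ b, b = 7 * b0 + 9 + b1 := ⟨_, rfl⟩
    have h := hb1 b (by omega)
    have hB' : 2 ^ (210 * b + 20) ≤ B := (p2_mono (p2_refl _) (by nlinarith)).trans hB
    have hm : N.m ≤ 2 ^ b0 := by omega
    have hm1 : N.m + 1 ≤ 2 ^ (b0 + 1) := p2_add hm (p2_refl 0) le_rfl (by omega)
    have hF : pF N.m (2 ^ b0) ≤ 2 ^ (2 * b0 + 1 + 1) :=
      p2_add (p2_mul hm1 (p2_refl _)) hm (by omega) (by omega)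
    have hC : pC (4 * b0 + 7) (2 ^ b0) (2 ^ b0) ≤ 2 ^ (7 * b0 + 8 + 1) :=
      p2_add (p2_mul (p2_mul (p2_refl _) (p2_add (p2_mul (p2_refl _) (p2_refl _)) (p2_refl 0)
        le_rfl (by omega))) (p2_refl _)) (p2_refl _) (by omega) (by omega)
    have e := flow_spec (B := B) (wb := 4 * b0 + 7) (reps := b0 + 1) (dual := dualP sam c b)
      (T := (((N.m + 1) * 2 ^ (2 * (b / Nat.size b) + 15 * eOf c b) : ℕ) : ℝ)) (ε := 1 / 2 ^ b)
      hN (by positivity) (by positivity)
      (fun N' k1 k2 k3 => by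
        have := dualP_spec (N := N') hs h (k3.mono (p2_mono hC (by omega)) (p2_mono hF (by omega)))
          (by rw [k1, k2]; exact p2_mono hn (by omega)) hB'
        rwa [k2] at this)
      (p2_mono (p2_mul (p2_mul (show 10 ≤ 2 ^ 4 by norm_num) hm)
        (p2_mul (p2_add (p2_refl b0) (p2_refl 0) le_rfl (by omega)) hF)) (by omega))
      ((p2_mono (p2_mul (p2_mul (p2_pow (p2_add hn (p2_refl 1) (k := b0 + 1) (by omega)
        (by omega)) 2) (p2_add (p2_add hC hF le_rfl (by omega)) (p2_refl 0) le_rfl (by omega)))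
        (show 10 ≤ 2 ^ 4 by norm_num)) (by omega)).trans hB')
    intro G C₀ τ hτ hC0 hG1 hG
    have e1 := e G C₀ τ hτ hC0 hG1 hG
    have h6 := p2_self (210 * b + 20)
    unfold mcf
    rw [wp_bind, ← hb, wp_num, if_pos (by omega), wp_bind, wp_num, if_pos (by omega), wp_bind]
    refine wp_le_const_of_Tri (c := ⟨B, true⟩) (Q := fun x t => x = 2 ^ b0 ∧ t = 0)
      ((Tri_pow2 _ _).2 ⟨(p2_mono (p2_refl _) (by omega)).trans hB', rfl, rfl⟩) ?_ 1
    rintro _ _ ⟨rfl, rfl⟩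
    rw [wp_bind, wp_num, if_pos (by omega)]
    simp only [Nat.zero_add]
    refine e1.trans (add_le_add (add_le_add le_rfl (mul_le_mul_of_nonneg_left ?_ hτ)) ?_)
    · have k1 : 2 ^ (2 * (b / Nat.size b) + 15 * eOf c b) ≤ 2 ^ (2 * hdiv b + 15 * eOf c b) :=
        p2_mono (p2_refl _) (by have := le_hdiv b; omega)
      have k2 : (b0 + 1) * ((N.m + 1) * 2 ^ (2 * (b / Nat.size b) + 15 * eOf c b) +
          100 * (4 * b0 + 7 + 1) * (N.n + N.m + 1)) ≤ (N.n + N.m + 1) * gOf c b1 b0 := by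
        have := Nat.mul_le_mul (show N.m + 1 ≤ N.n + N.m + 1 by omega) k1
        rw [gOf, ← hb, mul_left_comm]
        refine Nat.mul_le_mul_left _ ?_
        rw [mul_add (N.n + N.m + 1), mul_comm (N.n + N.m + 1) (100 * _)]
        exact Nat.add_le_add this le_rfl
      refine le_trans (le_of_eq ?_) ((Nat.cast_le (α := ℝ)).2 k2)
      generalize (N.m + 1) * 2 ^ (2 * (b / Nat.size b) + 15 * eOf c b) = X
      push_cast
      ring
    · have k1 : (b0 + 1) * 2 ^ (b0 + 1) ≤ 2 ^ b := p2_mono (p2_mul (p2_self _) (p2_refl _))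
        (by omega)
      have k2 := (Nat.cast_le (α := ℝ)).2 k1
      have k3 : ((b0 + 1 : ℕ) : ℝ) * (1 / 2 ^ b) ≤ 1 / 2 ^ (b0 + 1) := by
        rw [mul_one_div, div_le_div_iff₀ (by positivity) (by positivity), one_mul]
        exact_mod_cast k1
      have k4 : (1 / 5 : ℝ) ^ (b0 + 1) ≤ 1 / 2 ^ (b0 + 1) := by
        rw [← one_div_pow]
        exact pow_le_pow_left₀ (by norm_num) (by norm_num) _
      have k5 : (1 : ℝ) / 2 ^ (b0 + 1) + 1 / 2 ^ (b0 + 1) = 1 / 2 ^ b0 := by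
        field_simp
        ring
      linarith

end Vale.Agent.P305F
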