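import Vale.Agent.P305F.Rand

/-!
# Flow: a loop that stops after a uniformly random number of rounds
-/

namespace Vale.Agent.P305F

open Vale.Agent.P305E Finset

open Classical in
/-- The hypotheses on one round `f`: the invariant `I` is kept, the potential `P` drops by one in
active states up to the noise `ν`, and the potential `Nn` (for bad events and time) grows by at
most `ν'`; nothing is known in states with `Nn ≥ 1`. -/
structure RoundOK {σ : Type} (B : ℕ) (f : σ → M σ) (I act : σ → Prop) (P Nn : σ → ℝ)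
    (τ ν ν' : ℝ) : Prop where
  τ0 : 0 ≤ τ
  ν0 : 0 ≤ ν
  ν0' : 0 ≤ ν'
  P0 : ∀ x, I x → 0 ≤ P x
  N0 : ∀ x, I x → 0 ≤ Nn x
  inv : ∀ x, I x → Nn x < 1 → Tri ⟨B, true⟩ (f x) fun x' _ => I x'
  pot : ∀ x, I x → Nn x < 1 →
    wp B (f x) (fun x' _ => P x') 0 ≤ P x - (if act x then 1 else 0) + ν
  bad : ∀ x, I x → Nn x < 1 →
    wp B (f x) (fun x' t => Nn x' + τ * (t + 1)) 0 ≤ Nn x + ν'

variable {σ : Type} {B : ℕ} {f : σ → M σ} {I act : σ → Prop} {P Nn : σ → ℝ} {τ ν ν' a C : ℝ}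

open Classical in
theorem RoundOK.sum_le (h : RoundOK B f I act P Nn τ ν ν') (ha : 0 ≤ a) (hC : 0 ≤ C)
    {F : σ → ℕ → ℝ} (hF1 : ∀ x t, F x t ≤ 1)
    (hF : ∀ x t, I x → F x t ≤ a * (if act x then 1 else 0) + Nn x + τ * t + C) :
    ∀ (R : ℕ) (x : σ) (t0 : ℕ), I x →
      ∑ r ∈ range R, wp B (iterM (fun x _ => f x) x r) (fun x' t => F x' (t0 + t)) 1 ≤
        a * (P x + R * ν) + R * (Nn x + τ * t0 + C) + (R : ℝ) ^ 2 * ν' := by
  intro R
  induction R with
  | zero =>
    intro x t0 hx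
    simpa using mul_nonneg ha (h.P0 x hx)
  | succ R ih =>
    intro x t0 hx
    have hP0 := h.P0 x hx
    have hτ := h.τ0
    have hν := h.ν0
    have hν' := h.ν0'
    have hR : (0 : ℝ) ≤ R := Nat.cast_nonneg _
    have ht0 : (0 : ℝ) ≤ τ * t0 := by positivity
    by_cases hN : Nn x < 1
    · rw [sum_range_succ']
      have e0 : wp B (iterM (fun x _ => f x) x 0) (fun x' t => F x' (t0 + t)) 1 = F x t0 := by
        simp [iterM_zero]
      have e1 : ∑ r ∈ range R,
          wp B (iterM (fun x _ => f x) x (r + 1)) (fun x' t => F x' (t0 + t)) 1 =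
          wp B (f x) (fun x' t => ∑ r ∈ range R, wp B (iterM (fun x _ => f x) x' r)
            (fun x'' t' => F x'' (t0 + t + 1 + t')) 1) (∑ _r ∈ range R, 1) := by
        rw [wp_sum]
        refine sum_congr rfl fun r _ => ?_
        rw [iterM_succ', wp_bind]
        refine wp_congr fun x' t => ?_
        rw [wp_tick]
        refine wp_congr fun x'' t' => ?_
        congr 1
        omega
      have e2 := wp_le_of_Tri (h.inv x hx hN)
        (F := fun x' t => ∑ r ∈ range R, wp B (iterM (fun x _ => f x) x' r)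
            (fun x'' t' => F x'' (t0 + t + 1 + t')) 1)
        (G := fun x' t => (a * P x' + R * (Nn x' + τ * (t + 1))) +
          (a * (R * ν) + R * (τ * t0 + C) + (R : ℝ) ^ 2 * ν'))
        (fun x' t hx' => (ih x' (t0 + t + 1) hx').trans (le_of_eq (by push_cast; ring)))
        (∑ _r ∈ range R, 1) ((a * 0 + R * 0) + (a * (R * ν) + R * (τ * t0 + C) + (R : ℝ) ^ 2 * ν'))
      rw [wp_add_const, wp_add, wp_mul_left, wp_mul_left] at e2
      have e3 := mul_le_mul_of_nonneg_left (h.pot x hx hN) ha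
      have e4 := mul_le_mul_of_nonneg_left (h.bad x hx hN) hR
      have e5 := hF x t0 hx
      have e6 : 0 ≤ R * ν' := by positivity
      rw [e0, e1]
      push_cast
      simp only at e2
      nlinarith
    · have e1 : ∑ r ∈ range (R + 1),
          wp B (iterM (fun x _ => f x) x r) (fun x' t => F x' (t0 + t)) 1 ≤
          ∑ _r ∈ range (R + 1), (1 : ℝ) :=
        sum_le_sum fun r _ => wp_le_const (fun _ _ => hF1 _ _) le_rfl
      simp only [sum_const, card_range, nsmul_eq_mul, mul_one] at e1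
      have e2 : 0 ≤ a * (P x + ((R + 1 : ℕ) : ℝ) * ν) := by positivity
      have e3 : 0 ≤ ((R + 1 : ℕ) : ℝ) ^ 2 * ν' := by positivity
      have e4 : ((R + 1 : ℕ) : ℝ) * 1 ≤ ((R + 1 : ℕ) : ℝ) * (Nn x + τ * t0 + C) :=
        mul_le_mul_of_nonneg_left (by linarith [not_lt.1 hN]) (Nat.cast_nonneg _)
      linarith

open Classical in
/-- The value after a uniformly random number of rounds. -/
theorem RoundOK.rand_le (h : RoundOK B f I act P Nn τ ν ν') (ha : 0 ≤ a) (hC : 0 ≤ C)
    {F : σ → ℕ → ℝ} (hF1 : ∀ x t, F x t ≤ 1)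
    (hF : ∀ x t, I x → F x t ≤ a * (if act x then 1 else 0) + Nn x + τ * t + C)
    {Rb : ℕ} (hB : 2 ^ Rb ≤ B) {x : σ} (hx : I x) (t0 : ℕ) :
    wp B (randBits Rb >>= fun r => iterM (fun x _ => f x) x r) (fun x' t => F x' (t0 + t)) 1 ≤
      a * (P x / 2 ^ Rb + ν) + Nn x + τ * (t0 + 2 * Rb) + C + 2 ^ Rb * ν' := by
  rw [wp_bind, wp_randBits hB]
  have e := h.sum_le ha hC hF1 hF (2 ^ Rb) x (t0 + 2 * Rb) hx
  have hp : (0 : ℝ) < 2 ^ Rb := by positivity
  rw [div_le_iff₀ hp]
  simp only [← Nat.add_assoc]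
  refine e.trans (le_of_eq ?_)
  push_cast
  field_simp
  ring

end Vale.Agent.P305F
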