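import Vale.Agent.P305F.Reps

/-!
# Flow, part 3: the programs of the dual solver
-/

namespace Vale.Agent.P305F

open Vale.Agent.P305E Vale.Agent.P305S

/-! ### Priced primitives -/

/-- The way to the root. -/
def pathP (k : ℕ) (par : Arr ℕ) (rt v : ℕ) : M (List ℕ) := pay k (pathL par.get rt k v)

/-- The top label. -/
def labP (cs : List (Arr ℕ)) (v : ℕ) : M ℕ := pay cs.length (labAll (hier cs) v)

/-- The parent in the tree of a hierarchy. -/
def parP (cs : List (Arr ℕ)) (r v : ℕ) : M ℕ := pay cs.length (parOf (hier cs) r v)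

/-- The tree edges between two vertices. -/
def sdP (cs : List (Arr ℕ)) (r x y : ℕ) : M (List (ℕ × Bool)) :=
  pay cs.length (sdA r (hier cs) x y [])

/-- The arc at a position of a weighted tree. -/
noncomputable def descP (wd : ℕ) (t : WT) (x : ℕ) : M ℕ := spec (dep t ≤ wd) 0 wd (desc t x)

/-! ### Small programs -/

/-- The potential at a vertex. -/
def yvalP (k : ℕ) (par : Arr ℕ) (rt : ℕ) (off : Arr ℤ) (v : ℕ) : M ℤ :=
  pathP k par rt v >>= fun l => foldM (fun s a => inum (s + off.get a)) 0 l

/-- The scaled slack of an arc. -/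
def sigP (N : Net) (P : Pm) (x : St) (e : ℕ) : M ℕ :=
  yvalP P.Dm (x.top P).par (x.top P).rt x.off (N.hd.get e) >>= fun a =>
  yvalP P.Dm (x.top P).par (x.top P).rt x.off (N.tl.get e) >>= fun b =>
  num (((P.D * N.c.get e : ℕ) : ℤ) - (a - b)).toNat

/-- Removal of repetitions. -/
def dedupP (l : List ℕ) : M (List ℕ) :=
  foldP (fun (s : Arr Bool × List ℕ) x =>
    if s.1.get x = true then s else (s.1.set x true, x :: s.2)) (Arr.const false, []) l >>=
  fun s => pure s.2

/-- One round of pairing weighted trees. -/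
def pairP (l : List WT) : M (List WT) :=
  foldM (fun (s : Option WT × List WT) t => s.1.elim (pure (some t, s.2)) fun a =>
    num (ww a + ww t) >>= fun w => pure (none, BT.node w a t :: s.2)) (none, []) l >>=
  fun s => pure (s.1.elim s.2 fun a => a :: s.2)

/-- A balanced tree over a list of weighted trees. -/
def mkP (bb : ℕ) (l : List WT) : M WT :=
  iterM (fun l _ => pairP l) l bb >>= fun l' => pure (l'.headD (BT.leaf (0, 0)))

/-- A random arc of a weighted tree. -/
noncomputable def smpP (rb wd : ℕ) (t : WT) : M ℕ :=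
  randBits rb >>= fun r => descP wd t (r % ww t)

/-- Several random arcs. -/
noncomputable def smpsP (Ns rb wd : ℕ) (t : WT) : M (List ℕ) :=
  iterM (fun l _ => smpP rb wd t >>= fun e => pure (e :: l)) [] Ns

/-! ### The rebuild -/

/-- The ancestors of the ends of the arcs in `U`. -/
def ancP (N : Net) (P : Pm) (b : Lev) (U : List ℕ) : M (List ℕ) :=
  mapM' (fun e => pathP P.Dm b.par b.rt (N.hd.get e) >>= fun p =>
    pathP P.Dm b.par b.rt (N.tl.get e) >>= fun q => appendP p q) U >>= fun ps =>
  flattenP ps >>= fun fl => dedupP (b.rt :: fl)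

/-- The edges to be sparsified. -/
def hEdgesP (N : Net) (P : Pm) (sg : Arr ℕ) (b : Lev) (A U : List ℕ) : M (List HEdge) :=
  mapP (fun a => (a, b.par.get a, b.wt.get a, b.G.get a)) A >>= fun h1 =>
  mapM' (fun e => num (P.g (sg.get e)) >>= fun g => inum ((g : ℤ) - b.snap.get e) >>= fun z =>
    pure ((N.hd.get e, N.tl.get e, BT.leaf (g, e), z) : HEdge)) U >>= fun h2 =>
  appendP h1 h2

/-- The contributions to the edges of the new tree. -/
def entsP (cs : List (Arr ℕ)) (r : ℕ) (H : List HEdge) : M (List (ℕ × WT × ℤ)) :=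
  mapM' (fun h : HEdge => sdP cs r h.1 h.2.1 >>= fun s =>
    mapP (fun p : ℕ × Bool => (p.1, h.2.2.1, if p.2 = true then h.2.2.2 else -h.2.2.2)) s) H >>=
  fun l => flattenP l

/-- The new level. -/
def buildP (P : Pm) (sg : Arr ℕ) (b : Lev) (A U : List ℕ) (H : List HEdge)
    (cs : List (Arr ℕ)) : M Lev :=
  labP cs b.rt >>= fun r =>
  foldM (fun (arr : Arr ℕ) a => parP cs r a >>= fun p => pure (arr.set a p)) b.par A >>=
    fun par =>
  entsP cs r H >>= fun en =>
  foldP (fun (arr : Arr ℤ) a => arr.set a 0) b.G A >>= fun G0 =>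
  foldM (fun (arr : Arr ℤ) (p : ℕ × WT × ℤ) =>
    inum (arr.get p.1 + p.2.2) >>= fun z => pure (arr.set p.1 z)) G0 en >>= fun G =>
  foldP (fun (arr : Arr (List WT)) (p : ℕ × WT × ℤ) => arr.set p.1 (p.2.1 :: arr.get p.1))
    (Arr.const []) en >>= fun it =>
  foldM (fun (arr : Arr WT) a => mkP P.bb (it.get a) >>= fun t => pure (arr.set a t)) b.wt A >>=
    fun wt =>
  foldP (fun (c : MinArr) a =>
    c.set a (if good P.kk (wt.get a) (G.get a) then some (0, a) else none)) b.cand A >>=
    fun cand =>
  foldM (fun (arr : Arr ℕ) e => num (P.g (sg.get e)) >>= fun g => pure (arr.set e g)) b.snap U >>=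
    fun snap =>
  pure ⟨r, par, wt, G, snap, cand, []⟩

/-- The offsets along the new tree. -/
def offP (P : Pm) (x : St) (v : Lev) (A : List ℕ) : M (Arr ℤ) :=
  foldM (fun (arr : Arr ℤ) a => yvalP P.Dm (x.top P).par (x.top P).rt x.off a >>= fun y =>
    pure (arr.set a y)) (Arr.const 0) A >>= fun val =>
  foldM (fun (arr : Arr ℤ) a => inum (val.get a - val.get (v.par.get a)) >>= fun z =>
    pure (arr.set a z)) x.off A

/-- All levels above `i` are replaced by one new level. -/
def rebuild (sa : List Edge → M (List (Arr ℕ))) (N : Net) (P : Pm) (x : St) (i : ℕ) : M St :=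
  dedupP (x.lv.get i).U >>= fun U =>
  ancP N P (x.lv.get i) U >>= fun A =>
  hEdgesP N P x.sg (x.lv.get i) A U >>= fun H =>
  filterMapP (fun h : HEdge => if ww h.2.2.1 = 0 then none else some (h.1, h.2.1, ww h.2.2.1)) H
    >>= fun E =>
  sa E >>= fun cs =>
  buildP P x.sg (x.lv.get i) A U H cs >>= fun v =>
  offP P x v A >>= fun off =>
  num (P.L + 2) >>= fun T =>
  iterM (fun (lv : Arr Lev) j => pure (if i < j then lv.set j v else lv)) x.lv T >>= fun lv =>
  pure ⟨lv, off, x.sg⟩

/-! ### Steps, rounds, phases -/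

/-- The length of the step at a tree edge with gradient sum `g`. -/
def amt (P : Pm) (g : ℤ) : ℕ := P.D * P.Lam / (P.kk * P.hh * g.natAbs)

/-- The signed step. -/
def samt (P : Pm) (g : ℤ) : ℤ := if 0 < g then -(amt P g : ℤ) else amt P g

/-- The arcs of `l` are noted at all real levels. -/
def noteP (P : Pm) (lv : Arr Lev) (l : List ℕ) : M (Arr Lev) :=
  num (P.L + 2) >>= fun T =>
  iterM (fun (lv : Arr Lev) j => if j = 0 then pure lv else
    appendP l (lv.get j).U >>= fun U => pure (lv.set j { lv.get j with U := U })) lv T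

/-- A step at the tree edge `a`, and the refresh of random arcs. -/
noncomputable def stepP (N : Net) (P : Pm) (x : St) (a : ℕ) : M St :=
  inum (x.off.get a + samt P ((x.top P).G.get a)) >>= fun z =>
  smpsP P.Ns P.rb P.wd ((x.top P).wt.get a) >>= fun l =>
  foldM (fun (arr : Arr ℕ) e => sigP N P ⟨x.lv, x.off.set a z, x.sg⟩ e >>= fun s =>
    pure (arr.set e s)) x.sg l >>= fun sg =>
  noteP P x.lv l >>= fun lv =>
  pure ⟨lv, x.off.set a z, sg⟩

/-- A step, if there is a good tree edge. -/
noncomputable def tryP (N : Net) (P : Pm) (x : St) : M St :=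
  (x.top P).cand.min.elim (pure x) fun p => stepP N P x p.2

/-- The rebuild above a random level. -/
def rebR (sa : List Edge → M (List (Arr ℕ))) (N : Net) (P : Pm) (x : St) : M St :=
  num (P.kb * P.L) >>= fun nb => randBits nb >>= fun r =>
  num ((Nat.size r + P.kb - 1) / P.kb) >>= fun i => rebuild sa N P x i

/-- One round. -/
noncomputable def round (sa : List Edge → M (List (Arr ℕ))) (N : Net) (P : Pm) (x : St) : M St :=
  tryP N P x >>= fun x1 => rebR sa N P x1

/-- The virtual level. -/
def virtP (N : Net) (lam : ℕ) : M Lev :=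
  rangeP N.m >>= fun U =>
  foldM (fun (arr : Arr ℕ) e => num (lam * N.f0.get e) >>= fun g => pure (arr.set e g))
    (Arr.const 0) U >>= fun snap =>
  pure ⟨0, Arr.const 0, Arr.const (BT.leaf (0, 0)), Arr.const 0, snap, MinArr.empty, U⟩

/-- The start of a phase. -/
def startP (sa : List Edge → M (List (Arr ℕ))) (N : Net) (P : Pm) (x : St) (lam : ℕ) : M St :=
  virtP N lam >>= fun v => rebuild sa N P ⟨x.lv.set 0 v, x.off, x.sg⟩ 0

/-- One phase: a random number of rounds with a fixed multiplier. -/
noncomputable def phase (sa : List Edge → M (List (Arr ℕ))) (N : Net) (P : Pm) (s : St × ℕ) :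
    M (St × ℕ) :=
  startP sa N P s.1 s.2 >>= fun x1 =>
  randBits P.Rb >>= fun r =>
  iterM (fun x _ => round sa N P x) x1 r >>= fun x2 =>
  num (2 * s.2) >>= fun lam => pure (x2, lam)

/-- The first state. -/
def initP (N : Net) (P : Pm) : M St :=
  virtP N P.lam0 >>= fun v =>
  foldM (fun (arr : Arr ℕ) e => num (P.D * N.c.get e) >>= fun s => pure (arr.set e s))
    (Arr.const 0) v.U >>= fun sg =>
  pure ⟨Arr.const v, Arr.const 0, sg⟩

/-- The arcs of small slack. -/
def tightP (N : Net) (P : Pm) (x : St) : M (List ℕ) :=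
  rangeP N.m >>= fun l =>
  foldM (fun acc e => sigP N P x e >>= fun s => pure (if 2 * s < P.D then e :: acc else acc)) [] l

/-- The dual solver. -/
noncomputable def dual (sa : List Edge → M (List (Arr ℕ))) (P : Pm) (N : Net) : M (List ℕ) :=
  initP N P >>= fun x =>
  iterM (fun s _ => phase sa N P s) (x, P.lam0) P.J >>= fun s =>
  tightP N P s.1

end Vale.Agent.P305F
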