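import Vale.Agent.P305F.Reb2

/-!
# Flow: the rebuild, part 3 (offsets, invariants, expected norm)
-/

namespace Vale.Agent.P305F

open Vale.Agent.P305E Vale.Agent.P305S Finset

variable {B : ℕ} {N : Net} {P : Pm} {C F gm lam lamM Em Um Ts : ℕ} {q Osc : ℝ}
  {sa : List Edge → M (List (Arr ℕ))} {x : St}

theorem Tri_offP {c : Cx} {i : ℕ} {A U : List ℕ} {cs : List (ℕ → ℕ)} {v : Lev}
    (hP : PmOK c.B N P C F gm lamM Em Um) (h : Pre N P gm C lam x i)
    (hv : Built N P x.sg.get i (x.lv.get i) A U cs v) :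
    Tri c (offP P x v A) fun off t => Rp N.n v.rt v.par.get off.get (Ys N P x) ∧
      t ≤ (2 * P.Dm + 2) * A.length := by
  have hb := h.lev i le_rfl
  have hg : ∀ e < N.m, P.g (x.sg.get e) ≤ gm := fun e he => (h.sgb e he).2.2
  have hR := rp_Ys hP.net h.tree le_rfl
  have hY : ∀ u w, (Ys N P x u - Ys N P x w).natAbs ≤ c.B := fun u w =>
    (Ys_le hP.net hP.d_pos h.pos u w).trans
      ((Nat.mul_le_mul_right _ (Nat.mul_le_mul_right _ (by omega))).trans hP.yB)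
  refine (Tri_setAll (p := fun a z => z = Ys N P x a - Ys N P x (x.top P).rt)
    (T := fun _ => 2 * P.Dm) (fun a ha => Tri_yvalP h.tree le_rfl hR (fun u _ w _ => hY u w)
      (hv.lt hP.net hb a ha)) _).bind ?_
  rintro val t ⟨p1, -, p2⟩
  refine (Tri_setAll (p := fun a z => z = Ys N P x a - Ys N P x (v.par.get a))
    (T := fun _ => 0) (fun a ha => ?_) _).mono ?_
  · rw [p1 a ha, p1 _ ((hv.par_mem hP.net hb hg).2 a ha), sub_sub_sub_cancel_right]
    simp only [Tri_inum]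
    exact ⟨hY _ _, trivial, le_rfl⟩
  · rintro off t' ⟨p3, p4, p5⟩
    simp only [List.map_const', List.sum_replicate, smul_eq_mul] at p2 p5
    refine ⟨fun a ha _ => ?_, by nlinarith⟩
    by_cases hA : a ∈ A
    · exact p3 a hA
    · have h1 : ¬ InA N (x.lv.get i) a := fun h' => hA ((hv.memA a).2 h')
      rw [p4 a hA, hv.par, if_neg hA, ← h.same a ha h1]
      exact hR a ha fun e => h1 (e ▸ h.rt)

theorem Tri_copy {c : Cx} (lv : Arr Lev) (v : Lev) (i T : ℕ) :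
    Tri c (iterM (fun (lv : Arr Lev) j => pure (if i < j then lv.set j v else lv)) lv T)
      fun lv' t => (∀ l, lv'.get l = if i < l ∧ l < T then v else lv.get l) ∧ t = T := by
  refine Tri.iterM (fun k (lv' : Arr Lev) t =>
    (∀ l, lv'.get l = if i < l ∧ l < k then v else lv.get l) ∧ t = k) (by simp) ?_
  rintro _ s k - ⟨h1, rfl⟩
  simp only [Tri_pure]
  refine ⟨fun l => ?_, trivial⟩
  by_cases hl : l = k
  · subst hl
    by_cases hi : i < l <;> simp [hi, h1]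
  · have h2 : (i < l ∧ l < k + 1) ↔ (i < l ∧ l < k) := by omega
    rw [if_congr h2 rfl rfl, ← h1]
    by_cases hi : i < k <;> simp [hi, hl]

/-- The second half of the rebuild. -/
def postP (P : Pm) (x : St) (i : ℕ) (A U : List ℕ) (H : List HEdge) (cs : List (Arr ℕ)) : M St :=
  buildP P x.sg (x.lv.get i) A U H cs >>= fun v =>
  offP P x v A >>= fun off =>
  num (P.L + 2) >>= fun T =>
  iterM (fun (lv : Arr Lev) j => pure (if i < j then lv.set j v else lv)) x.lv T >>= fun lv =>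
  pure ⟨lv, off, x.sg⟩

theorem rebuild_eq (i : ℕ) : rebuild sa N P x i =
    dedupP (x.lv.get i).U >>= fun U => ancP N P (x.lv.get i) U >>= fun A =>
    hEdgesP N P x.sg (x.lv.get i) A U >>= fun H => pay H.length (sEdges H) >>= fun E =>
    sa E >>= fun cs => postP P x i A U H cs := rfl

theorem Tri_postP {c : Cx} {i : ℕ} {A U : List ℕ} {cs : List (Arr ℕ)}
    (hP : PmOK c.B N P C F gm lamM Em Um) (hl : lam ≤ lamM) (hi : i ≤ P.L)
    (h : Pre N P gm C lam x i) (ndA : A.Nodup) (memA : ∀ a, a ∈ A ↔ InA N (x.lv.get i) a)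
    (ndU : U.Nodup) (memU : ∀ e, e ∈ U ↔ e ∈ (x.lv.get i).U) (len : cs.length = P.Ls)
    (her : Her (hier cs)) (clo : Clo (sEdges (hEdges N P x.sg.get (x.lv.get i) A U)) (hier cs)) :
    Tri c (postP P x i A U (hEdges N P x.sg.get (x.lv.get i) A U) cs) fun x' t =>
      Built N P x.sg.get i (x.lv.get i) A U (hier cs) (x'.top P) ∧
      Inv N P gm C lam x' ∧ x'.sg = x.sg ∧ Ys N P x' = Ys N P x ∧
      (∀ l ≤ i, x'.lv.get l = x.lv.get l) ∧
      (∀ l, i < l → l ≤ P.L + 1 → x'.lv.get l = x'.top P) ∧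
      t ≤ 20 * (P.Ls + 1) * (P.bb + 1) * (A.length + U.length + 1) +
        (2 * P.Dm + 2) * A.length + (P.L + 2) := by
  have hb := h.lev i le_rfl
  have hg : ∀ e < N.m, P.g (x.sg.get e) ≤ gm := fun e he => (h.sgb e he).2.2
  refine (Tri_buildP hP hl hi hb ndA memA ndU memU hg len her clo).bind ?_
  rintro v t1 ⟨hv, h1⟩
  simp only [Tri_bind, Tri_num, Tri_pure]
  refine (Tri_offP hP h hv).mono ?_
  rintro off t2 ⟨hR, h2⟩
  refine ⟨hP.lB, (Tri_copy x.lv v i _).mono ?_⟩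
  rintro lv _ ⟨h3, rfl⟩
  have lo : ∀ l ≤ i, lv.get l = x.lv.get l := fun l hl => by rw [h3, if_neg (by omega)]
  have up : ∀ l, i < l → l ≤ P.L + 1 → lv.get l = v := fun l h4 h5 => by
    rw [h3, if_pos (by omega)]
  have top : St.top P ⟨lv, off, x.sg⟩ = v := up _ (by omega) le_rfl
  have hv' := hv.levOK hP.net hb hg
  have hY : Ys N P ⟨lv, off, x.sg⟩ = Ys N P x := by
    rw [Ys_eq (x := ⟨lv, off, x.sg⟩) (Y := Ys N P x) hP.net
      (top ▸ (hv'.mono (Nat.succ_le_succ hi)).tree) hP.dm (top ▸ hR)]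
    funext a
    split_ifs with ha
    · rw [Ys_zero, sub_zero]
    · simp [Ys, ha]
  refine ⟨top ▸ hv, ⟨fun l hl => ?_, fun l l' h4 h5 => ?_, (lo 0 (Nat.zero_le _)) ▸ h.u0, h.sgb,
    ?_⟩, trivial, hY, lo, fun l h4 h5 => (up l h4 h5).trans top.symm, by omega⟩
  · by_cases h4 : l ≤ i
    · exact lo l h4 ▸ h.lev l h4
    · exact up l (by omega) hl ▸ hv'.mono (by omega)
  · by_cases h6 : l' ≤ i
    · exact lo l (h4.trans h6) ▸ lo l' h6 ▸ h.ref l l' h4 h6
    · by_cases h7 : l ≤ i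
      · have h8 := h.ref l i h7 le_rfl
        exact lo l h7 ▸ up l' (by omega) h5 ▸ hv.ref hP.net hb hg h8 h8.rt
      · exact up l (by omega) (h4.trans h5) ▸ up l' (by omega) h5 ▸ Ref.refl N v
  · have : yR N P ⟨lv, off, x.sg⟩ = yR N P x := by
      funext a
      rw [yR, yR, hY]
    exact this ▸ h.pos

/-- The first half of the rebuild. -/
theorem Tri_front {c : Cx} {i : ℕ} (hP : PmOK c.B N P C F gm lamM Em Um) (hl : lam ≤ lamM)
    (hi : i ≤ P.L)
    (h : Pre N P gm C lam x i) :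
    Tri c (dedupP (x.lv.get i).U >>= fun U => ancP N P (x.lv.get i) U >>= fun A =>
      hEdgesP N P x.sg (x.lv.get i) A U >>= fun H => pure (U, A, H)) fun p t =>
      p.1.Nodup ∧ (∀ e, e ∈ p.1 ↔ e ∈ (x.lv.get i).U) ∧ p.2.1.Nodup ∧
      (∀ a, a ∈ p.2.1 ↔ InA N (x.lv.get i) a) ∧
      p.2.2 = hEdges N P x.sg.get (x.lv.get i) p.2.1 p.1 ∧
      p.2.1.length + p.1.length + 1 ≤ 2 * (P.Dm + 1) * ((x.lv.get i).U.length + 1) ∧
      t ≤ 12 * (P.Dm + 1) * ((x.lv.get i).U.length + 1) := by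
  have hb := h.lev i le_rfl
  have hg : ∀ e < N.m, P.g (x.sg.get e) ≤ gm := fun e he => (h.sgb e he).2.2
  refine (Tri_dedupP _).bind ?_
  rintro U _ ⟨ndU, memU, h1, rfl⟩
  rw [Tri_bind]
  refine (Tri_ancP hP.net (hb.mono (Nat.le_succ_of_le hi)).tree hP.dm memU
    fun e he => hb.ult e ((memU e).1 he)).mono ?_
  rintro A t2 ⟨ndA, memA, h2, h3⟩
  rw [Tri_bind]
  refine (Tri_hEdgesP hP hl hb ndA memA ndU memU hg).mono ?_
  rintro _ t3 ⟨rfl, h4⟩
  have h5 := Nat.mul_le_mul_left P.Dm h1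
  exact ⟨ndU, memU, ndA, memA, rfl, by simp only; nlinarith, by nlinarith⟩

theorem rebuild_eq' (i : ℕ) : rebuild sa N P x i =
    (dedupP (x.lv.get i).U >>= fun U => ancP N P (x.lv.get i) U >>= fun A =>
      hEdgesP N P x.sg (x.lv.get i) A U >>= fun H => pure (U, A, H)) >>= fun p =>
    pay p.2.2.length (sEdges p.2.2) >>= fun E =>
    sa E >>= fun cs => postP P x i p.2.1 p.1 p.2.2 cs := by
  simp only [rebuild_eq, bind_assoc, pure_bind]

theorem samp_pre {i : ℕ} {A U : List ℕ} (hP : PmOK B N P C F gm lamM Em Um) (hi : i ≤ P.L)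
    (h : Pre N P gm C lam x i) (ndA : A.Nodup) (memA : ∀ a, a ∈ A ↔ InA N (x.lv.get i) a)
    (ndU : U.Nodup) (memU : ∀ e, e ∈ U ↔ e ∈ (x.lv.get i).U) :
    (sEdges (hEdges N P x.sg.get (x.lv.get i) A U)).length ≤ Em ∧
    (∀ e ∈ sEdges (hEdges N P x.sg.get (x.lv.get i) A U), 1 ≤ e.2.2 ∧ e.1 < Em ∧ e.2.1 < Em) ∧
    tot (sEdges (hEdges N P x.sg.get (x.lv.get i) A U)) ≤ Um := by
  have hb := h.lev i le_rfl
  obtain ⟨o1, -, -, o4, o5, o6, -⟩ :=
    hEdges_ok hP.net hb ndA memA ndU memU fun e he => (h.sgb e he).2.2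
  have hA : ∀ a ∈ A, a < Em := fun a ha =>
    (hb.inA_lt hP.net ((memA a).1 ha)).trans_le ((Nat.le_add_right _ _).trans hP.em)
  exact ⟨o4.trans (o1.trans hP.em), fun e he => ⟨(o5 e he).1, hA _ (o5 e he).2.1,
    hA _ (o5 e he).2.2⟩, o6.trans (Nat.cast_le.2 (hP.um' (Nat.le_succ_of_le hi)))⟩

theorem reb_price {d s bb T w z L : ℕ} (hd : 1 ≤ d) (hs : 1 ≤ s) (hb : 1 ≤ bb) (hw : 1 ≤ w)
    (hz : z ≤ 2 * d * w) (hL : L ≤ d) :
    12 * d * w + (z + (T * z + (20 * s * bb * z + 2 * d * z + L))) ≤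
      100 * d ^ 2 * s * bb * (T + 1) * w := by
  obtain ⟨K, hK⟩ : ∃ K, K = d ^ 2 * s * bb * w := ⟨_, rfl⟩
  have h0 : 1 ≤ s * bb := Nat.mul_pos hs hb
  have h1 : d * d * w ≤ K := by
    rw [hK, show d ^ 2 * s * bb * w = d * d * w * (s * bb) by ring]
    exact Nat.le_mul_of_pos_right _ h0
  have h2 : s * bb * (d * w) ≤ K := by
    rw [hK, show d ^ 2 * s * bb * w = s * bb * (d * w) * d by ring]
    exact Nat.le_mul_of_pos_right _ hd
  have h3 : d * w ≤ K := (Nat.le_mul_of_pos_left _ h0).trans h2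
  have h4 : d ≤ K := (Nat.le_mul_of_pos_right _ hw).trans h3
  have h5 := Nat.mul_le_mul_left (s * bb) hz
  have h6 := Nat.mul_le_mul_left d hz
  have h7 : T * z ≤ T * (2 * K) := Nat.mul_le_mul_left _ (by nlinarith)
  rw [show 100 * d ^ 2 * s * bb * (T + 1) * w = 100 * K * (T + 1) by rw [hK]; ring]
  nlinarith [Nat.zero_le (T * K)]

theorem Tri_rebuild (hP : PmOK B N P C F gm lamM Em Um) (hs : SampOK B sa P.Ls Ts Em Um q Osc)
    (hl : lam ≤ lamM) {i : ℕ} (hi : i ≤ P.L) (h : Pre N P gm C lam x i) :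
    Tri ⟨B, true⟩ (rebuild sa N P x i) fun x' t =>
      Inv N P gm C lam x' ∧ x'.sg = x.sg ∧ Ys N P x' = Ys N P x ∧
      (∀ l ≤ i, x'.lv.get l = x.lv.get l) ∧
      (∀ l, i < l → l ≤ P.L + 1 → x'.lv.get l = x'.top P) ∧ (x'.top P).U = [] ∧
      t ≤ cReb P Ts * ((x.lv.get i).U.length + 1) := by
  rw [rebuild_eq']
  refine (Tri_front (c := ⟨B, true⟩) hP hl hi h).bind ?_
  rintro ⟨U, A, H⟩ t1 ⟨ndU, memU, ndA, memA, hH, h1, h2⟩
  dsimp only at ndU memU ndA memA hH h1 ⊢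
  subst hH
  obtain ⟨s1, s2, s3⟩ := samp_pre hP hi h ndA memA ndU memU
  have o4 := (hEdges_ok hP.net (h.lev i le_rfl) ndA memA ndU memU
    fun e he => (h.sgb e he).2.2).2.2.2.1
  have hH : (hEdges N P x.sg.get (x.lv.get i) A U).length = A.length + U.length := by
    simp [hEdges]
  simp only [Tri_bind, Tri_pay]
  refine (hs.tri _ s1 s2 s3).mono ?_
  rintro cs t2 ⟨len, her, clo, h3⟩
  refine (Tri_postP (c := ⟨B, true⟩) hP hl hi h ndA memA ndU memU len her clo).mono ?_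
  rintro x' t3 ⟨a1, a2, a3, a4, a5, a6, a7⟩
  refine ⟨a2, a3, a4, a5, a6, a1.U, le_trans ?_ (reb_price (d := P.Dm + 1) (s := P.Ls + 1)
    (bb := P.bb + 1) (T := Ts) (L := P.L + 2) (by omega) (by omega) (by omega) (by omega) h1 ?_)⟩
  · rw [hH] at o4 ⊢
    have h4 : Ts * ((sEdges (hEdges N P x.sg.get (x.lv.get i) A U)).length + 1) ≤
        Ts * (A.length + U.length + 1) := Nat.mul_le_mul_left _ (by omega)
    have h5 : (2 * P.Dm + 2) * A.length ≤ 2 * (P.Dm + 1) * (A.length + U.length + 1) :=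
      Nat.mul_le_mul (by omega) (by omega)
    omega
  · have := hP.dm
    have := Nat.le_mul_of_pos_right (P.L + 1) (show 0 < P.Ls + 1 by omega)
    omega

theorem wp_rebuild (hP : PmOK B N P C F gm lamM Em Um) (hs : SampOK B sa P.Ls Ts Em Um q Osc)
    (hq : 1 ≤ q) (hl : lam ≤ lamM) {i : ℕ} (hi : i ≤ P.L) (h : Pre N P gm C lam x i)
    {ψ : ℕ → ℝ} (hψ : ∀ a b, |ψ a - ψ b| ≤ Osc) :
    wp B (rebuild sa N P x i) (fun x' _ => (x'.top P).nm N.n ψ) 0 ≤
      q * ((x.lv.get i).nm N.n ψ + N.nu (gR P x) ψ) + 1 := by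
  rw [rebuild_eq', wp_bind]
  refine wp_le_const_of_Tri (Tri_front (c := ⟨B, true⟩) hP hl hi h) ?_ _
  rintro ⟨U, A, H⟩ t1 ⟨ndU, memU, ndA, memA, hH, -, -⟩
  dsimp only at ndU memU ndA memA hH ⊢
  subst hH
  obtain ⟨s1, s2, s3⟩ := samp_pre hP hi h ndA memA ndU memU
  have hb := h.lev i le_rfl
  have hg : ∀ e < N.m, P.g (x.sg.get e) ≤ gm := fun e he => (h.sgb e he).2.2
  have o7 := (hEdges_ok hP.net hb ndA memA ndU memU hg).2.2.2.2.2.2 ψ
  have h0 : 0 ≤ (x.lv.get i).rest N.n A ψ := sum_nonneg fun a _ => by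
    split_ifs <;> positivity
  have h1 := hs.wp _ s1 s2 s3 ψ hψ
  simp only [wp_bind, wp_pay]
  refine (wp_le_of_Tri (hs.tri _ s1 s2 s3) (G := fun cs _ => (x.lv.get i).rest N.n A ψ +
    TN Osc ψ (hier cs) (sEdges (hEdges N P x.sg.get (x.lv.get i) A U))) ?_ 0
    ((x.lv.get i).rest N.n A ψ + 0)).trans ?_
  · rintro cs t2 ⟨len, her, clo, -⟩
    exact wp_le_const_of_Tri (Tri_postP (c := ⟨B, true⟩) hP hl hi h ndA memA ndU memU len her clo)
      (fun x' _ hx => hx.1.nm_le hP.net hb hg hψ) _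
  · rw [wp_const_add]
    have h2 : N.nu (gR P x) ψ = N.nu (fun e => P.g (x.sg.get e)) ψ := rfl
    have h3 := mul_le_mul_of_nonneg_left o7 (zero_le_one.trans hq)
    rw [h2]
    nlinarith

end Vale.Agent.P305F
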