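import Vale.Agent.P305F.Spec

/-!
# Flow: weighted trees and sampling
-/

namespace Vale.Agent.P305F

open Vale.Agent.P305E Vale.Agent.P305S Finset

variable {m : ℕ} {t : WT}

@[simp] theorem ww_leaf (p : ℕ × ℕ) : ww (.leaf p) = p.1 := rfl
@[simp] theorem ww_node (w : ℕ) (l r : WT) : ww (.node w l r) = w := rfl

theorem sum_mass_le (h : WOK m t) (s : Finset ℕ) : ∑ e ∈ s, mass e t ≤ ww t := by
  induction t with
  | leaf p =>
    simp only [mass, sum_ite_eq, ww_leaf]
    split_ifs <;> omega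
  | node w l r ihl ihr =>
    have := ihl h.2.1
    have := ihr h.2.2
    simp only [mass, sum_add_distrib, ww_node, h.1]
    omega

theorem desc_lt (h : WOK m t) {x : ℕ} (hx : x < ww t) : desc t x < m := by
  induction t generalizing x with
  | leaf p =>
    rcases h with h | h
    · simp only [ww_leaf] at hx
      omega
    · exact h
  | node w l r ihl ihr =>
    rw [ww_node, h.1] at hx
    unfold desc
    split_ifs with hl
    · exact ihl h.2.1 hl
    · exact ihr h.2.2 (by omega)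

theorem card_desc (h : WOK m t) (e : ℕ) :
    ((range (ww t)).filter fun x => desc t x = e).card = mass e t := by
  rw [card_filter]
  induction t with
  | leaf p => by_cases he : p.2 = e <;> simp [desc, mass, he]
  | node w l r ihl ihr =>
    rw [ww_node, h.1, sum_range_add, mass, ← ihl h.2.1, ← ihr h.2.2]
    congr 1
    · exact sum_congr rfl fun x hx => by simp only [desc, if_pos (mem_range.1 hx)]
    · exact sum_congr rfl fun x _ => by simp [desc]

@[fun_prop] theorem impl_descP : Impl fun p : ℕ × WT × ℕ => descP p.1 p.2.1 p.2.2 := by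
  have h : Impl fun p : ℕ × WT × ℕ => loopM (fun s : WT × ℕ => caseT s.1
      (fun q => pure (.inr q.2)) fun _ l r => if s.2 < ww l then pure (.inl (l, s.2))
        else pure (.inl (r, s.2 - ww l))) (dep p.2.1 + 1) p.2 := by fun_prop
  refine h.of_det 2 fun B ⟨wd, t, x⟩ _ _ hR hd _ => ?_
  clear hR
  refine Tri.loopM (fun s k => desc s.1 s.2 = desc t x ∧ k + dep s.1 ≤ wd) (fun s => dep s.1) ?_
    ⟨rfl, by simpa using hd⟩ (Nat.lt_succ_self _)
  rintro ⟨u, z⟩ k ⟨h1, h2⟩
  cases u with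
  | leaf p =>
    simp only [caseT_leaf, Tri_pure, Sum.elim_inr]
    exact ⟨h1, lg_slack _ 1 _ _ (by omega)⟩
  | node w l r =>
    simp only [caseT_node, Tri_ite, Tri_pure, Sum.elim_inl, desc, dep] at h1 h2 ⊢
    exact ⟨fun h => ⟨⟨by rwa [if_pos h] at h1, by omega⟩, by omega⟩,
      fun h => ⟨⟨by rwa [if_neg h] at h1, by omega⟩, by omega⟩⟩

@[fun_prop] theorem impl_pairP : Impl pairP := by
  unfold pairP
  fun_prop

@[fun_prop] theorem impl_mkP : Impl fun p : ℕ × List WT => mkP p.1 p.2 := by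
  unfold mkP
  fun_prop

@[fun_prop] theorem impl_smpP : Impl fun p : ℕ × ℕ × WT => smpP p.1 p.2.1 p.2.2 := by
  unfold smpP
  fun_prop

@[fun_prop] theorem impl_smpsP :
    Impl fun p : ℕ × ℕ × ℕ × WT => smpsP p.1 p.2.1 p.2.2.1 p.2.2.2 := by
  unfold smpsP
  fun_prop

theorem Tri_pairP {c : Cx} {d : ℕ} {l : List WT} (hl : ∀ t ∈ l, WOK m t ∧ dep t ≤ d)
    (hB : (l.map ww).sum ≤ c.B) :
    Tri c (pairP l) fun l' k => (∀ t ∈ l', WOK m t ∧ dep t ≤ d + 1) ∧
      (l'.map ww).sum = (l.map ww).sum ∧ (∀ e, (l'.map (mass e)).sum = (l.map (mass e)).sum) ∧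
      2 * l'.length ≤ l.length + 1 ∧ l'.length ≤ l.length ∧ k = l.length := by
  refine (Tri.foldM (fun pre s k => (∀ t ∈ s.1.toList, WOK m t ∧ dep t ≤ d) ∧
    (∀ t ∈ s.2, WOK m t ∧ dep t ≤ d + 1) ∧
    (s.1.toList.map ww).sum + (s.2.map ww).sum = (pre.map ww).sum ∧
    (∀ e, (s.1.toList.map (mass e)).sum + (s.2.map (mass e)).sum = (pre.map (mass e)).sum) ∧
    s.1.toList.length + 2 * s.2.length = pre.length ∧ k = pre.length) (by simp) ?_).bind ?_
  · rintro pre x rest ⟨o, acc⟩ _ e ⟨h1, h2, h3, h4, h5, rfl⟩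
    have hx := hl x (by simp [e])
    cases o with
    | none =>
      simp only [Option.elim_none, Tri_pure, Option.toList_none, Option.toList_some, List.map_nil,
        List.sum_nil, List.map_append, List.sum_append, List.map_cons, List.sum_cons,
        List.length_append, List.length_cons, List.length_nil, List.mem_singleton] at *
      exact ⟨fun t ht => ht ▸ hx, h2, by omega, fun e => by have := h4 e; omega, by omega, trivial⟩
    | some a =>
      have ha := h1 a (by simp)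
      rw [e] at hB
      simp only [Option.elim_some, Tri_bind, Tri_num, Tri_pure, Option.toList_none,
        Option.toList_some, List.map_nil, List.sum_nil, List.map_append, List.sum_append,
        List.map_cons, List.sum_cons, List.length_append, List.length_cons, List.length_nil,
        List.mem_cons, ww_node, mass] at *
      refine ⟨by omega, by simp, ?_, by omega, fun e => by have := h4 e; omega, by omega, trivial⟩
      rintro t (rfl | ht)
      · exact ⟨⟨rfl, ha.1, hx.1⟩, by have := ha.2; have := hx.2; simp only [dep]; omega⟩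
      · exact h2 t ht
  · rintro ⟨o, acc⟩ _ ⟨h1, h2, h3, h4, h5, rfl⟩
    cases o with
    | none =>
      simp only [Option.elim_none, Tri_pure, Option.toList_none, List.map_nil, List.sum_nil,
        List.length_nil, zero_add] at *
      exact ⟨h2, h3, h4, by omega, by omega, rfl⟩
    | some a =>
      have ha := h1 a (by simp)
      simp only [Option.elim_some, Tri_pure, Option.toList_some, List.map_nil, List.sum_nil,
        List.map_cons, List.sum_cons, List.length_cons, List.length_nil, add_zero,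
        List.mem_cons] at *
      refine ⟨?_, h3, h4, by omega, by omega, trivial⟩
      rintro t (rfl | ht)
      · exact ⟨ha.1, by have := ha.2; omega⟩
      · exact h2 t ht

theorem Tri_mkP {c : Cx} {d bb : ℕ} {l : List WT} (hl : ∀ t ∈ l, WOK m t ∧ dep t ≤ d)
    (hlen : l.length ≤ 2 ^ bb) (hB : (l.map ww).sum ≤ c.B) :
    Tri c (mkP bb l) fun t k => Coll m (d + bb) l t ∧ k ≤ bb * (l.length + 1) := by
  refine (Tri.iterM (fun j l' k => (∀ t ∈ l', WOK m t ∧ dep t ≤ d + j) ∧
    (l'.map ww).sum = (l.map ww).sum ∧ (∀ e, (l'.map (mass e)).sum = (l.map (mass e)).sum) ∧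
    l'.length ≤ 2 ^ (bb - j) ∧ l'.length ≤ l.length ∧ k ≤ j * (l.length + 1))
    ⟨hl, rfl, fun _ => rfl, hlen, le_rfl, Nat.zero_le _⟩ ?_).bind ?_
  · rintro j l' k hj ⟨h1, h2, h3, h4, h5, h6⟩
    refine (Tri_pairP h1 (h2 ▸ hB)).mono ?_
    rintro l'' _ ⟨g1, g2, g3, g4, g5, rfl⟩
    have e : 2 ^ (bb - j) = 2 * 2 ^ (bb - (j + 1)) := by
      rw [← pow_succ']
      congr 1
      omega
    exact ⟨g1, g2.trans h2, fun e => (g3 e).trans (h3 e), by omega, by omega, by nlinarith⟩
  · rintro l' k ⟨h1, h2, h3, h4, -, h6⟩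
    rw [Nat.sub_self, pow_zero] at h4
    refine ⟨?_, h6⟩
    rcases l' with _ | ⟨a, _ | ⟨b, l'⟩⟩
    · exact ⟨Or.inl rfl, Nat.zero_le _, h2, fun e => by rw [← h3 e]; simp [mass]⟩
    · exact ⟨(h1 a (by simp)).1, (h1 a (by simp)).2, by simpa using h2, fun e => by simpa using h3 e⟩
    · simp at h4

theorem Tri_smpP {B rb wd : ℕ} (h : WOK m t) (hd : dep t ≤ wd) (hw : 0 < ww t)
    (hB : 2 ^ rb ≤ B) : Tri ⟨B, true⟩ (smpP rb wd t) fun e k => e < m ∧ k = 2 * rb + wd := by
  refine (Tri_randBits hB).bind ?_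
  rintro r _ ⟨-, rfl⟩
  simp only [descP, Tri_spec]
  exact ⟨hd, Nat.zero_le _, desc_lt h (Nat.mod_lt _ hw), trivial⟩

theorem Tri_smpsP {B Ns rb wd : ℕ} (h : WOK m t) (hd : dep t ≤ wd) (hw : 0 < ww t)
    (hB : 2 ^ rb ≤ B) : Tri ⟨B, true⟩ (smpsP Ns rb wd t) fun l k =>
      l.length = Ns ∧ (∀ e ∈ l, e < m) ∧ k ≤ Ns * (2 * rb + wd + 1) := by
  refine Tri.iterM (fun j (l : List ℕ) k => l.length = j ∧ (∀ e ∈ l, e < m) ∧
    k ≤ j * (2 * rb + wd + 1))
    (by simp) ?_
  rintro _ l k - ⟨rfl, h2, h3⟩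
  refine (Tri_smpP h hd hw hB).bind ?_
  rintro e _ ⟨he, rfl⟩
  simp only [Tri_pure, List.length_cons, List.forall_mem_cons]
  exact ⟨trivial, ⟨he, h2⟩, by nlinarith⟩

theorem sum_mod_ge (g : ℕ → ℕ) {w n : ℕ} (hw : 0 < w) :
    n / w * ∑ x ∈ range w, g x ≤ ∑ r ∈ range n, g (r % w) := by
  have h1 : ∀ q, ∑ r ∈ range (q * w), g (r % w) = q * ∑ x ∈ range w, g x := by
    intro q
    induction q with
    | zero => simp
    | succ q ih =>
      rw [add_mul, one_mul, sum_range_add, ih, add_mul, one_mul]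
      congr 1
      exact sum_congr rfl fun x hx => by
        rw [Nat.mul_add_mod_self_right, Nat.mod_eq_of_lt (mem_range.1 hx)]
  have := hw
  rw [← h1]
  exact sum_le_sum_of_subset (range_subset_range.2 (Nat.div_mul_le_self _ _))

theorem wp_smpP {B rb wd : ℕ} (h : WOK m t) (hd : dep t ≤ wd) (hw : 0 < ww t)
    (hB : 2 ^ rb ≤ B) (hr : ww t ≤ 2 ^ rb) (e : ℕ) :
    wp B (smpP rb wd t) (fun x _ => if x = e then 0 else 1) 0 ≤
      Real.exp (-((mass e t : ℝ) / (2 * ww t))) := by
  have h1 := sum_mod_ge (fun x => if desc t x = e then 1 else 0) (n := 2 ^ rb) hw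
  rw [← card_filter, card_desc h] at h1
  have h2 : 2 ^ rb ≤ 2 * ww t * (2 ^ rb / ww t) := by
    have a1 := Nat.lt_mul_div_succ (2 ^ rb) hw
    have a2 : 1 ≤ 2 ^ rb / ww t := Nat.div_pos hr hw
    nlinarith
  have h3 : 2 ^ rb * mass e t ≤
      2 * ww t * ∑ r ∈ range (2 ^ rb), if desc t (r % ww t) = e then 1 else 0 := by
    calc _ ≤ 2 * ww t * (2 ^ rb / ww t) * mass e t := Nat.mul_le_mul_right _ h2
      _ = 2 * ww t * (2 ^ rb / ww t * mass e t) := by ring
      _ ≤ _ := Nat.mul_le_mul_left _ h1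
  have h4 : (2 : ℝ) ^ rb * mass e t ≤
      2 * ww t * ∑ r ∈ range (2 ^ rb), if desc t (r % ww t) = e then (1 : ℝ) else 0 := by
    exact_mod_cast h3
  have h5 : ∑ r ∈ range (2 ^ rb), (if desc t (r % ww t) = e then (0 : ℝ) else 1) =
      2 ^ rb - ∑ r ∈ range (2 ^ rb), if desc t (r % ww t) = e then (1 : ℝ) else 0 := by
    rw [eq_sub_iff_add_eq, ← sum_add_distrib,
      sum_congr rfl (g := fun _ => (1 : ℝ)) fun r _ => by split_ifs <;> simp]
    simp
  have hw' : (0 : ℝ) < 2 * ww t := by positivity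
  have hp : (0 : ℝ) < 2 ^ rb := by positivity
  simp only [smpP, wp_bind, wp_randBits hB, descP, wp_spec_pos hd (Nat.zero_le _), h5]
  refine le_trans ?_ (Real.add_one_le_exp _)
  rw [div_le_iff₀ hp]
  have h6 : (mass e t : ℝ) / (2 * ww t) * 2 ^ rb ≤
      ∑ r ∈ range (2 ^ rb), if desc t (r % ww t) = e then (1 : ℝ) else 0 := by
    rw [div_mul_eq_mul_div, div_le_iff₀ hw']
    linarith
  linarith

theorem wp_smpsP {B Ns rb wd : ℕ} (h : WOK m t) (hd : dep t ≤ wd) (hw : 0 < ww t)
    (hB : 2 ^ rb ≤ B) (hr : ww t ≤ 2 ^ rb) (e : ℕ) :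
    wp B (smpsP Ns rb wd t) (fun l _ => if e ∈ l then 0 else 1) 0 ≤
      Real.exp (-(Ns * (mass e t : ℝ) / (2 * ww t))) := by
  have h1 := wp_smpP h hd hw hB hr e
  obtain ⟨x, hx⟩ : ∃ x, x = Real.exp (-((mass e t : ℝ) / (2 * ww t))) := ⟨_, rfl⟩
  have hx0 : 0 ≤ x := hx ▸ (Real.exp_pos _).le
  have e1 : Real.exp (-(Ns * (mass e t : ℝ) / (2 * ww t))) = x ^ Ns := by
    rw [hx, ← Real.exp_nat_mul]
    congr 1
    ring
  rw [e1]
  rw [← hx] at h1
  clear e1
  unfold smpsP
  induction Ns with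
  | zero => simp [iterM_zero]
  | succ k ih =>
    rw [iterM_succ, wp_bind, pow_succ]
    refine le_trans (wp_mono (G := fun l _ => (if e ∈ l then 0 else 1) * x) (q := 0 * x)
      (fun l _ => ?_) (by simp)) ?_
    · simp only [wp_bind, wp_pure, wp_tick, List.mem_cons]
      by_cases hl : e ∈ l
      · simp [hl]
      · simp only [hl, or_false, if_false, one_mul]
        exact le_trans (le_of_eq (wp_congr fun y _ => by simp only [eq_comm])) h1
    · rw [wp_mul_right]
      exact mul_le_mul_of_nonneg_right ih hx0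

end Vale.Agent.P305F
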