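import Vale.Agent.P305F.Level
import Vale.Agent.P305F.Ipm
import Vale.Agent.P305F.WT

/-!
# Flow: the rebuild, part 1 (code, the potential of a state, the virtual level)
-/

namespace Vale.Agent.P305F

open Vale.Agent.P305E Vale.Agent.P305S Finset

variable {B : ℕ} {N : Net} {P : Pm} {C F gm lam lamM Em Um Ts : ℕ} {q Osc : ℝ}
  {sa : List Edge → M (List (Arr ℕ))} {x : St}

@[fun_prop] theorem impl_yvalP : Impl fun p : ℕ × Arr ℕ × ℕ × Arr ℤ × ℕ =>
    yvalP p.1 p.2.1 p.2.2.1 p.2.2.2.1 p.2.2.2.2 := by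
  unfold yvalP
  fun_prop

@[fun_prop] theorem impl_dedupP : Impl dedupP := by
  unfold dedupP
  fun_prop

@[fun_prop] theorem impl_ancP : Impl fun p : Net × Pm × Lev × List ℕ =>
    ancP p.1 p.2.1 p.2.2.1 p.2.2.2 := by
  unfold ancP
  fun_prop

@[fun_prop] theorem impl_hEdgesP : Impl fun p : Net × Pm × Arr ℕ × Lev × List ℕ × List ℕ =>
    hEdgesP p.1 p.2.1 p.2.2.1 p.2.2.2.1 p.2.2.2.2.1 p.2.2.2.2.2 := by
  unfold hEdgesP
  fun_prop

@[fun_prop] theorem impl_entsP : Impl fun p : List (Arr ℕ) × ℕ × List HEdge =>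
    entsP p.1 p.2.1 p.2.2 := by
  unfold entsP
  fun_prop

@[fun_prop] theorem impl_buildP :
    Impl fun p : Pm × Arr ℕ × Lev × List ℕ × List ℕ × List HEdge × List (Arr ℕ) =>
      buildP p.1 p.2.1 p.2.2.1 p.2.2.2.1 p.2.2.2.2.1 p.2.2.2.2.2.1 p.2.2.2.2.2.2 := by
  unfold buildP
  fun_prop

@[fun_prop] theorem impl_offP : Impl fun p : Pm × St × Lev × List ℕ =>
    offP p.1 p.2.1 p.2.2.1 p.2.2.2 := by
  unfold offP
  fun_prop

@[fun_prop] theorem impl_rebuild {α : Type} [Rep α] {sa : α → List Edge → M (List (Arr ℕ))}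
    {N : α → Net} {P : α → Pm} {x : α → St} {i : α → ℕ}
    (hs : Impl fun p : α × List Edge => sa p.1 p.2) (h1 : Pure N) (h2 : Pure P) (h3 : Pure x)
    (h4 : Pure i) : Impl fun a => rebuild (sa a) (N a) (P a) (x a) (i a) := by
  unfold rebuild
  fun_prop

@[fun_prop] theorem impl_virtP : Impl fun p : Net × ℕ => virtP p.1 p.2 := by
  unfold virtP
  fun_prop

/-- The potential of a state is determined by any potential that fits the offsets. -/
theorem Ys_eq {D : ℕ} (hN : N.OK C F) (h : IsTree N.n (x.top P).rt (x.top P).par.get D)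
    (hD : D ≤ P.Dm) {Y : ℕ → ℤ} (hR : Rp N.n (x.top P).rt (x.top P).par.get x.off.get Y) :
    Ys N P x = fun v => if v < N.n then Y v - Y 0 else 0 := by
  funext v
  unfold Ys
  split_ifs with hv
  · rw [h.yof_eq hD hR hv, h.yof_eq hD hR hN.npos]
    ring
  · rfl

theorem rp_Ys {D : ℕ} (hN : N.OK C F) (h : IsTree N.n (x.top P).rt (x.top P).par.get D)
    (hD : D ≤ P.Dm) : Rp N.n (x.top P).rt (x.top P).par.get x.off.get (Ys N P x) := by
  intro v hv hne
  have _ := hN.npos
  rw [h.rp_yof hD x.off.get v hv hne]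
  unfold Ys
  rw [if_pos hv, if_pos (h.par_lt v hv)]
  ring

theorem Ys_zero : Ys N P x 0 = 0 := by
  unfold Ys
  split_ifs <;> simp

theorem Ys_abs_le (hN : N.OK C F) (hD : 0 < P.D) (h : N.Pos (yR N P x)) (u : ℕ) :
    (Ys N P x u).natAbs ≤ C * P.D := by
  by_cases hu : u < N.n
  · have h1 := Net.pot_le hN h.feas hu
    have h2 : (0 : ℝ) < P.D := by exact_mod_cast hD
    simp only [yR, Ys_zero, Int.cast_zero, zero_div, sub_zero] at h1
    rw [abs_div, abs_of_pos h2, div_le_iff₀ h2] at h1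
    have h3 : |Ys N P x u| ≤ ((C * P.D : ℕ) : ℤ) := by exact_mod_cast h1
    have h4 := abs_le.1 h3
    omega
  · simp [Ys, hu]

theorem Ys_le (hN : N.OK C F) (hD : 0 < P.D) (h : N.Pos (yR N P x)) (u w : ℕ) :
    (Ys N P x u - Ys N P x w).natAbs ≤ 2 * C * P.D := by
  have h1 := Ys_abs_le hN hD h u
  have h2 := Ys_abs_le hN hD h w
  rw [mul_assoc]
  omega

theorem Inv.pre (hP : PmOK B N P C F gm lamM Em Um) (h : Inv N P gm C lam x) {i : ℕ}
    (hi : i ≤ P.L + 1) : Pre N P gm C lam x i :=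
  ⟨fun l hl => h.lev l (hl.trans hi), fun l l' h1 h2 => h.ref l l' h1 (h2.trans hi),
    (h.lev _ le_rfl).tree.mono hP.dm, (h.ref i _ hi le_rfl).same, (h.ref i _ hi le_rfl).rt,
    h.u0, h.sgb, h.pos⟩

/-- A loop that writes the value `g a` into the cell `a`, for all `a` in a list. -/
theorem Tri_setAll {β : Type} {c : Cx} {f : ℕ → M β} {p : ℕ → β → Prop} {T : ℕ → ℕ}
    {l : List ℕ} (h : ∀ a ∈ l, Tri c (f a) fun z t => p a z ∧ t ≤ T a) (s : Arr β) :
    Tri c (foldM (fun (arr : Arr β) a => f a >>= fun z => pure (arr.set a z)) s l) fun arr t =>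
      (∀ a ∈ l, p a (arr.get a)) ∧ (∀ a, a ∉ l → arr.get a = s.get a) ∧
      t ≤ (l.map T).sum + l.length := by
  refine Tri.foldM (fun pre (arr : Arr β) t => (∀ a ∈ pre, p a (arr.get a)) ∧
    (∀ a, a ∉ pre → arr.get a = s.get a) ∧ t ≤ (pre.map T).sum + pre.length) (by simp) ?_
  rintro pre a rest arr t e ⟨h1, h2, h3⟩
  refine (h a (by simp [e])).bind fun z t' hz => ?_
  simp only [Tri_pure, List.mem_append, List.mem_singleton, List.map_append, List.sum_append,
    List.length_append, List.map_singleton, List.sum_singleton, List.length_singleton, not_or]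
  refine ⟨fun a' ha' => ?_, fun a' ha' => ?_, by have := hz.2; omega⟩
  · by_cases e' : a' = a
    · rw [e', Arr.get_set_self]
      exact hz.1
    · rw [Arr.get_set_ne _ e']
      exact h1 a' (ha'.resolve_right e')
  · rw [Arr.get_set_ne _ ha'.2]
    exact h2 a' ha'.1

theorem Tri_virtP {c : Cx} (hN : N.OK C F) (hB : lam * F ≤ c.B) :
    Tri c (virtP N lam) fun v t => Virt N lam v ∧ t = 2 * N.m := by
  simp only [virtP, Tri_bind, Tri_rangeP, Tri_pure]
  refine (Tri.foldM (fun pre (arr : Arr ℕ) t => (∀ e ∈ pre, arr.get e = lam * N.f0.get e) ∧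
    t = pre.length) (by simp) ?_).mono ?_
  · rintro pre e rest arr t he ⟨h1, rfl⟩
    have h2 : e < N.m := List.mem_range.1 (by simp [he])
    have h3 : N.f0.get e ≤ F :=
      (single_le_sum (f := N.f0.get) (fun _ _ => Nat.zero_le _) (mem_range.2 h2)).trans hN.f_le
    simp only [Tri_bind, Tri_num, Tri_pure, List.mem_append, List.mem_singleton,
      List.length_append, List.length_singleton]
    refine ⟨(Nat.mul_le_mul_left _ h3).trans hB, fun e' he' => ?_, trivial⟩
    by_cases e1 : e' = e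
    · rw [e1, Arr.get_set_self]
    · rw [Arr.get_set_ne _ e1]
      exact h1 e' (he'.resolve_right e1)
  · rintro arr t ⟨h1, rfl⟩
    exact ⟨⟨rfl, rfl, rfl, rfl, fun e he => h1 e (List.mem_range.2 he), rfl, rfl⟩, by
      simp [two_mul]⟩

end Vale.Agent.P305F
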