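import Vale.Agent.P305F.Reb1

/-!
# Flow: the rebuild, part 2 (the construction of the new level)
-/

namespace Vale.Agent.P305F

open Vale.Agent.P305E Vale.Agent.P305S Finset

variable {B : ℕ} {N : Net} {P : Pm} {C F gm lam lamM Em Um Ts : ℕ}

theorem foldl_set_get {β : Type} (g : ℕ → β) (l : List ℕ) (s : Arr β) (a : ℕ) :
    (l.foldl (fun (arr : Arr β) a => arr.set a (g a)) s).get a =
      if a ∈ l then g a else s.get a := by
  induction l generalizing s with
  | nil => simp
  | cons x l ih =>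
    rw [List.foldl_cons, ih, Arr.get_set]
    by_cases h1 : a ∈ l <;> by_cases h2 : a = x <;> simp [h1, h2]

theorem foldl_mset_get (g : ℕ → Option Key) (l : List ℕ) (s : MinArr) (a : ℕ) :
    (l.foldl (fun (arr : MinArr) a => arr.set a (g a)) s).get a =
      if a ∈ l then g a else s.get a := by
  induction l generalizing s with
  | nil => simp
  | cons x l ih =>
    rw [List.foldl_cons, ih, MinArr.get_set]
    by_cases h1 : a ∈ l <;> by_cases h2 : a = x <;> simp [h1, h2]

theorem foldl_push_get {X β : Type} (g : ℕ × X → β) (l : List (ℕ × X)) (s : Arr (List β))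
    (a : ℕ) :
    (l.foldl (fun (arr : Arr (List β)) p => arr.set p.1 (g p :: arr.get p.1)) s).get a =
      ((l.filter fun p => p.1 = a).map g).reverse ++ s.get a := by
  induction l generalizing s with
  | nil => simp
  | cons x l ih =>
    rw [List.foldl_cons, ih, Arr.get_set]
    by_cases h : x.1 = a
    · simp [h]
    · simp [h, Ne.symm h]

theorem sum_filter_length_le {X : Type} {A : List ℕ} (hA : A.Nodup) (l : List (ℕ × X)) :
    (A.map fun a => (l.filter fun p => p.1 = a).length).sum ≤ l.length := by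
  induction l with
  | nil => simp
  | cons x l ih =>
    have h1 : (A.map fun a => ((x :: l).filter fun p => p.1 = a).length) =
        A.map fun a => (l.filter fun p => p.1 = a).length + if x.1 = a then 1 else 0 := by
      refine List.map_congr_left fun a _ => ?_
      by_cases h : x.1 = a <;> simp [h]
    have h2 : (A.map fun a => if x.1 = a then 1 else 0).sum ≤ 1 := by
      rw [← List.sum_toFinset _ hA, sum_ite_eq]
      split_ifs <;> omega
    rw [h1, List.sum_map_add, List.length_cons]
    omega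

theorem natAbs_sum_le {K : ℕ} {l : List ℤ} (h : ∀ z ∈ l, z.natAbs ≤ K) :
    l.sum.natAbs ≤ l.length * K := by
  induction l with
  | nil => simp
  | cons z l ih =>
    have h1 := h z (by simp)
    have h2 := ih fun y hy => h y (by simp [hy])
    rw [List.sum_cons, List.length_cons, Nat.succ_mul]
    omega

theorem Coll.reverse {m d : ℕ} {l : List WT} {t : WT} (h : Coll m d l.reverse t) : Coll m d l t :=
  ⟨h.ok, h.dp, by rw [h.w, List.map_reverse, List.sum_reverse], fun e => by
    rw [h.ms, List.map_reverse, List.sum_reverse]⟩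

theorem Tri_entsP {c : Cx} (cs : List (Arr ℕ)) (r : ℕ) (H : List HEdge) :
    Tri c (entsP cs r H) fun en t => en = ents (hier cs) r H ∧
      t ≤ (3 * cs.length + 5) * H.length + en.length := by
  refine (Tri.mapM' (P := fun h y => y = entsOf (hier cs) r h)
    (T := fun _ => 3 * cs.length + 2) fun h _ => ?_).bind ?_
  · have := sdA_length (cs := hier cs) (r := r) (x := h.1) (y := h.2.1)
    rw [hier, List.length_map] at this
    simp only [sdP, Tri_bind, Tri_pay, Tri_mapP]
    exact ⟨rfl, by unfold hier; omega⟩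
  · rintro ps t ⟨h1, h2⟩
    obtain rfl := eq_map_of_forall₂ h1
    simp only [List.map_const', List.sum_replicate, smul_eq_mul] at h2
    simp only [Tri_flattenP, List.length_map]
    exact ⟨rfl, by nlinarith⟩

/-- The loop that adds up the gradient flows. -/
theorem Tri_addAll {c : Cx} {X : Type} {K : ℕ} {l : List (ℕ × X × ℤ)} {s : Arr ℤ}
    (h : ∀ p ∈ l, s.get p.1 = 0 ∧ p.2.2.natAbs ≤ K) (hB : l.length * K ≤ c.B) :
    Tri c (foldM (fun (arr : Arr ℤ) (p : ℕ × X × ℤ) =>
      inum (arr.get p.1 + p.2.2) >>= fun z => pure (arr.set p.1 z)) s l) fun arr t =>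
      (∀ a, arr.get a = s.get a + ((l.filter fun p => p.1 = a).map fun p => p.2.2).sum) ∧
      t = l.length := by
  refine Tri.foldM (fun (pre : List (ℕ × X × ℤ)) (arr : Arr ℤ) t =>
    (∀ a, arr.get a = s.get a + ((pre.filter fun p => p.1 = a).map fun p => p.2.2).sum) ∧
    t = pre.length) (by simp) ?_
  rintro pre p rest arr t e ⟨h1, rfl⟩
  have hp := h p (by simp [e])
  have h2 := natAbs_sum_le (K := K) (l := (pre.filter fun p' => p'.1 = p.1).map fun p => p.2.2)
    (by
      simp only [List.mem_map, List.mem_filter]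
      rintro _ ⟨p', hp', rfl⟩
      exact (h p' (by simp [e, hp'.1])).2)
  have h3 : ((pre.filter fun p' => p'.1 = p.1).length + 1) * K ≤ l.length * K := by
    refine Nat.mul_le_mul_right _ ?_
    have := List.length_filter_le (fun p' : ℕ × X × ℤ => decide (p'.1 = p.1)) pre
    rw [e, List.length_append, List.length_cons]
    omega
  rw [List.length_map] at h2
  rw [Nat.succ_mul] at h3
  simp only [Tri_bind, Tri_inum, Tri_pure, List.length_append, List.length_singleton]
  refine ⟨?_, fun a => ?_, trivial⟩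
  · rw [h1, hp.1]
    have := hp.2
    omega
  · rw [Arr.get_set, List.filter_append, List.map_append, List.sum_append]
    by_cases ha : a = p.1
    · rw [if_pos ha, h1, ha]
      simp [add_assoc]
    · rw [if_neg ha, h1]
      simp [Ne.symm ha]

theorem PmOK.GB (hP : PmOK B N P C F gm lamM Em Um) (hl : lam ≤ lamM) :
    2 ^ P.bb * (N.m * gm + lam * F) ≤ B :=
  (Nat.mul_le_mul_left _ (Nat.add_le_add_left (Nat.mul_le_mul_right _ hl) _)).trans hP.gB

theorem PmOK.um' (hP : PmOK B N P C F gm lamM Em Um) {i : ℕ} (hi : i ≤ P.L + 1) :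
    (2 * P.Ls + 3) ^ i * (N.m * gm) ≤ Um :=
  (Nat.mul_le_mul_right _ (Nat.pow_le_pow_right (by omega) hi)).trans hP.um

theorem Tri_hEdgesP {c : Cx} {i : ℕ} {sg : Arr ℕ} {b : Lev} {A U : List ℕ}
    (hP : PmOK c.B N P C F gm lamM Em Um) (hl : lam ≤ lamM)
    (hb : LevOK N P gm lam sg.get i b) (ndA : A.Nodup) (memA : ∀ a, a ∈ A ↔ InA N b a)
    (ndU : U.Nodup) (memU : ∀ e, e ∈ U ↔ e ∈ b.U) (hg : ∀ e < N.m, P.g (sg.get e) ≤ gm) :
    Tri c (hEdgesP N P sg b A U) fun H t => H = hEdges N P sg.get b A U ∧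
      t ≤ 2 * (A.length + U.length) := by
  have h1 := (hEdges_ok hP.net hb ndA memA ndU memU hg).2.1
  simp only [hEdgesP, Tri_bind, Tri_mapP, Tri_appendP]
  refine (Tri.mapM' (P := fun e y => y = ((N.hd.get e, N.tl.get e, BT.leaf (P.g (sg.get e), e),
    (P.g (sg.get e) : ℤ) - b.snap.get e) : HEdge)) (T := fun _ => 0) fun e he => ?_).mono ?_
  · have h2 := (h1 _ (List.mem_append_right _ (List.mem_map_of_mem he))).2.2.2.2
    have h3 := hP.GB hl
    have h4 : 1 * (N.m * gm + lam * F) ≤ 2 ^ P.bb * (N.m * gm + lam * F) :=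
      Nat.mul_le_mul_right _ Nat.one_le_two_pow
    simp only [Tri_bind, Tri_num, Tri_inum, Tri_pure]
    exact ⟨(hg e (hb.ult e ((memU e).1 he))).trans hP.gmB, by simp only at h2; omega, trivial,
      le_rfl⟩
  · rintro l t ⟨h2, h3⟩
    obtain rfl := eq_map_of_forall₂ h2
    simp only [List.map_const', List.sum_replicate, smul_eq_mul] at h3
    exact ⟨rfl, by rw [List.length_map]; omega⟩

theorem Tri_buildP {c : Cx} {i : ℕ} {sg : Arr ℕ} {b : Lev} {A U : List ℕ} {cs : List (Arr ℕ)}
    (hP : PmOK c.B N P C F gm lamM Em Um) (hl : lam ≤ lamM) (hi : i ≤ P.L)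
    (hb : LevOK N P gm lam sg.get i b) (ndA : A.Nodup) (memA : ∀ a, a ∈ A ↔ InA N b a)
    (ndU : U.Nodup) (memU : ∀ e, e ∈ U ↔ e ∈ b.U) (hg : ∀ e < N.m, P.g (sg.get e) ≤ gm)
    (len : cs.length = P.Ls) (her : Her (hier cs))
    (clo : Clo (sEdges (hEdges N P sg.get b A U)) (hier cs)) :
    Tri c (buildP P sg b A U (hEdges N P sg.get b A U) cs) fun v t =>
      Built N P sg.get i b A U (hier cs) v ∧
      t ≤ 20 * (P.Ls + 1) * (P.bb + 1) * (A.length + U.length + 1) := by
  obtain ⟨o1, o2, o3, -, o5, -, -⟩ := hEdges_ok hP.net hb ndA memA ndU memU hg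
  have hlen : (hier cs).length = P.Ls := by rw [hier, List.length_map, len]
  have hH : (hEdges N P sg.get b A U).length = A.length + U.length := by simp [hEdges]
  have hc : ∀ c ∈ hier cs, ∀ x ∈ A, c x ∈ A := by
    intro c hc x hx
    rcases clo c hc x with e | e
    · rwa [e]
    · simp only [ends, mem_union, List.mem_toFinset, List.mem_map] at e
      rcases e with ⟨d, hd, e⟩ | ⟨d, hd, e⟩
      · exact e ▸ (o5 d hd).2.1
      · exact e ▸ (o5 d hd).2.2
  obtain ⟨e1, e2, e3⟩ := ents_mem (H := hEdges N P sg.get b A U) (r := labAll (hier cs) b.rt) hc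
    (her.fix b.rt) fun h hh => ⟨(o2 h hh).1, (o2 h hh).2.1⟩
  rw [hlen] at e1 e3
  generalize hen : ents (hier cs) (labAll (hier cs) b.rt) (hEdges N P sg.get b A U) = en at e1 e2 e3
  have e4 : en.length ≤ 2 ^ P.bb := e1.trans ((Nat.mul_le_mul_left _ o1).trans hP.bb)
  have e5 : (en.map fun p => ww p.2.1).sum ≤ c.B := by
    refine e3.trans (le_trans ?_ ((hP.um' (Nat.succ_le_succ hi)).trans (hP.rb1.trans hP.rb2)))
    rw [pow_succ', mul_assoc (2 * P.Ls + 3)]
    exact Nat.mul_le_mul (by omega) o3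
  simp only [buildP, labP, Tri_bind, Tri_pay, Tri_foldP, Tri_pure]
  refine (Tri_setAll (p := fun a z => z = parOf (hier cs) (labAll (hier cs) b.rt) a)
    (T := fun _ => P.Ls) (fun a _ => by simp [parP, len]) _).mono ?_
  rintro par t1 ⟨p1, p2, p3⟩
  refine (Tri_entsP _ _ _).mono ?_
  rintro _ t2 ⟨rfl, p4⟩
  rw [hen] at p4 ⊢
  refine (Tri_addAll (K := N.m * gm + lam * F) (fun p hp => ?_)
    ((Nat.mul_le_mul_right _ e4).trans (hP.GB hl))).mono ?_
  · obtain ⟨a1, -, h, hh, -, a2⟩ := e2 p hp
    exact ⟨by rw [foldl_set_get (fun _ => (0 : ℤ)), if_pos a1], a2 ▸ (o2 h hh).2.2.2.2⟩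
  rintro G _ ⟨p5, rfl⟩
  simp only [foldl_push_get (fun p : ℕ × WT × ℤ => p.2.1), Arr.get_const, List.append_nil]
  refine (Tri_setAll (p := fun a t => Coll N.m ((i + 1) * P.bb)
    ((en.filter fun p => p.1 = a).map fun p => p.2.1) t)
    (T := fun a => P.bb * (en.filter fun p => p.1 = a).length + P.bb) (fun a _ => ?_) _).mono ?_
  · refine (Tri_mkP (m := N.m) (d := i * P.bb) ?_ ?_ ?_).mono fun t k h =>
      ⟨Nat.succ_mul _ _ ▸ h.1.reverse, by simpa [mul_add] using h.2⟩
    · simp only [List.mem_reverse, List.mem_map, List.mem_filter]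
      rintro _ ⟨p, hp, rfl⟩
      obtain ⟨-, -, h, hh, a1, -⟩ := e2 p hp.1
      exact a1 ▸ ⟨(o2 h hh).2.2.1, (o2 h hh).2.2.2.1⟩
    · rw [List.length_reverse, List.length_map]
      exact (List.length_filter_le _ _).trans e4
    · rw [List.map_reverse, List.sum_reverse, List.map_map]
      exact ((List.filter_sublist.map _).sum_le_sum fun _ _ => Nat.zero_le _).trans e5
  rintro wt t3 ⟨p6, p7, p8⟩
  refine (Tri_setAll (p := fun e z => z = P.g (sg.get e)) (T := fun _ => 0)
    (fun e he => ?_) _).mono ?_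
  · simp only [Tri_num]
    exact ⟨(hg e (hb.ult e ((memU e).1 he))).trans hP.gmB, trivial, le_rfl⟩
  rintro snap t4 ⟨p9, p10, p11⟩
  refine ⟨⟨ndA, memA, ndU, memU, hlen, her, clo, rfl, fun a => ?_, fun a => ?_,
    fun a ha => hen ▸ p6 a ha, p7, fun e => ?_, fun a => ?_, rfl⟩, ?_⟩
  · split_ifs with ha
    exacts [p1 a ha, p2 a ha]
  · simp only [hen, p5, foldl_set_get (fun _ => (0 : ℤ))]
    split_ifs with ha
    · exact zero_add _
    · have h : (en.filter fun p => p.1 = a) = [] := List.filter_eq_nil_iff.2 fun p hp h =>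
        ha ((of_decide_eq_true h : p.1 = a) ▸ (e2 p hp).1)
      simp [h]
  · split_ifs with he
    exacts [p9 e he, p10 e he]
  · exact foldl_mset_get (fun a => if good P.kk (wt.get a) (G.get a) then some (0, a) else none)
      _ _ _
  · have h1 := sum_filter_length_le ndA en
    rw [List.sum_map_add, List.sum_map_mul_left] at p8
    simp only [List.map_const', List.sum_replicate, smul_eq_mul] at p3 p8 p11
    rw [len, hH] at p4
    rw [hH] at e1
    have h2 := Nat.mul_le_mul_left P.bb (h1.trans e1)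
    rw [len]
    generalize (A.map fun a => (en.filter fun p => p.1 = a).length).sum = z at *
    generalize A.length = a at *
    generalize U.length = u at *
    generalize P.Ls = s at *
    generalize P.bb = bb at *
    nlinarith [Nat.zero_le (s * bb * a), Nat.zero_le (s * bb * u), Nat.zero_le (s * bb),
      Nat.zero_le (s * a), Nat.zero_le (s * u), Nat.zero_le (bb * a), Nat.zero_le (bb * u)]

end Vale.Agent.P305F
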