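import Vale.Agent.P305F.Defs

/-!
# Flow, part 2: representations of the records
-/

namespace Vale.Agent.P305F

open Vale.Agent.P305E Vale.Agent.P305S

/-- Encoding. -/
def Pm.enc (s : Pm) : ℕ × ℕ × ℕ × ℕ × ℕ × ℕ × ℕ × ℕ × ℕ × ℕ × ℕ × ℕ × ℕ × ℕ × ℕ × ℕ :=
  (s.L, s.kb, s.Ls, s.bb, s.D, s.Lam, s.Dd, s.kk, s.hh, s.Ns, s.rb, s.Rb, s.J, s.lam0, s.Dm, s.wd)

instance : Rep Pm := Rep.comap Pm.enc

@[fun_prop] theorem Pm.p_L : Pure Pm.L :=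
  Pure.of_comap Pm.enc (h := fun p => p.1) (by fun_prop)
@[fun_prop] theorem Pm.p_kb : Pure Pm.kb :=
  Pure.of_comap Pm.enc (h := fun p => p.2.1) (by fun_prop)
@[fun_prop] theorem Pm.p_Ls : Pure Pm.Ls :=
  Pure.of_comap Pm.enc (h := fun p => p.2.2.1) (by fun_prop)
@[fun_prop] theorem Pm.p_bb : Pure Pm.bb :=
  Pure.of_comap Pm.enc (h := fun p => p.2.2.2.1) (by fun_prop)
@[fun_prop] theorem Pm.p_D : Pure Pm.D :=
  Pure.of_comap Pm.enc (h := fun p => p.2.2.2.2.1) (by fun_prop)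
@[fun_prop] theorem Pm.p_Lam : Pure Pm.Lam :=
  Pure.of_comap Pm.enc (h := fun p => p.2.2.2.2.2.1) (by fun_prop)
@[fun_prop] theorem Pm.p_Dd : Pure Pm.Dd :=
  Pure.of_comap Pm.enc (h := fun p => p.2.2.2.2.2.2.1) (by fun_prop)
@[fun_prop] theorem Pm.p_kk : Pure Pm.kk :=
  Pure.of_comap Pm.enc (h := fun p => p.2.2.2.2.2.2.2.1) (by fun_prop)
@[fun_prop] theorem Pm.p_hh : Pure Pm.hh :=
  Pure.of_comap Pm.enc (h := fun p => p.2.2.2.2.2.2.2.2.1) (by fun_prop)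
@[fun_prop] theorem Pm.p_Ns : Pure Pm.Ns :=
  Pure.of_comap Pm.enc (h := fun p => p.2.2.2.2.2.2.2.2.2.1) (by fun_prop)
@[fun_prop] theorem Pm.p_rb : Pure Pm.rb :=
  Pure.of_comap Pm.enc (h := fun p => p.2.2.2.2.2.2.2.2.2.2.1) (by fun_prop)
@[fun_prop] theorem Pm.p_Rb : Pure Pm.Rb :=
  Pure.of_comap Pm.enc (h := fun p => p.2.2.2.2.2.2.2.2.2.2.2.1) (by fun_prop)
@[fun_prop] theorem Pm.p_J : Pure Pm.J :=
  Pure.of_comap Pm.enc (h := fun p => p.2.2.2.2.2.2.2.2.2.2.2.2.1) (by fun_prop)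
@[fun_prop] theorem Pm.p_lam0 : Pure Pm.lam0 :=
  Pure.of_comap Pm.enc (h := fun p => p.2.2.2.2.2.2.2.2.2.2.2.2.2.1) (by fun_prop)
@[fun_prop] theorem Pm.p_Dm : Pure Pm.Dm :=
  Pure.of_comap Pm.enc (h := fun p => p.2.2.2.2.2.2.2.2.2.2.2.2.2.2.1) (by fun_prop)
@[fun_prop] theorem Pm.p_wd : Pure Pm.wd :=
  Pure.of_comap Pm.enc (h := fun p => p.2.2.2.2.2.2.2.2.2.2.2.2.2.2.2) (by fun_prop)
@[fun_prop] theorem Pm.p_mk {α : Type} [Rep α] {a0 : α → ℕ} {a1 : α → ℕ} {a2 : α → ℕ} {a3 : α → ℕ}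
    {a4 : α → ℕ} {a5 : α → ℕ} {a6 : α → ℕ} {a7 : α → ℕ} {a8 : α → ℕ} {a9 : α → ℕ} {a10 : α → ℕ}
    {a11 : α → ℕ} {a12 : α → ℕ} {a13 : α → ℕ} {a14 : α → ℕ} {a15 : α → ℕ}
    (h0 : Pure a0) (h1 : Pure a1) (h2 : Pure a2) (h3 : Pure a3) (h4 : Pure a4) (h5 : Pure a5) (h6
        : Pure a6) (h7 : Pure a7) (h8 : Pure a8) (h9 : Pure a9) (h10 : Pure a10) (h11 : Pure a11)
        (h12 : Pure a12) (h13 : Pure a13) (h14 : Pure a14) (h15 : Pure a15) :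
    Pure fun x => Pm.mk (a0 x) (a1 x) (a2 x) (a3 x) (a4 x) (a5 x) (a6 x) (a7 x) (a8 x) (a9 x) (a10
        x) (a11 x) (a12 x) (a13 x) (a14 x) (a15 x) :=
  Pure.to_comap Pm.enc (by unfold Pm.enc; fun_prop)

/-- Encoding. -/
def Lev.enc (s : Lev) : ℕ × Arr ℕ × Arr WT × Arr ℤ × Arr ℕ × MinArr × List ℕ :=
  (s.rt, s.par, s.wt, s.G, s.snap, s.cand, s.U)

instance : Rep Lev := Rep.comap Lev.enc

@[fun_prop] theorem Lev.p_rt : Pure Lev.rt :=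
  Pure.of_comap Lev.enc (h := fun p => p.1) (by fun_prop)
@[fun_prop] theorem Lev.p_par : Pure Lev.par :=
  Pure.of_comap Lev.enc (h := fun p => p.2.1) (by fun_prop)
@[fun_prop] theorem Lev.p_wt : Pure Lev.wt :=
  Pure.of_comap Lev.enc (h := fun p => p.2.2.1) (by fun_prop)
@[fun_prop] theorem Lev.p_G : Pure Lev.G :=
  Pure.of_comap Lev.enc (h := fun p => p.2.2.2.1) (by fun_prop)
@[fun_prop] theorem Lev.p_snap : Pure Lev.snap :=
  Pure.of_comap Lev.enc (h := fun p => p.2.2.2.2.1) (by fun_prop)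
@[fun_prop] theorem Lev.p_cand : Pure Lev.cand :=
  Pure.of_comap Lev.enc (h := fun p => p.2.2.2.2.2.1) (by fun_prop)
@[fun_prop] theorem Lev.p_U : Pure Lev.U :=
  Pure.of_comap Lev.enc (h := fun p => p.2.2.2.2.2.2) (by fun_prop)
@[fun_prop] theorem Lev.p_mk {α : Type} [Rep α] {a0 : α → ℕ} {a1 : α → Arr ℕ} {a2 : α → Arr WT}
    {a3 : α → Arr ℤ} {a4 : α → Arr ℕ} {a5 : α → MinArr} {a6 : α → List ℕ}
    (h0 : Pure a0) (h1 : Pure a1) (h2 : Pure a2) (h3 : Pure a3) (h4 : Pure a4) (h5 : Pure a5) (h6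
        : Pure a6) :
    Pure fun x => Lev.mk (a0 x) (a1 x) (a2 x) (a3 x) (a4 x) (a5 x) (a6 x) :=
  Pure.to_comap Lev.enc (by unfold Lev.enc; fun_prop)

/-- Encoding. -/
def St.enc (s : St) : Arr Lev × Arr ℤ × Arr ℕ :=
  (s.lv, s.off, s.sg)

instance : Rep St := Rep.comap St.enc

@[fun_prop] theorem St.p_lv : Pure St.lv :=
  Pure.of_comap St.enc (h := fun p => p.1) (by fun_prop)
@[fun_prop] theorem St.p_off : Pure St.off :=
  Pure.of_comap St.enc (h := fun p => p.2.1) (by fun_prop)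
@[fun_prop] theorem St.p_sg : Pure St.sg :=
  Pure.of_comap St.enc (h := fun p => p.2.2) (by fun_prop)
@[fun_prop] theorem St.p_mk {α : Type} [Rep α] {a0 : α → Arr Lev} {a1 : α → Arr ℤ} {a2 : α → Arr ℕ}
    (h0 : Pure a0) (h1 : Pure a1) (h2 : Pure a2) :
    Pure fun x => St.mk (a0 x) (a1 x) (a2 x) :=
  Pure.to_comap St.enc (by unfold St.enc; fun_prop)

@[fun_prop] theorem p_ww : Pure ww := by unfold ww; fun_prop

@[fun_prop] theorem p_relab : Pure fun p : Arr ℕ × ℕ => relab p.1 p.2 := by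
  unfold relab; fun_prop

@[fun_prop] theorem p_top : Pure fun p : Pm × St => St.top p.1 p.2 := by unfold St.top; fun_prop

@[fun_prop] theorem g_gam : Grow fun p : Pm × ℕ => Pm.g p.1 p.2 := by
  unfold Pm.g gam; fun_prop

@[fun_prop] theorem p_good : PPred fun p : ℕ × WT × ℤ => good p.1 p.2.1 p.2.2 := by
  unfold good; fun_prop

end Vale.Agent.P305F
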