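import Mathlib.Analysis.SpecialFunctions.Log.Basic
import Mathlib.Analysis.Complex.ExponentialBounds
import Mathlib.Tactic

/-!
# P305, flow part: the potential of the random rebuilding scheme
-/

namespace Vale.Agent.P305F

open Finset

/-- The running maximum of the scaled norms of the levels `1, …, l`. -/
noncomputable def MM (M0 Q : ℝ) (Bf : ℕ → ℝ) : ℕ → ℝ
  | 0 => M0
  | l + 1 => max (MM M0 Q Bf l) (Bf (l + 1) / Q ^ (l + 1))

/-- The potential of the levels `1, …, L + 1`. -/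
noncomputable def Th (M0 Q ρ : ℝ) (k L : ℕ) (Bf : ℕ → ℝ) : ℝ :=
  ∑ l ∈ range (L + 1), ρ ^ (l + 1) * (k : ℝ) ^ (L - l) * Real.log (MM M0 Q Bf (l + 1) / M0)

/-- The norms after all levels above `i` are rebuilt. -/
noncomputable def reb (Bf : ℕ → ℝ) (i : ℕ) (β : ℝ) : ℕ → ℝ := fun j => if j ≤ i then Bf j else β

/-- The level chosen by the random number `r < k ^ L`. -/
def base (k L r : ℕ) : ℕ := ((range L).filter fun i => k ^ i ≤ r).card

theorem base_le (k L r : ℕ) : base k L r ≤ L := by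
  unfold base
  exact (card_filter_le _ _).trans (by simp)

theorem base_le_iff {k L r i : ℕ} (hk : 2 ≤ k) (hi : i ≤ L) (hr : r < k ^ L) :
    base k L r ≤ i ↔ r < k ^ i := by
  have hk1 : 1 < k := hk
  have _ := hi
  constructor
  · intro h
    by_contra hc
    push Not at hc
    have hiL : i < L := (Nat.pow_lt_pow_iff_right hk1).1 (hc.trans_lt hr)
    have hs : range (i + 1) ⊆ (range L).filter fun j => k ^ j ≤ r := by
      intro j hj
      rw [mem_range] at hj
      rw [mem_filter, mem_range]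
      exact ⟨by omega, (Nat.pow_le_pow_right (by omega) (by omega)).trans hc⟩
    have := card_le_card hs
    rw [card_range] at this
    unfold base at h
    omega
  · intro h
    have hs : ((range L).filter fun j => k ^ j ≤ r) ⊆ range i := by
      intro j hj
      rw [mem_filter] at hj
      rw [mem_range]
      exact (Nat.pow_lt_pow_iff_right hk1).1 (hj.2.trans_lt h)
    have := card_le_card hs
    rw [card_range] at this
    exact this

variable {M0 Q ρ q Z K Nu : ℝ} {k L : ℕ} {Bf : ℕ → ℝ}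

theorem MM_succ (l : ℕ) :
    MM M0 Q Bf (l + 1) = max (MM M0 Q Bf l) (Bf (l + 1) / Q ^ (l + 1)) := rfl

theorem MM_mono {i l : ℕ} (h : i ≤ l) : MM M0 Q Bf i ≤ MM M0 Q Bf l := by
  induction l, h using Nat.le_induction with
  | base => exact le_rfl
  | succ l _ ih => exact ih.trans (by rw [MM_succ]; exact le_max_left _ _)

theorem le_MM (l : ℕ) : M0 ≤ MM M0 Q Bf l := MM_mono (i := 0) (Nat.zero_le l)

theorem MM_congr {Bf' : ℕ → ℝ} {l : ℕ} (h : ∀ j, 1 ≤ j → j ≤ l → Bf j = Bf' j) :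
    MM M0 Q Bf l = MM M0 Q Bf' l := by
  induction l with
  | zero => rfl
  | succ l ih =>
    rw [MM_succ, MM_succ, ih fun j h1 h2 => h j h1 (by omega), h (l + 1) (by omega) le_rfl]

theorem Th_nonneg (hM : 0 < M0) (hρ : 0 ≤ ρ) : 0 ≤ Th M0 Q ρ k L Bf := by
  unfold Th
  refine sum_nonneg fun l _ => mul_nonneg (by positivity) (Real.log_nonneg ?_)
  rw [le_div_iff₀ hM, one_mul]
  exact le_MM _

theorem Th_congr {Bf' : ℕ → ℝ} (h : ∀ j, 1 ≤ j → j ≤ L + 1 → Bf j = Bf' j) :
    Th M0 Q ρ k L Bf = Th M0 Q ρ k L Bf' := by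
  unfold Th
  refine sum_congr rfl fun l hl => ?_
  rw [mem_range] at hl
  rw [MM_congr (Bf' := Bf') fun j h1 h2 => h j h1 (by omega)]

theorem geo_le (hρ : 2 ≤ ρ) (n : ℕ) : ∑ l ∈ range n, ρ ^ (l + 1) ≤ 2 * ρ ^ n := by
  induction n with
  | zero => simp
  | succ n ih =>
    rw [sum_range_succ]
    have h0 : 0 ≤ ρ ^ n := by positivity
    have : 2 * ρ ^ n ≤ ρ ^ (n + 1) := by rw [pow_succ]; nlinarith
    linarith

theorem wsum_le (hρ : 2 ≤ ρ) (hk : 1 ≤ k) {t : ℕ → ℝ} {y : ℝ} (hy : 0 ≤ y)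
    (h : ∀ l, l ≤ L → t l ≤ y) :
    ∑ l ∈ range (L + 1), ρ ^ (l + 1) * (k : ℝ) ^ (L - l) * t l ≤
      2 * ρ ^ (L + 1) * (k : ℝ) ^ L * y := by
  have hk' : (1 : ℝ) ≤ k := by exact_mod_cast hk
  have h1 : ∀ l ∈ range (L + 1), ρ ^ (l + 1) * (k : ℝ) ^ (L - l) * t l ≤
      ρ ^ (l + 1) * ((k : ℝ) ^ L * y) := by
    intro l hl
    rw [mem_range] at hl
    rw [mul_assoc]
    refine mul_le_mul_of_nonneg_left ?_ (by positivity)
    exact (mul_le_mul_of_nonneg_left (h l (by omega)) (by positivity)).trans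
      (mul_le_mul_of_nonneg_right (pow_le_pow_right₀ hk' (by omega)) hy)
  refine (sum_le_sum h1).trans ?_
  rw [← sum_mul, mul_assoc (2 * ρ ^ (L + 1))]
  exact mul_le_mul_of_nonneg_right (geo_le hρ _) (by positivity)

theorem Th_le (hM : 0 < M0) (hQ : 1 ≤ Q) (hρ : 2 ≤ ρ) (hk : 1 ≤ k) (hK : 0 ≤ K)
    (h : ∀ j, 1 ≤ j → j ≤ L + 1 → Bf j ≤ M0 * Real.exp K) :
    Th M0 Q ρ k L Bf ≤ 2 * ρ ^ (L + 1) * (k : ℝ) ^ L * K := by
  have hE : 1 ≤ Real.exp K := Real.one_le_exp hK
  have h1 : ∀ l, l ≤ L + 1 → MM M0 Q Bf l ≤ M0 * Real.exp K := by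
    intro l hl
    induction l with
    | zero => exact le_mul_of_one_le_right hM.le hE
    | succ l ih =>
      rw [MM_succ]
      refine max_le (ih (by omega)) ?_
      have hp : 1 ≤ Q ^ (l + 1) := one_le_pow₀ hQ
      rw [div_le_iff₀ (by linarith)]
      exact (h _ (by omega) hl).trans (le_mul_of_one_le_right (by positivity) hp)
  refine wsum_le hρ hk hK fun l hl => ?_
  have h0 : 0 < MM M0 Q Bf (l + 1) := hM.trans_le (le_MM _)
  rw [Real.log_le_iff_le_exp (div_pos h0 hM), div_le_iff₀ hM, mul_comm]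
  exact h1 _ (by omega)

theorem Th_step {Bf' : ℕ → ℝ} {x : ℝ} (hM : 0 < M0) (hQ : 1 ≤ Q) (hρ : 2 ≤ ρ) (hk : 1 ≤ k)
    (hx : 0 ≤ x) (h : ∀ j, 1 ≤ j → j ≤ L + 1 → Bf' j ≤ Bf j + x) :
    Th M0 Q ρ k L Bf' ≤ Th M0 Q ρ k L Bf + 2 * ρ ^ (L + 1) * (k : ℝ) ^ L * (x / M0) := by
  have h1 : ∀ l, l ≤ L + 1 → MM M0 Q Bf' l ≤ MM M0 Q Bf l + x := by
    intro l hl
    induction l with
    | zero => exact le_add_of_nonneg_right hx
    | succ l ih =>
      rw [MM_succ, MM_succ]
      refine max_le ((ih (by omega)).trans (by gcongr; exact le_max_left _ _)) ?_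
      have hp : 1 ≤ Q ^ (l + 1) := one_le_pow₀ hQ
      have h2 : Bf' (l + 1) / Q ^ (l + 1) ≤ (Bf (l + 1) + x) / Q ^ (l + 1) :=
        div_le_div_of_nonneg_right (h _ (by omega) hl) (by linarith)
      have h3 : x / Q ^ (l + 1) ≤ x := div_le_self hx hp
      have h4 := le_max_right (MM M0 Q Bf l) (Bf (l + 1) / Q ^ (l + 1))
      rw [add_div] at h2
      linarith
  have h2 := wsum_le (L := L) hρ hk (div_nonneg hx hM.le)
    (t := fun l => Real.log (MM M0 Q Bf' (l + 1) / M0) - Real.log (MM M0 Q Bf (l + 1) / M0))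
    fun l hl => by
      have a0 : 0 < MM M0 Q Bf (l + 1) := hM.trans_le (le_MM _)
      have a1 : 0 < MM M0 Q Bf' (l + 1) := hM.trans_le (le_MM _)
      rw [← Real.log_div (div_pos a1 hM).ne' (div_pos a0 hM).ne', div_div_div_cancel_right₀ hM.ne']
      refine (Real.log_le_sub_one_of_pos (div_pos a1 a0)).trans ?_
      have a2 : MM M0 Q Bf' (l + 1) / MM M0 Q Bf (l + 1) ≤
          (MM M0 Q Bf (l + 1) + x) / MM M0 Q Bf (l + 1) :=
        div_le_div_of_nonneg_right (h1 _ (by omega)) a0.le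
      rw [add_div, div_self a0.ne'] at a2
      have a3 : x / MM M0 Q Bf (l + 1) ≤ x / M0 := div_le_div_of_nonneg_left hx hM (le_MM _)
      linarith
  simp only [mul_sub, sum_sub_distrib] at h2
  unfold Th
  linarith

/-- `RebLe … x`: affine upper bounds for the potential after a rebuild whose mean is at most the
old potential plus `x`. -/
def RebLe (M0 Q ρ q Nu : ℝ) (k L : ℕ) (Bf : ℕ → ℝ) (x : ℝ) : Prop :=
  ∃ α σ : ℕ → ℝ, (∀ i, 0 ≤ σ i) ∧
    (∀ i ≤ L, ∀ β, 0 ≤ β → Th M0 Q ρ k L (reb Bf i β) ≤ α i + σ i * β) ∧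
    (∑ r ∈ range (k ^ L), (α (base k L r) + σ (base k L r) * (q * (Bf (base k L r) + Nu) + 1)))
      / (k : ℝ) ^ L ≤ Th M0 Q ρ k L Bf + x

theorem MM_reb_le {i l : ℕ} {β : ℝ} (h : l ≤ i) : MM M0 Q (reb Bf i β) l = MM M0 Q Bf l :=
  MM_congr fun j _ h2 => by
    unfold reb
    rw [if_pos (h2.trans h)]

theorem MM_reb_gt {i l : ℕ} {β : ℝ} (hQ : 1 ≤ Q) (hβ : 0 ≤ β) (h : i ≤ l) :
    MM M0 Q (reb Bf i β) (l + 1) = max (MM M0 Q Bf i) (β / Q ^ (i + 1)) := by
  induction l, h using Nat.le_induction with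
  | base =>
    rw [MM_succ, MM_reb_le le_rfl]
    unfold reb
    rw [if_neg (by omega)]
  | succ l hl ih =>
    rw [MM_succ, ih]
    refine max_eq_left (le_trans ?_ (le_max_right _ _))
    unfold reb
    rw [if_neg (by omega)]
    exact div_le_div_of_nonneg_left hβ (by positivity) (pow_le_pow_right₀ hQ (by omega))

theorem cnt_le (hk : 2 ≤ k) {l : ℕ} (hl : l ≤ L) :
    ∑ r ∈ range (k ^ L), (if base k L r ≤ l then (1 : ℝ) else 0) = (k : ℝ) ^ l := by
  rw [sum_boole]
  have : (range (k ^ L)).filter (fun r => base k L r ≤ l) = range (k ^ l) := by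
    ext r
    rw [mem_filter, mem_range, mem_range]
    constructor
    · exact fun h => (base_le_iff hk hl h.1).1 h.2
    · intro h
      have h1 : r < k ^ L := h.trans_le (Nat.pow_le_pow_right (by omega) hl)
      exact ⟨h1, (base_le_iff hk hl h1).2 h⟩
  rw [this, card_range]
  push_cast
  rfl

theorem cnt_eq (hk : 2 ≤ k) {l : ℕ} (hl : l ≤ L) :
    (k : ℝ) ^ l / 2 ≤ ∑ r ∈ range (k ^ L), (if base k L r = l then (1 : ℝ) else 0) := by
  have hk' : (2 : ℝ) ≤ k := by exact_mod_cast hk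
  rcases l with _ | l
  · have h := cnt_le (L := L) hk hl
    simp only [Nat.le_zero] at h
    rw [h]
    norm_num
  · have h1 := cnt_le (L := L) hk hl
    have h2 := cnt_le (L := L) (l := l) hk (by omega)
    have h3 : ∑ r ∈ range (k ^ L), (if base k L r = l + 1 then (1 : ℝ) else 0) =
        ∑ r ∈ range (k ^ L), (if base k L r ≤ l + 1 then (1 : ℝ) else 0) -
          ∑ r ∈ range (k ^ L), (if base k L r ≤ l then (1 : ℝ) else 0) := by
      rw [← sum_sub_distrib]
      refine sum_congr rfl fun r _ => ?_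
      split_ifs <;> first | omega | norm_num
    rw [h3, h1, h2, pow_succ]
    have h0 : 0 ≤ (k : ℝ) ^ l := by positivity
    nlinarith

/-- The general form: affine bounds for each pair of a base level and a rebuilt level. -/
theorem reb_gen (hM : 1 ≤ M0) (hq : 1 ≤ q) (hZ : 1 ≤ Z) (hQ : Q = q * Z) (hk : 2 ≤ k)
    (hρ : 0 ≤ ρ) (h0 : Bf 0 = 0) (hN0 : 0 ≤ Nu) (a s : ℕ → ℕ → ℝ) (E g : ℕ → ℝ)
    (hs : ∀ i l, 0 ≤ s i l) (hg : ∀ l, 0 ≤ g l)
    (ha : ∀ i l, i ≤ l → l ≤ L → ∀ y, 0 ≤ y → Real.log (max (MM M0 Q Bf i) y / M0) ≤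
      Real.log (MM M0 Q Bf (l + 1) / M0) + (a i l + s i l * y))
    (hE : ∀ i l, i ≤ l → l ≤ L → a i l + s i l * ((MM M0 Q Bf i + Nu + M0) / Z) ≤
      E l - if i = l then g l else 0) {x : ℝ}
    (hx : ∑ l ∈ range (L + 1), ρ ^ (l + 1) * (E l - g l / 2) ≤ x) :
    RebLe M0 Q ρ q Nu k L Bf x := by
  have hQ1 : 1 ≤ Q := by rw [hQ]; exact one_le_mul_of_one_le_of_one_le hq hZ
  have hk0 : (0 : ℝ) < k := by exact_mod_cast (by omega : 0 < k)
  obtain ⟨w, hw⟩ : ∃ w : ℕ → ℝ, w = fun l => ρ ^ (l + 1) * (k : ℝ) ^ (L - l) := ⟨_, rfl⟩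
  have hw0 : ∀ l, 0 ≤ w l := fun l => by rw [hw]; positivity
  refine ⟨fun i => Th M0 Q ρ k L Bf + ∑ l ∈ range (L + 1), if i ≤ l then w l * a i l else 0,
    fun i => ∑ l ∈ range (L + 1), if i ≤ l then w l * (s i l / Q ^ (i + 1)) else 0,
    fun i => sum_nonneg fun l _ => ?_, fun i hi β hβ => ?_, ?_⟩
  · split_ifs
    · exact mul_nonneg (hw0 l) (div_nonneg (hs i l) (by positivity))
    · exact le_rfl
  · beta_reduce
    unfold Th
    rw [sum_mul, ← sum_add_distrib, ← sum_add_distrib]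
    refine sum_le_sum fun l hl => ?_
    rw [mem_range] at hl
    have e : ρ ^ (l + 1) * (k : ℝ) ^ (L - l) = w l := by rw [hw]
    rw [e]
    split_ifs with h
    · rw [MM_reb_gt hQ1 hβ h]
      have h1 := mul_le_mul_of_nonneg_left
        (ha i l h (by omega) (β / Q ^ (i + 1)) (by positivity)) (hw0 l)
      refine h1.trans (le_of_eq ?_)
      ring
    · rw [MM_reb_le (by omega)]
      simp
  · have hP : (0 : ℝ) < (k : ℝ) ^ L := by positivity
    rw [div_le_iff₀ hP]
    have hb : ∀ i, (q * (Bf i + Nu) + 1) / Q ^ (i + 1) ≤ (MM M0 Q Bf i + Nu + M0) / Z := by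
      intro i
      have p1 : 1 ≤ Q ^ i := one_le_pow₀ hQ1
      have p2 : Bf i / Q ^ i ≤ MM M0 Q Bf i := by
        rcases i with _ | i
        · rw [h0, zero_div]
          exact le_trans (by linarith) (le_MM 0)
        · rw [MM_succ]
          exact le_max_right _ _
      have p3 : Nu / Q ^ i ≤ Nu := div_le_self hN0 p1
      have p4 : 1 / (q * Q ^ i) ≤ M0 := by
        refine le_trans ?_ hM
        rw [div_le_one (by positivity)]
        exact one_le_mul_of_one_le_of_one_le hq p1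
      have e : (q * (Bf i + Nu) + 1) / Q ^ (i + 1) =
          (Bf i / Q ^ i + Nu / Q ^ i + 1 / (q * Q ^ i)) / Z := by
        rw [pow_succ]
        generalize Q ^ i = P at p1
        rw [hQ]
        field_simp
      rw [e]
      exact div_le_div_of_nonneg_right (by linarith) (by linarith)
    have h1 : ∀ r ∈ range (k ^ L),
        (Th M0 Q ρ k L Bf + ∑ l ∈ range (L + 1),
            if base k L r ≤ l then w l * a (base k L r) l else 0) +
          (∑ l ∈ range (L + 1), if base k L r ≤ l then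
            w l * (s (base k L r) l / Q ^ (base k L r + 1)) else 0) *
            (q * (Bf (base k L r) + Nu) + 1) ≤
        Th M0 Q ρ k L Bf + ∑ l ∈ range (L + 1), w l *
          (E l * (if base k L r ≤ l then 1 else 0) - g l * (if base k L r = l then 1 else 0)) := by
      intro r _
      generalize base k L r = i
      rw [add_assoc, sum_mul, ← sum_add_distrib]
      refine add_le_add le_rfl (sum_le_sum fun l hl => ?_)
      rw [mem_range] at hl
      by_cases h : i ≤ l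
      · simp only [if_pos h]
        have p1 := hE i l h (by omega)
        have p2 := mul_le_mul_of_nonneg_left (hb i) (hs i l)
        have p3 : a i l + s i l * ((q * (Bf i + Nu) + 1) / Q ^ (i + 1)) ≤
            E l * 1 - g l * if i = l then 1 else 0 := by
          split_ifs at p1 ⊢ <;> linarith
        refine le_trans (le_of_eq ?_) (mul_le_mul_of_nonneg_left p3 (hw0 l))
        ring
      · simp only [if_neg h, if_neg (show ¬i = l by omega)]
        simp
    refine (sum_le_sum h1).trans ?_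
    rw [sum_add_distrib, sum_const, card_range, nsmul_eq_mul, sum_comm, add_mul, mul_comm]
    push_cast
    refine add_le_add le_rfl (le_trans ?_ (mul_le_mul_of_nonneg_right hx hP.le))
    rw [sum_mul]
    refine sum_le_sum fun l hl => ?_
    rw [mem_range] at hl
    rw [← mul_sum, sum_sub_distrib, ← mul_sum, ← mul_sum, cnt_le hk (by omega)]
    have p1 := mul_le_mul_of_nonneg_left (cnt_eq (L := L) (l := l) hk (by omega)) (hg l)
    have p2 : (k : ℝ) ^ L = (k : ℝ) ^ (L - l) * (k : ℝ) ^ l := by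
      rw [← pow_add]
      congr 1
      omega
    have p3 : ρ ^ (l + 1) * (E l - g l / 2) * (k : ℝ) ^ L =
        w l * (E l * (k : ℝ) ^ l - g l * ((k : ℝ) ^ l / 2)) := by
      rw [p2, hw]
      ring
    rw [p3]
    exact mul_le_mul_of_nonneg_left (by linarith) (hw0 l)

theorem log_max_le {m m' y c : ℝ} (hM : 0 < M0) (hc : 0 < c) (hm0 : 0 < m) (hm : m ≤ c)
    (hy : 0 ≤ y) (hm' : 0 < m') :
    Real.log (max m y / M0) ≤ Real.log (m' / M0) + (Real.log (c / m') + 1 / c * y) := by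
  have h1 : max m y ≤ c * Real.exp (1 / c * y) := by
    have h2 := Real.add_one_le_exp (1 / c * y)
    have h3 : c * (1 / c * y + 1) = y + c := by field_simp
    have h4 := mul_le_mul_of_nonneg_left h2 hc.le
    rw [h3] at h4
    exact max_le (by linarith) (by linarith)
  have h5 : 0 < max m y := hm0.trans_le (le_max_left _ _)
  have h6 : Real.log (max m y) ≤ Real.log c + 1 / c * y := by
    refine (Real.log_le_log h5 h1).trans (le_of_eq ?_)
    rw [Real.log_mul hc.ne' (Real.exp_pos _).ne', Real.log_exp]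
  rw [Real.log_div h5.ne' hM.ne', Real.log_div hm'.ne' hM.ne', Real.log_div hc.ne' hm'.ne']
  linarith

theorem lvl_any (hM : 1 ≤ M0) (hZ : 1 ≤ Z) (hK : 0 ≤ K) (hN0 : 0 ≤ Nu)
    (hN : Nu + 2 * M0 ≤ M0 * Real.exp K) {m m' : ℝ} (hm : M0 ≤ m) (hm' : m ≤ m') :
    Real.log (m * Real.exp K / m') + 1 / (m * Real.exp K) * ((m + Nu + M0) / Z) ≤ K + 1 := by
  have hE : 1 ≤ Real.exp K := Real.one_le_exp hK
  have hm0 : 0 < m := by linarith
  have hm1 : 0 < m' := by linarith
  have h1 : Real.log (m * Real.exp K / m') ≤ K := by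
    rw [Real.log_le_iff_le_exp (by positivity), div_le_iff₀ hm1, mul_comm]
    exact mul_le_mul_of_nonneg_left hm' (by linarith)
  have h2 : (m + Nu + M0) / Z ≤ m + Nu + M0 := div_le_self (by linarith) hZ
  have h3 : m + Nu + M0 ≤ m * Real.exp K := by
    have h4 : (m - M0) * 1 ≤ (m - M0) * Real.exp K :=
      mul_le_mul_of_nonneg_left hE (by linarith)
    nlinarith
  have h5 : 1 / (m * Real.exp K) * ((m + Nu + M0) / Z) ≤ 1 := by
    rw [one_div, inv_mul_le_iff₀ (by positivity)]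
    linarith
  linarith

theorem lvl_small (hZ : 1 ≤ Z) {m m' t : ℝ} (ht : 0 < t) (hm0 : 0 < m') (hm : m ≤ m')
    (hN : Nu ≤ m') (hM : M0 ≤ m') :
    1 / (m' / t) * ((m + Nu + M0) / Z) ≤ 3 * t / Z := by
  have e : 1 / (m' / t) * ((m + Nu + M0) / Z) = (m + Nu + M0) / m' * t / Z := by
    field_simp
  rw [e]
  refine div_le_div_of_nonneg_right (mul_le_mul_of_nonneg_right ?_ ht.le) (by linarith)
  rw [div_le_iff₀ hm0]
  linarith

theorem reb_any (hM : 1 ≤ M0) (hq : 1 ≤ q) (hZ : 1 ≤ Z) (hQ : Q = q * Z) (hk : 2 ≤ k)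
    (hK : 0 ≤ K) (hρ : 8 * (K + 1) ≤ ρ) (h0 : Bf 0 = 0) (hB : ∀ j, 0 ≤ Bf j) (hN0 : 0 ≤ Nu)
    (hN : Nu + 2 * M0 ≤ M0 * Real.exp K) : RebLe M0 Q ρ q Nu k L Bf (ρ ^ (L + 2)) := by
  have _ := hB
  have hE : 1 ≤ Real.exp K := Real.one_le_exp hK
  have hp : ∀ i, 0 < MM M0 Q Bf i := fun i => lt_of_lt_of_le (by linarith) (le_MM i)
  refine reb_gen hM hq hZ hQ hk (by linarith) h0 hN0
    (fun i l => Real.log (MM M0 Q Bf i * Real.exp K / MM M0 Q Bf (l + 1)))
    (fun i _ => 1 / (MM M0 Q Bf i * Real.exp K)) (fun _ => K + 1) (fun _ => 0)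
    (fun i _ => by have := hp i; positivity) (fun _ => le_rfl) (fun i l _ _ y hy => ?_)
    (fun i l h _ => ?_) ?_
  · exact log_max_le (by linarith) (mul_pos (hp i) (by linarith)) (hp i)
      (le_mul_of_one_le_right (hp i).le hE) hy (hp _)
  · rw [ite_self, sub_zero]
    exact lvl_any hM hZ hK hN0 hN (le_MM i) (MM_mono (by omega))
  · rw [← sum_mul, zero_div, sub_zero]
    have h1 := geo_le (ρ := ρ) (by linarith) (L + 1)
    have h2 : 0 ≤ ρ ^ (L + 1) := by have : 0 ≤ ρ := by linarith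
                                    positivity
    have h3 := mul_le_mul_of_nonneg_right h1 (show 0 ≤ K + 1 by linarith)
    have h4 := mul_le_mul_of_nonneg_left hρ h2
    rw [pow_succ ρ (L + 1)]
    nlinarith

theorem reb_small (hM : 1 ≤ M0) (hq : 1 ≤ q) (hZ : 1 ≤ Z) (hQ : Q = q * Z) (hk : 2 ≤ k)
    (hρ : 2 ≤ ρ) (h0 : Bf 0 = 0) (hB : ∀ j, 0 ≤ Bf j) (hN0 : 0 ≤ Nu) (hN : Nu ≤ M0) :
    RebLe M0 Q ρ q Nu k L Bf (18 * ρ ^ (L + 1) / Z) := by
  have _ := hB
  have hp : ∀ i, 0 < MM M0 Q Bf i := fun i => lt_of_lt_of_le (by linarith) (le_MM i)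
  refine reb_gen hM hq hZ hQ hk (by linarith) h0 hN0
    (fun _ l => Real.log (MM M0 Q Bf (l + 1) / 1 / MM M0 Q Bf (l + 1)))
    (fun _ l => 1 / (MM M0 Q Bf (l + 1) / 1)) (fun _ => 3 * 1 / Z) (fun _ => 0)
    (fun _ l => by have := hp (l + 1); positivity) (fun _ => le_rfl) (fun i l h _ y hy => ?_)
    (fun i l h _ => ?_) ?_
  · exact log_max_le (by linarith) (div_pos (hp _) one_pos) (hp i)
      (by rw [div_one]; exact MM_mono (by omega)) hy (hp _)
  · rw [ite_self, sub_zero]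
    have e : Real.log (MM M0 Q Bf (l + 1) / 1 / MM M0 Q Bf (l + 1)) = 0 := by
      rw [div_one, div_self (hp _).ne', Real.log_one]
    rw [e, zero_add]
    exact lvl_small hZ one_pos (hp _) (MM_mono (by omega)) (hN.trans (le_MM _)) (le_MM _)
  · rw [← sum_mul, zero_div, sub_zero]
    have h1 := geo_le (ρ := ρ) hρ (L + 1)
    have h2 : 0 ≤ ρ ^ (L + 1) := by positivity
    rw [← mul_div_assoc]
    exact div_le_div_of_nonneg_right (by linarith) (by linarith)

theorem exists_jump {M : ℕ → ℝ} {n : ℕ} (h : 4 ^ (n + 1) * M 0 ≤ M (n + 1)) :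
    ∃ j, j ≤ n ∧ 4 * M j ≤ M (j + 1) ∧ M (n + 1) ≤ 4 ^ (n - j) * M (j + 1) := by
  induction n with
  | zero => exact ⟨0, le_rfl, by simpa using h, by simp⟩
  | succ n ih =>
    by_cases hc : 4 * M (n + 1) ≤ M (n + 1 + 1)
    · exact ⟨n + 1, le_rfl, hc, by simp⟩
    · push Not at hc
      obtain ⟨j, hj, h1, h2⟩ := ih (by rw [pow_succ] at h; linarith)
      refine ⟨j, by omega, h1, ?_⟩
      rw [show n + 1 - j = n - j + 1 by omega, pow_succ]
      linarith

theorem reb_gain (hM : 1 ≤ M0) (hq : 1 ≤ q) (hZ : 1 ≤ Z) (hQ : Q = q * Z) (hk : 2 ≤ k)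
    (hK : 0 ≤ K) (hρ : 8 * (K + 1) ≤ ρ) (h0 : Bf 0 = 0) (hB : ∀ j, 0 ≤ Bf j) (hN0 : 0 ≤ Nu)
    (hN : Nu + 2 * M0 ≤ M0 * Real.exp K)
    (h1 : 4 ^ (L + 1) * M0 ≤ Bf (L + 1) / Q ^ (L + 1))
    (h2 : 4 ^ (L + 1) * Nu ≤ Bf (L + 1) / Q ^ (L + 1)) :
    RebLe M0 Q ρ q Nu k L Bf (18 * ρ ^ (L + 1) / Z - 1) := by
  have _ := hB
  have hE : 1 ≤ Real.exp K := Real.one_le_exp hK
  have hp : ∀ i, 0 < MM M0 Q Bf i := fun i => lt_of_lt_of_le (by linarith) (le_MM i)
  have htop : Bf (L + 1) / Q ^ (L + 1) ≤ MM M0 Q Bf (L + 1) := by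
    rw [MM_succ]
    exact le_max_right _ _
  obtain ⟨j, hj, hj1, hj2⟩ := exists_jump (M := MM M0 Q Bf) (n := L) (h1.trans htop)
  have hNj : Nu ≤ MM M0 Q Bf (j + 1) := by
    have p1 : (4 : ℝ) ^ (L - j) ≤ 4 ^ (L + 1) := pow_le_pow_right₀ (by norm_num) (by omega)
    have p2 := mul_le_mul_of_nonneg_right p1 hN0
    exact le_of_mul_le_mul_left (p2.trans (h2.trans (htop.trans hj2))) (by positivity)
  obtain ⟨c, hc⟩ : ∃ c : ℕ → ℕ → ℝ, c = fun i l => if l < j then MM M0 Q Bf i * Real.exp K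
    else MM M0 Q Bf (l + 1) / (if i = l ∧ l = j then 4 else 1) := ⟨_, rfl⟩
  have hc0 : ∀ i l, 0 < c i l := fun i l => by
    have := hp i
    have := hp (l + 1)
    rw [hc]
    dsimp only
    split_ifs <;> positivity
  have hρ0 : 0 ≤ ρ := by linarith
  have hZ0 : 0 < Z := by linarith
  refine reb_gen hM hq hZ hQ hk hρ0 h0 hN0
    (fun i l => Real.log (c i l / MM M0 Q Bf (l + 1))) (fun i l => 1 / c i l)
    (fun l => if l < j then K + 1 else if l = j then 3 * 4 / Z else 3 * 1 / Z)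
    (fun l => if l = j then 1 else 0)
    (fun i l => by have := hc0 i l; positivity) (fun l => by split_ifs <;> norm_num)
    (fun i l h _ y hy => ?_) (fun i l h _ => ?_) ?_
  · refine log_max_le (by linarith) (hc0 i l) (hp i) ?_ hy (hp _)
    rw [hc]
    dsimp only
    split_ifs with p1 p2
    · exact le_mul_of_one_le_right (hp i).le hE
    · rw [p2.1, p2.2, le_div_iff₀ (by norm_num)]
      linarith
    · rw [div_one]
      exact MM_mono (by omega)
  · rw [hc]
    dsimp only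
    by_cases p1 : l < j
    · simp only [if_pos p1, if_neg (show ¬l = j by omega), ite_self, sub_zero]
      exact lvl_any hM hZ hK hN0 hN (le_MM i) (MM_mono (by omega))
    · have p3 : Nu ≤ MM M0 Q Bf (l + 1) := hNj.trans (MM_mono (by omega))
      have p4 : MM M0 Q Bf i ≤ MM M0 Q Bf (l + 1) := MM_mono (by omega)
      by_cases p2 : i = l ∧ l = j
      · simp only [if_neg p1, if_pos p2, if_pos p2.1, if_pos p2.2]
        have e : Real.log (MM M0 Q Bf (l + 1) / 4 / MM M0 Q Bf (l + 1)) ≤ -1 := by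
          have e1 : MM M0 Q Bf (l + 1) / 4 / MM M0 Q Bf (l + 1) = 4⁻¹ := by
            have := (hp (l + 1)).ne'
            field_simp
          rw [e1, Real.log_inv, neg_le_neg_iff, Real.le_log_iff_exp_le (by norm_num)]
          have := Real.exp_one_lt_d9
          linarith
        have := lvl_small (t := 4) hZ (by norm_num) (hp _) p4 p3 (le_MM _)
        linarith
      · have e : Real.log (MM M0 Q Bf (l + 1) / 1 / MM M0 Q Bf (l + 1)) = 0 := by
          rw [div_one, div_self (hp _).ne', Real.log_one]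
        have e2 : (if i = l then if l = j then (1 : ℝ) else 0 else 0) = 0 := by
          split_ifs with a1 a2
          · exact absurd ⟨a1, a2⟩ p2
          · rfl
          · rfl
        simp only [if_neg p1, if_neg p2]
        rw [e, e2, zero_add, sub_zero]
        refine (lvl_small hZ one_pos (hp _) p4 p3 (le_MM _)).trans ?_
        split_ifs
        · exact div_le_div_of_nonneg_right (by norm_num) hZ0.le
        · exact le_rfl
  · have q1 : ∀ l ∈ range (L + 1), ρ ^ (l + 1) *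
        ((if l < j then K + 1 else if l = j then 3 * 4 / Z else 3 * 1 / Z) -
          (if l = j then 1 else 0) / 2) ≤
        ρ ^ (l + 1) * (3 / Z) + (if l < j then ρ ^ (l + 1) * (K + 1) else 0) +
          (if l = j then ρ ^ (l + 1) * (9 / Z - 1 / 2) else 0) := by
      intro l _
      have a0 : 0 ≤ ρ ^ (l + 1) * (3 / Z) := by positivity
      split_ifs with a1 a2
      · omega
      · linarith
      · exact le_of_eq (by ring)
      · exact le_of_eq (by ring)
    refine (sum_le_sum q1).trans ?_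
    rw [sum_add_distrib, sum_add_distrib, sum_ite_eq', if_pos (mem_range.2 (by omega)),
      ← sum_filter, ← sum_mul, ← sum_mul]
    have q2 : (range (L + 1)).filter (fun l => l < j) = range j := by
      ext l
      rw [mem_filter, mem_range, mem_range]
      omega
    rw [q2]
    have q3 := mul_le_mul_of_nonneg_right (geo_le (ρ := ρ) (by linarith) (L + 1))
      (show 0 ≤ 3 / Z by positivity)
    have q4 := mul_le_mul_of_nonneg_right (geo_le (ρ := ρ) (by linarith) j)
      (show 0 ≤ K + 1 by linarith)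
    have q5 : 1 ≤ ρ ^ j := one_le_pow₀ (by linarith)
    have q6 := mul_le_mul_of_nonneg_left hρ (show 0 ≤ ρ ^ j by linarith)
    have q7 : ρ ^ (j + 1) ≤ ρ ^ (L + 1) := pow_le_pow_right₀ (by linarith) (by omega)
    have q8 := mul_le_mul_of_nonneg_right q7 (show 0 ≤ 9 / Z by positivity)
    have q9 : 8 ≤ ρ ^ j * ρ := by nlinarith
    have q10 : 18 * ρ ^ (L + 1) / Z = 18 * (ρ ^ (L + 1) * (1 / Z)) := by ring
    have q11 : 2 * ρ ^ (L + 1) * (3 / Z) = 6 * (ρ ^ (L + 1) * (1 / Z)) := by ring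
    have q12 : ρ ^ (L + 1) * (9 / Z) = 9 * (ρ ^ (L + 1) * (1 / Z)) := by ring
    have q13 : 0 ≤ ρ ^ (L + 1) * (1 / Z) := by positivity
    rw [mul_sub, q10]
    rw [q11] at q3
    rw [q12] at q8
    rw [pow_succ ρ j] at q8 ⊢
    nlinarith

/-- The potential for the running time. -/
theorem time_reb (hk : 2 ≤ k) {u : ℕ → ℝ} (hu : ∀ i, 0 ≤ u i) :
    (∑ r ∈ range (k ^ L), (u (base k L r) +
      k * ∑ l ∈ range L, if l + 1 ≤ base k L r then u (l + 1) else 0)) / (k : ℝ) ^ L ≤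
    u 0 / (k : ℝ) ^ L + k * ∑ l ∈ range L, u (l + 1) := by
  have hk0 : (0 : ℝ) < k := by exact_mod_cast (by omega : 0 < k)
  have hP : (0 : ℝ) < (k : ℝ) ^ L := by positivity
  rw [div_le_iff₀ hP, add_mul, div_mul_cancel₀ _ hP.ne']
  have h1 : ∀ r ∈ range (k ^ L), u (base k L r) +
      k * (∑ l ∈ range L, if l + 1 ≤ base k L r then u (l + 1) else 0) ≤
      u 0 * (if base k L r ≤ 0 then 1 else 0) + ∑ l ∈ range L, u (l + 1) *
        ((if base k L r ≤ l + 1 then 1 else 0) + (k - k * if base k L r ≤ l then 1 else 0)) := by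
    intro r _
    have hb := base_le k L r
    generalize base k L r = i at hb
    have e1 : u i ≤ u 0 * (if i ≤ 0 then 1 else 0) +
        ∑ l ∈ range L, u (l + 1) * (if i ≤ l + 1 then 1 else 0) := by
      have n0 : ∀ l ∈ range L, 0 ≤ u (l + 1) * (if i ≤ l + 1 then (1 : ℝ) else 0) :=
        fun l _ => mul_nonneg (hu _) (by split_ifs <;> norm_num)
      rcases i with _ | i
      · rw [if_pos le_rfl, mul_one]
        exact le_add_of_nonneg_right (sum_nonneg n0)
      · rw [if_neg (by omega), mul_zero, zero_add]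
        have := single_le_sum n0 (mem_range.2 (show i < L by omega))
        rwa [if_pos le_rfl, mul_one] at this
    have e2 : k * (∑ l ∈ range L, if l + 1 ≤ i then u (l + 1) else 0) =
        ∑ l ∈ range L, u (l + 1) * (k - k * if i ≤ l then 1 else 0) := by
      rw [mul_sum]
      refine sum_congr rfl fun l _ => ?_
      split_ifs <;> first | omega | ring
    simp only [mul_add, sum_add_distrib]
    rw [e2]
    linarith
  refine (sum_le_sum h1).trans ?_
  rw [sum_add_distrib, ← mul_sum, cnt_le hk (Nat.zero_le L), pow_zero, mul_one, sum_comm,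
    mul_sum, sum_mul]
  refine add_le_add le_rfl (le_of_eq (sum_congr rfl fun l hl => ?_))
  rw [mem_range] at hl
  rw [← mul_sum, sum_add_distrib, sum_sub_distrib, ← mul_sum, cnt_le hk (by omega),
    cnt_le hk (by omega), sum_const, card_range, nsmul_eq_mul]
  push_cast
  ring

end Vale.Agent.P305F
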