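import Vale.Agent.P305F.Step
import Vale.Agent.P305F.Reb
import Vale.Agent.P305F.Theta
import Vale.Agent.P305F.Phase

/-!
# Flow: the rebuild above a random level
-/

namespace Vale.Agent.P305F

open Vale.Agent.P305E Vale.Agent.P305S Finset

/-- The bound `k ^ L` for the number of arcs. -/
def Pm.mm (P : Pm) : ℕ := (2 ^ P.kb) ^ P.L

/-- The least scale of norms. -/
noncomputable def Pm.M0 (P : Pm) : ℝ := 24 * P.mm * P.Lam

/-- The conditions on the real parameters of the analysis. -/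
structure AnOK (B : ℕ) (N : Net) (P : Pm) (C F gm lamM Um : ℕ) (q Z K ρ Xc β : ℝ) : Prop where
  kb : 1 ≤ P.kb
  mm : N.m ≤ P.mm
  kB : P.mm ≤ B
  q1 : 1 ≤ q
  Z1 : 1 ≤ Z
  K0 : 0 ≤ K
  rho : 8 * (K + 1) ≤ ρ
  X1 : 1 ≤ Xc
  gmX : 2 * P.Lam * Xc ^ 2 / P.δ + 2 ≤ gm
  nu : (Um : ℝ) * (4 * C) + 2 * P.M0 ≤ P.M0 * Real.exp K
  kk : 12 * (4 * (q * Z)) ^ (P.L + 1) ≤ P.kk
  lamd : (lamM : ℝ) / P.Lam * P.δ * (C * F) ≤ P.mm
  β0 : 0 < β
  β1 : 2 * β ≤ P.hh * P.Ns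

/-- The witness direction, normalised. -/
noncomputable def phi (N : Net) (P : Pm) (ys : ℕ → ℝ) (x : St) (v : ℕ) : ℝ :=
  if v < N.n then yc P.δ ys v - yc P.δ ys 0 - yR N P x v else 0

/-- The norms of the witness on the levels. -/
noncomputable def Bf (N : Net) (P : Pm) (ys : ℕ → ℝ) (x : St) (j : ℕ) : ℝ :=
  (x.lv.get j).nm N.n (phi N P ys x)

/-- The rebuild potential of a state. -/
noncomputable def Tht (N : Net) (P : Pm) (ys : ℕ → ℝ) (q Z ρ : ℝ) (x : St) : ℝ :=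
  Th P.M0 (q * Z) ρ (2 ^ P.kb) P.L (Bf N P ys x)

/-- The time potential of a state. -/
noncomputable def Tp (P : Pm) (Ts : ℕ) (x : St) : ℝ :=
  cReb P Ts * (((2 ^ P.kb : ℕ) : ℝ) * ∑ l ∈ range P.L, ((x.lv.get (l + 1)).U.length : ℝ))

variable {B : ℕ} {N : Net} {P : Pm} {C F gm lam lamM Em Um Ts : ℕ} {q Z K ρ Xc β : ℝ}
  {sa : List Edge → M (List (Arr ℕ))} {x : St} {ys : ℕ → ℝ}

theorem PmOK.δ_pos (hP : PmOK B N P C F gm lamM Em Um) : 0 < P.δ := by
  have h1 : (0 : ℝ) < P.D := by exact_mod_cast hP.d_pos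
  have h2 : (0 : ℝ) < P.Dd := by exact_mod_cast hP.dd_pos
  unfold Pm.δ
  positivity

theorem PmOK.δ_le (hP : PmOK B N P C F gm lamM Em Um) : P.δ ≤ 1 := by
  have h1 : (0 : ℝ) < P.D := by exact_mod_cast hP.d_pos
  have h2 : (P.Dd : ℝ) ≤ (P.D : ℝ) ^ 2 := by exact_mod_cast hP.dd_le
  unfold Pm.δ
  rw [div_le_one (by positivity)]
  exact h2

theorem PmOK.δ_mul (hP : PmOK B N P C F gm lamM Em Um) : P.δ * (P.D : ℝ) ^ 2 = P.Dd := by
  have h1 : (0 : ℝ) < P.D := by exact_mod_cast hP.d_pos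
  unfold Pm.δ
  field_simp

theorem Pm.mm_pos (P : Pm) : 0 < P.mm := by unfold Pm.mm; positivity

theorem PmOK.M0_ge (hP : PmOK B N P C F gm lamM Em Um) : 1 ≤ P.M0 := by
  have h1 : (1 : ℝ) ≤ P.Lam := by exact_mod_cast hP.lam_pos
  have h2 : (1 : ℝ) ≤ P.mm := by exact_mod_cast P.mm_pos
  unfold Pm.M0
  nlinarith

theorem yR_zero (N : Net) (P : Pm) (x : St) : yR N P x 0 = 0 := by
  simp [yR, Ys]

theorem yR_congr {x' : St} (h : Ys N P x' = Ys N P x) : yR N P x' = yR N P x := by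
  funext v
  simp only [yR, h]

theorem phi_congr {x' : St} (h : Ys N P x' = Ys N P x) : phi N P ys x' = phi N P ys x := by
  funext v
  simp only [phi, yR_congr h]

theorem phi_osc (hP : PmOK B N P C F gm lamM Em Um) (hs : N.Feas ys) (h : N.Pos (yR N P x))
    (a b : ℕ) : |phi N P ys x a - phi N P ys x b| ≤ 4 * C := by
  have key : ∀ v, |phi N P ys x v| ≤ 2 * C := by
    intro v
    unfold phi
    split_ifs with hv
    · have h1 := Net.pot_le hP.net (Net.yc_feas hP.net hs hP.δ_pos.le hP.δ_le) hv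
      have h2 := Net.pot_le hP.net h.feas hv
      rw [yR_zero, sub_zero] at h2
      have := abs_sub (yc P.δ ys v - yc P.δ ys 0) (yR N P x v)
      linarith
    · simp
  have := abs_sub (phi N P ys x a) (phi N P ys x b)
  linarith [key a, key b]

theorem dl_phi (hN : N.OK C F) {e : ℕ} (he : e < N.m) :
    N.dl (phi N P ys x) e = N.dl (fun v => yc P.δ ys v - yR N P x v) e := by
  simp only [Net.dl, phi, hN.hd_lt e he, hN.tl_lt e he, if_true]
  ring

theorem nu_phi (hP : PmOK B N P C F gm lamM Em Um) :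
    N.nu (gR P x) (phi N P ys x) =
      P.Lam * N.nu (ut P x) (fun v => yc P.δ ys v - yR N P x v) := by
  have h1 : (0 : ℝ) < P.Lam := by exact_mod_cast hP.lam_pos
  simp only [Net.nu, mul_sum]
  refine sum_congr rfl fun e he => ?_
  rw [dl_phi hP.net (mem_range.1 he), ut]
  field_simp

theorem gt_phi (hN : N.OK C F) (l : ℝ) (u : ℕ → ℝ) :
    N.gt l u (phi N P ys x) = N.gt l u (fun v => yc P.δ ys v - yR N P x v) :=
  sum_congr rfl fun e he => by rw [dl_phi hN (mem_range.1 he)]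

theorem Lev.nm_nonneg (n : ℕ) (v : Lev) (ψ : ℕ → ℝ) : 0 ≤ v.nm n ψ :=
  sum_nonneg fun _ _ => by positivity

theorem nm_phi_step {v : Lev} {D : ℕ} (ht : IsTree N.n v.rt v.par.get D) (x' : St) :
    v.nm N.n (phi N P ys x') ≤
      v.nm N.n (phi N P ys x) + v.nm N.n (fun a => yR N P x' a - yR N P x a) := by
  simp only [Lev.nm, ← sum_add_distrib, ← mul_add]
  refine sum_le_sum fun a ha => mul_le_mul_of_nonneg_left ?_ (Nat.cast_nonneg _)
  have h1 := mem_range.1 ha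
  simp only [phi, h1, ht.par_lt a h1, if_true]
  refine le_trans (le_of_eq ?_) (abs_sub _ _)
  congr 1
  ring

theorem nu_le (hP : PmOK B N P C F gm lamM Em Um) (h : Inv N P gm C lam x) (hs : N.Feas ys) :
    N.nu (gR P x) (phi N P ys x) ≤ Um * (4 * C) := by
  have h1 : N.m * gm ≤ Um :=
    le_trans (Nat.le_mul_of_pos_left _ (by positivity)) hP.um
  have h2 : ((N.m * gm : ℕ) : ℝ) ≤ Um := by exact_mod_cast h1
  have h3 : N.nu (gR P x) (phi N P ys x) ≤ ∑ _e ∈ range N.m, (gm : ℝ) * (4 * C) := by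
    refine sum_le_sum fun e he => mul_le_mul ?_ (phi_osc hP hs h.pos _ _) (abs_nonneg _)
      (Nat.cast_nonneg _)
    unfold gR
    exact_mod_cast (h.sgb e (mem_range.1 he)).2.2
  simp only [sum_const, card_range, nsmul_eq_mul] at h3
  push_cast at h2
  have h4 : (0 : ℝ) ≤ 4 * C := by positivity
  nlinarith

theorem Net.nu_nonneg {u ψ : ℕ → ℝ} (hu : ∀ e, 0 ≤ u e) : 0 ≤ N.nu u ψ :=
  sum_nonneg fun e _ => mul_nonneg (hu e) (abs_nonneg _)

theorem base_eq {kb L r : ℕ} (hk : 1 ≤ kb) (hr : r < (2 ^ kb) ^ L) :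
    (Nat.size r + kb - 1) / kb = base (2 ^ kb) L r := by
  have h2 : 2 ≤ 2 ^ kb := by
    calc 2 = 2 ^ 1 := rfl
      _ ≤ 2 ^ kb := Nat.pow_le_pow_right (by norm_num) hk
  have key : ∀ i, (Nat.size r + kb - 1) / kb ≤ i ↔ r < (2 ^ kb) ^ i := by
    intro i
    rw [← pow_mul, ← Nat.size_le, Nat.div_le_iff_le_mul_add_pred (by omega)]
    omega
  have h3 := (key L).2 hr
  refine le_antisymm ((key _).2 ((base_le_iff h2 (base_le _ _ _) hr).1 le_rfl)) ?_
  exact (base_le_iff h2 h3 hr).2 ((key _).1 le_rfl)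

theorem AnOK.two_le (hA : AnOK B N P C F gm lamM Um q Z K ρ Xc β) : 2 ≤ 2 ^ P.kb := by
  calc 2 = 2 ^ 1 := rfl
    _ ≤ 2 ^ P.kb := Nat.pow_le_pow_right (by norm_num) hA.kb

theorem wp_rebR (hP : PmOK B N P C F gm lamM Em Um) (hA : AnOK B N P C F gm lamM Um q Z K ρ Xc β)
    (G : St → ℕ → ℝ) (p : ℝ) :
    wp B (rebR sa N P x) G p = (∑ r ∈ range ((2 ^ P.kb) ^ P.L),
      wp B (rebuild sa N P x (base (2 ^ P.kb) P.L r)) (fun x' t => G x' (2 * (P.kb * P.L) + t)) p)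
      / (((2 ^ P.kb : ℕ) : ℝ)) ^ P.L := by
  have h1 : 2 ^ (P.kb * P.L) ≤ B := by rw [pow_mul]; exact hA.kB
  have h2 : P.kb * P.L ≤ B := (Nat.lt_two_pow_self.le).trans h1
  unfold rebR
  rw [wp_bind, wp_num, if_pos h2, wp_bind, wp_randBits h1, pow_mul, pow_mul]
  push_cast
  congr 1
  refine sum_congr rfl fun r hr => ?_
  have h3 := base_eq hA.kb (mem_range.1 hr)
  have h4 : base (2 ^ P.kb) P.L r ≤ B := (base_le _ _ _).trans (by have := hP.lB; omega)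
  rw [wp_bind, h3, wp_num, if_pos h4]
  simp

theorem Tri_rebR (hP : PmOK B N P C F gm lamM Em Um) (hA : AnOK B N P C F gm lamM Um q Z K ρ Xc β)
    (hs : SampOK B sa P.Ls Ts Em Um q (4 * C)) (hl : lam ≤ lamM) (h : Inv N P gm C lam x) :
    Tri ⟨B, true⟩ (rebR sa N P x) fun x' _ =>
      Inv N P gm C lam x' ∧ x'.sg = x.sg ∧ Ys N P x' = Ys N P x ∧ (x'.top P).U = [] := by
  have h1 : 2 ^ (P.kb * P.L) ≤ B := by rw [pow_mul]; exact hA.kB
  have h2 : P.kb * P.L ≤ B := (Nat.lt_two_pow_self.le).trans h1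
  unfold rebR
  simp only [Tri_bind, Tri_num]
  refine ⟨h2, (Tri_randBits h1).mono ?_⟩
  rintro r t ⟨hr, rfl⟩
  rw [pow_mul] at hr
  have h5 := base_le (2 ^ P.kb) P.L r
  rw [base_eq hA.kb hr]
  refine ⟨h5.trans (by have := hP.lB; omega), ?_⟩
  exact (Tri_rebuild hP hs hl h5 (h.pre hP (by omega))).mono
    fun x' _ hx' => ⟨hx'.1, hx'.2.1, hx'.2.2.1, hx'.2.2.2.2.2.1⟩

theorem wp_rebR_Th (hP : PmOK B N P C F gm lamM Em Um)
    (hA : AnOK B N P C F gm lamM Um q Z K ρ Xc β) (hs : SampOK B sa P.Ls Ts Em Um q (4 * C))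
    (hl : lam ≤ lamM) (h : Inv N P gm C lam x) (hys : N.Feas ys) {b : ℝ}
    (hb : RebLe P.M0 (q * Z) ρ q (N.nu (gR P x) (phi N P ys x)) (2 ^ P.kb) P.L (Bf N P ys x) b) :
    wp B (rebR sa N P x) (fun x' _ => Tht N P ys q Z ρ x') 0 ≤ Tht N P ys q Z ρ x + b := by
  obtain ⟨α, σ, h0, h1, h2⟩ := hb
  rw [wp_rebR hP hA]
  refine le_trans (div_le_div_of_nonneg_right (sum_le_sum fun r _ => ?_) (by positivity)) h2
  have h5 := base_le (2 ^ P.kb) P.L r
  generalize base (2 ^ P.kb) P.L r = i at h5 ⊢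
  have hpre := h.pre hP (i := i) (by omega)
  have e1 := wp_le_of_Tri (Tri_rebuild hP hs hl h5 hpre)
    (F := fun x' _ => Tht N P ys q Z ρ x')
    (G := fun x' _ => α i + σ i * (x'.top P).nm N.n (phi N P ys x))
    (fun x' t hx' => by
      obtain ⟨-, -, k1, k2, k3, -, -⟩ := hx'
      refine le_trans (le_of_eq ?_) (h1 i h5 _ (Lev.nm_nonneg _ _ _))
      refine Th_congr fun j _ hj => ?_
      simp only [Bf, reb, phi_congr k1]
      split_ifs with hji
      · rw [k2 j hji]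
      · rw [k3 j (by omega) hj]) 0 (α i + σ i * 0)
  rw [wp_const_add, wp_mul_left] at e1
  have e2 := wp_rebuild hP hs hA.q1 hl h5 hpre (phi_osc hP hys h.pos)
  have e3 := mul_le_mul_of_nonneg_left e2 (h0 i)
  simp only [Bf]
  simp only at e1
  linarith

theorem wp_rebR_time (hP : PmOK B N P C F gm lamM Em Um)
    (hA : AnOK B N P C F gm lamM Um q Z K ρ Xc β) (hs : SampOK B sa P.Ls Ts Em Um q (4 * C))
    (hl : lam ≤ lamM) (h : Inv N P gm C lam x) :
    wp B (rebR sa N P x) (fun x' t => Tp P Ts x' + t) 0 ≤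
      Tp P Ts x + (2 * (P.kb * P.L) + 2 * cReb P Ts) := by
  have hk : (0 : ℝ) < ((2 ^ P.kb : ℕ) : ℝ) ^ P.L := by positivity
  have ht := time_reb (L := P.L) hA.two_le (u := fun l => ((x.lv.get l).U.length : ℝ))
    fun _ => Nat.cast_nonneg _
  have hc : (0 : ℝ) ≤ cReb P Ts := Nat.cast_nonneg _
  have hm : (((x.lv.get 0).U.length : ℕ) : ℝ) / ((2 ^ P.kb : ℕ) : ℝ) ^ P.L ≤ 1 := by
    rw [div_le_one hk, h.u0, List.length_range]
    exact_mod_cast hA.mm
  rw [wp_rebR hP hA]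
  have e1 : ∀ r ∈ range ((2 ^ P.kb) ^ P.L),
      wp B (rebuild sa N P x (base (2 ^ P.kb) P.L r))
        (fun x' t => Tp P Ts x' + ((2 * (P.kb * P.L) + t : ℕ) : ℝ)) 0 ≤
      (2 * (P.kb * P.L) + cReb P Ts) + cReb P Ts *
        (((x.lv.get (base (2 ^ P.kb) P.L r)).U.length : ℝ) + ((2 ^ P.kb : ℕ) : ℝ) *
        ∑ l ∈ range P.L, if l + 1 ≤ base (2 ^ P.kb) P.L r then
          ((x.lv.get (l + 1)).U.length : ℝ) else 0) := by
    intro r _
    have h5 := base_le (2 ^ P.kb) P.L r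
    generalize base (2 ^ P.kb) P.L r = i at h5 ⊢
    refine wp_le_const_of_Tri (c := ⟨B, true⟩)
      (Tri_rebuild hP hs hl h5 (h.pre hP (i := i) (by omega))) ?_ 0
    rintro x' t ⟨-, -, -, k2, k3, k4, k5⟩
    have e2 : ∑ l ∈ range P.L, ((x'.lv.get (l + 1)).U.length : ℝ) =
        ∑ l ∈ range P.L, if l + 1 ≤ i then ((x.lv.get (l + 1)).U.length : ℝ) else 0 := by
      refine sum_congr rfl fun l hl => ?_
      have := mem_range.1 hl
      split_ifs with hli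
      · rw [k2 _ hli]
      · rw [k3 _ (by omega) (by omega), k4]
        simp
    have e3 : (t : ℝ) ≤ cReb P Ts * (((x.lv.get i).U.length : ℝ) + 1) := by exact_mod_cast k5
    simp only [Tp, e2]
    push_cast at e3 ⊢
    linarith
  refine le_trans (div_le_div_of_nonneg_right (sum_le_sum e1) hk.le) ?_
  rw [sum_add_distrib, ← mul_sum, add_div, mul_div_assoc]
  simp only [sum_const, card_range, nsmul_eq_mul]
  have e4 := mul_le_mul_of_nonneg_left ht hc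
  have e5 := mul_le_mul_of_nonneg_left hm hc
  have e6 : ((((2 ^ P.kb) ^ P.L : ℕ) : ℝ) * (2 * ((P.kb : ℝ) * P.L) + cReb P Ts)) /
      ((2 ^ P.kb : ℕ) : ℝ) ^ P.L = 2 * ((P.kb : ℝ) * P.L) + cReb P Ts := by
    rw [Nat.cast_pow (2 ^ P.kb)]
    field_simp
  rw [e6]
  simp only [Tp]
  linarith

end Vale.Agent.P305F
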