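import Vale.Agent.P305F.Round1

/-!
# Flow: one round
-/

namespace Vale.Agent.P305F

open Vale.Agent.P305E Vale.Agent.P305S Finset

/-- The weight of the potential of the interior point method. -/
noncomputable def c1 (P : Pm) (ρ : ℝ) : ℝ := 4 * P.kk * P.hh * (2 * ρ ^ (P.L + 2) + 1)

/-- The potential that counts active rounds. -/
noncomputable def Pot (N : Net) (P : Pm) (C lam : ℕ) (ys : ℕ → ℝ) (q Z ρ : ℝ) (x : St) : ℝ :=
  c1 P ρ * XiS N P C lam (N.obj ys) x + Tht N P ys q Z ρ x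

/-- Active states. -/
def Act (N : Net) (P : Pm) (lam : ℕ) (ys : ℕ → ℝ) (x : St) : Prop :=
  8 * (P.mm : ℝ) < N.Wv ((lam : ℝ) / P.Lam) P.δ ys (yR N P x)

/-- The scaled potential of the drifts. -/
noncomputable def Y0 (N : Net) (P : Pm) (β : ℝ) (x : St) : ℝ :=
  Yp N P β x / Real.exp (β / (48 * P.kk))

/-- The potential for bad events and time. -/
noncomputable def Nn (N : Net) (P : Pm) (Ts : ℕ) (β τ : ℝ) (x : St) : ℝ :=
  Y0 N P β x + τ * Tp P Ts x

/-- The invariant of a phase. -/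
def II (N : Net) (P : Pm) (gm C lam : ℕ) (ys : ℕ → ℝ) (Xb : ℝ) (x : St) : Prop :=
  Inv N P gm C lam x ∧ (x.top P).U = [] ∧ XiS N P C lam (N.obj ys) x ≤ Xb

/-- The amortised price of a round. -/
def cRound (P : Pm) (Ts : ℕ) : ℕ :=
  cStep P + 2 * (P.kb * P.L) + 2 * cReb P Ts + 1 + cReb P Ts * (2 ^ P.kb * (P.L * P.Ns))

variable {B : ℕ} {N : Net} {P : Pm} {C F gm lam lamM Em Um Ts : ℕ} {q Z K ρ Xc Xb β τ : ℝ}
  {sa : List Edge → M (List (Arr ℕ))} {x : St} {ys : ℕ → ℝ}

theorem Yp_nonneg : 0 ≤ Yp N P β x := sum_nonneg fun _ _ => (Real.exp_pos _).le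

theorem Y0_nonneg : 0 ≤ Y0 N P β x := div_nonneg Yp_nonneg (Real.exp_pos _).le

theorem Tp_nonneg : 0 ≤ Tp P Ts x := by
  unfold Tp
  positivity

theorem Yp_congr {x' : St} (h1 : x'.sg = x.sg) (h2 : Ys N P x' = Ys N P x) :
    Yp N P β x' = Yp N P β x := by
  simp only [Yp, zz, ut, gR, h1, yR_congr h2]

theorem XiS_congr {x' : St} {lb : ℝ} (h2 : Ys N P x' = Ys N P x) :
    XiS N P C lam lb x' = XiS N P C lam lb x := by
  simp only [XiS, yR_congr h2]

theorem zok_of (hβ : 0 < β) (h : Y0 N P β x < 1) : Zok N P x := by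
  intro e he
  rw [Y0, div_lt_one (Real.exp_pos _)] at h
  have h1 : Real.exp (β * zz N P x e) ≤ Yp N P β x :=
    single_le_sum (f := fun e => Real.exp (β * zz N P x e)) (fun _ _ => (Real.exp_pos _).le)
      (mem_range.2 he)
  have h2 := Real.exp_lt_exp.1 (h1.trans_lt h)
  rw [div_eq_mul_one_div] at h2
  exact (lt_of_mul_lt_mul_left h2 hβ.le).le

theorem Inv.cand_none (h : Inv N P gm C lam x) (h0 : (x.top P).cand.min = none) {a : ℕ}
    (ha : a < N.n) : ¬ good P.kk ((x.top P).wt.get a) ((x.top P).G.get a) := by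
  intro hg
  have h1 := (h.lev _ le_rfl).cnd a
  have h2 := MinArr.min_eq_none h0 a
  unfold St.top at h2 hg
  rw [h2, if_pos ⟨ha, hg⟩] at h1
  cases h1

theorem Inv.cand_some (h : Inv N P gm C lam x) {p : Key} (h0 : (x.top P).cand.min = some p) :
    p.2 < N.n ∧ good P.kk ((x.top P).wt.get p.2) ((x.top P).G.get p.2) := by
  obtain ⟨⟨a, h2⟩, -⟩ := MinArr.min_eq_some h0
  have h1 := (h.lev _ le_rfl).cnd a
  unfold St.top at h2 ⊢
  rw [h2] at h1
  split_ifs at h1 with hg
  obtain rfl : p = (0, a) := Option.some.inj h1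
  exact hg

theorem XiS_nonneg (hP : PmOK B N P C F gm lamM Em Um) (hys : N.DOpt ys)
    (h : N.Pos (yR N P x)) : 0 ≤ XiS N P C lam (N.obj ys) x :=
  Net.Xi_nonneg hP.net h (by positivity) hP.δ_pos.le (hys.2 _ h.feas)

theorem AnOK.rho8 (hA : AnOK B N P C F gm lamM Um q Z K ρ Xc β) : 8 ≤ ρ := by
  linarith [hA.rho, hA.K0]

theorem reb_any' (hP : PmOK B N P C F gm lamM Em Um) (hA : AnOK B N P C F gm lamM Um q Z K ρ Xc β)
    (h : Inv N P gm C lam x) (hys : N.Feas ys) :
    RebLe P.M0 (q * Z) ρ q (N.nu (gR P x) (phi N P ys x)) (2 ^ P.kb) P.L (Bf N P ys x)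
      (ρ ^ (P.L + 2)) :=
  reb_any hP.M0_ge hA.q1 hA.Z1 rfl hA.two_le hA.K0 hA.rho ((h.lev 0 (by omega)).nm_zero _)
    (fun _ => Lev.nm_nonneg _ _ _) (Net.nu_nonneg fun _ => Nat.cast_nonneg _)
    (by linarith [nu_le hP h hys, hA.nu])

open Classical in
/-- Without a good edge the rebuild gains in active states. -/
theorem reb_fail (hP : PmOK B N P C F gm lamM Em Um) (hA : AnOK B N P C F gm lamM Um q Z K ρ Xc β)
    (hl : lam ≤ lamM) (h : Inv N P gm C lam x) (hU : (x.top P).U = []) (hz : Zok N P x)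
    (hys : N.DOpt ys) (h0 : (x.top P).cand.min = none) :
    RebLe P.M0 (q * Z) ρ q (N.nu (gR P x) (phi N P ys x)) (2 ^ P.kb) P.L (Bf N P ys x)
      (18 * ρ ^ (P.L + 1) / Z - if Act N P lam ys x then 1 else 0) := by
  have hL : (0 : ℝ) < P.Lam := by exact_mod_cast hP.lam_pos
  have hk : (1 : ℝ) ≤ P.kk := by exact_mod_cast hP.kk_pos
  have hm : (1 : ℝ) ≤ P.mm := by exact_mod_cast P.mm_pos
  have hQ : 1 ≤ q * Z := by nlinarith [hA.q1, hA.Z1]
  have hQ' : 1 ≤ (4 * (q * Z)) ^ (P.L + 1) := one_le_pow₀ (by linarith)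
  have hkk := hA.kk
  have hlam : (lam : ℝ) / P.Lam * P.δ * (C * F) ≤ P.mm := by
    refine le_trans ?_ hA.lamd
    have : (lam : ℝ) ≤ lamM := by exact_mod_cast hl
    have := hP.δ_pos
    gcongr
  obtain ⟨w1, w2, w3⟩ := Net.witness hP.net hys h.pos (hz.apx hP h) (by positivity)
    (by rw [div_le_div_iff₀ (by positivity) (by norm_num)]; linarith) hP.δ_pos hP.δ_le
    (by positivity) hlam (by exact_mod_cast hA.mm)
    (fun e _ => div_nonneg (Nat.cast_nonneg _) hL.le)
  have b0 : Bf N P ys x 0 = 0 := (h.lev 0 (by omega)).nm_zero _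
  have b1 : ∀ j, 0 ≤ Bf N P ys x j := fun _ => Lev.nm_nonneg _ _ _
  have n0 : 0 ≤ N.nu (gR P x) (phi N P ys x) := Net.nu_nonneg fun _ => Nat.cast_nonneg _
  have n1 := nu_phi (ys := ys) (x := x) hP
  unfold Act
  generalize N.Wv ((lam : ℝ) / P.Lam) P.δ ys (yR N P x) = W at *
  split_ifs with hact
  · have g1 := h.grad_top hP hU (phi N P ys x)
    rw [gt_phi hP.net] at g1
    have g2 := mul_le_mul_of_nonneg_left (w3 hact) hL.le
    have g3 : -(P.kk * ∑ a ∈ range N.n, ((x.top P).G.get a : ℝ) *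
        (phi N P ys x a - phi N P ys x ((x.top P).par.get a))) ≤ Bf N P ys x (P.L + 1) := by
      rw [mul_sum, ← sum_neg_distrib]
      refine sum_le_sum fun a ha => ?_
      have k1 := h.cand_none h0 (mem_range.1 ha)
      unfold good at k1
      have k2 : (P.kk : ℝ) * |((x.top P).G.get a : ℝ)| ≤ ww ((x.top P).wt.get a) := by
        have : ((P.kk * ((x.top P).G.get a).natAbs : ℕ) : ℝ) ≤ ww ((x.top P).wt.get a) := by
          exact_mod_cast not_lt.1 k1
        rw [Nat.cast_mul, Nat.cast_natAbs, Int.cast_abs] at this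
        exact this
      refine (neg_le_abs _).trans ?_
      rw [← mul_assoc, abs_mul, abs_mul, abs_of_nonneg (by linarith : (0 : ℝ) ≤ P.kk)]
      exact mul_le_mul_of_nonneg_right k2 (abs_nonneg _)
    have g4 : P.kk * (P.Lam * (W / 4)) ≤ Bf N P ys x (P.L + 1) := by
      rw [g1] at g3
      nlinarith
    have hW : 0 ≤ P.Lam * (W / 4) := by
      have : 0 ≤ W := by linarith
      positivity
    have g5 : 12 * (4 * (q * Z)) ^ (P.L + 1) * (P.Lam * (W / 4)) ≤ Bf N P ys x (P.L + 1) :=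
      (mul_le_mul_of_nonneg_right hkk hW).trans g4
    have hQp : 0 < (q * Z) ^ (P.L + 1) := by positivity
    have h4 : (0 : ℝ) < 4 ^ (P.L + 1) * (q * Z) ^ (P.L + 1) := by positivity
    rw [mul_pow] at g5
    refine reb_gain hP.M0_ge hA.q1 hA.Z1 rfl hA.two_le hA.K0 hA.rho b0 b1 n0
      (by linarith [nu_le hP h hys.1, hA.nu]) ?_ ?_
    · rw [le_div_iff₀ hQp]
      refine le_trans ?_ g5
      have : P.M0 ≤ 12 * (P.Lam * (W / 4)) := by
        unfold Pm.M0
        nlinarith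
      nlinarith
    · rw [le_div_iff₀ hQp]
      refine le_trans ?_ g5
      have : N.nu (gR P x) (phi N P ys x) ≤ 12 * (P.Lam * (W / 4)) := by
        rw [n1]
        nlinarith
      nlinarith
  · rw [sub_zero]
    refine reb_small hP.M0_ge hA.q1 hA.Z1 rfl hA.two_le (by linarith [hA.rho8]) b0 b1 n0 ?_
    rw [n1]
    unfold Pm.M0
    nlinarith [not_lt.1 hact]

theorem Tht_step (hP : PmOK B N P C F gm lamM Em Um) (hA : AnOK B N P C F gm lamM Um q Z K ρ Xc β)
    (h : Inv N P gm C lam x) {x' : St}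
    (h' : ∀ l ≤ P.L + 1, (x'.lv.get l).nm N.n = (x.lv.get l).nm N.n ∧
      (x.lv.get l).nm N.n (fun v => yR N P x' v - yR N P x v) ≤ P.Lam / P.hh) :
    Tht N P ys q Z ρ x' ≤ Tht N P ys q Z ρ x + ρ ^ (P.L + 2) := by
  have hL : (0 : ℝ) < P.Lam := by exact_mod_cast hP.lam_pos
  have hh : (1 : ℝ) ≤ P.hh := by
    have := hP.hh
    have := hP.kk_pos
    exact_mod_cast (by omega : 1 ≤ P.hh)
  have hm : (0 : ℝ) < P.mm := by exact_mod_cast P.mm_pos
  have hQ : 1 ≤ q * Z := by nlinarith [hA.q1, hA.Z1]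
  have hρ := hA.rho8
  have e := Th_step (M0 := P.M0) (Q := q * Z) (ρ := ρ) (k := 2 ^ P.kb) (L := P.L)
    (Bf := Bf N P ys x) (Bf' := Bf N P ys x') (x := P.Lam / P.hh)
    (by linarith [hP.M0_ge]) hQ (by linarith) (by linarith [hA.two_le]) (by positivity)
    fun j _ hj => by
      have k1 := nm_phi_step (P := P) (x := x) (ys := ys) (h.lev j hj).tree x'
      have k2 := h' j hj
      simp only [Bf, k2.1]
      linarith [k2.2]
  refine e.trans (add_le_add le_rfl ?_)
  have e1 : ((2 ^ P.kb : ℕ) : ℝ) ^ P.L = P.mm := by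
    unfold Pm.mm
    push_cast
    rfl
  have e2 : 2 * ρ ^ (P.L + 1) * (P.mm : ℝ) * (P.Lam / P.hh / P.M0) =
      ρ ^ (P.L + 1) * (1 / (12 * P.hh)) := by
    unfold Pm.M0
    field_simp
    ring
  rw [e1, e2, pow_succ ρ (P.L + 1)]
  refine mul_le_mul_of_nonneg_left ?_ (by positivity)
  rw [div_le_iff₀ (by positivity)]
  nlinarith

theorem roundOK (hP : PmOK B N P C F gm lamM Em Um) (hA : AnOK B N P C F gm lamM Um q Z K ρ Xc β)
    (hs : SampOK B sa P.Ls Ts Em Um q (4 * C)) (hl : lam ≤ lamM) (hys : N.DOpt ys)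
    (hX : Xb ≤ Xc) (hτ : 0 ≤ τ) :
    RoundOK B (round sa N P) (II N P gm C lam ys Xb) (Act N P lam ys) (Pot N P C lam ys q Z ρ)
      (Nn N P Ts β τ) τ (18 * ρ ^ (P.L + 1) / Z)
      (N.m / Real.exp (β / (48 * P.kk)) + τ * cRound P Ts) := by
  classical
  have hρ := hA.rho8
  have hZ := hA.Z1
  have hzok : ∀ x, Nn N P Ts β τ x < 1 → Zok N P x := fun x hx =>
    zok_of hA.β0 (lt_of_le_of_lt (le_add_of_nonneg_right (mul_nonneg hτ Tp_nonneg)) hx)
  have hlb : ∀ y, N.Feas y → N.obj ys ≤ N.obj y := hys.2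
  have hc1 : 0 ≤ c1 P ρ := by unfold c1; positivity
  have hE : 0 < Real.exp (β / (48 * P.kk)) := Real.exp_pos _
  refine ⟨hτ, by positivity, by positivity, fun x hx => ?_, fun x _ => ?_, fun x hx hN => ?_,
    fun x hx hN => ?_, fun x hx hN => ?_⟩
  · exact add_nonneg (mul_nonneg hc1 (XiS_nonneg hP hys hx.1.pos))
      (Th_nonneg (by linarith [hP.M0_ge]) (by linarith))
  · exact add_nonneg Y0_nonneg (mul_nonneg hτ Tp_nonneg)
  · obtain ⟨h, hU, hXb⟩ := hx
    unfold round tryP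
    cases h0 : (x.top P).cand.min with
    | none =>
      simp only [Option.elim_none, pure_bind]
      exact (Tri_rebR hP hA hs hl h).mono fun x' _ k => ⟨k.1, k.2.2.2, by rwa [XiS_congr k.2.2.1]⟩
    | some p =>
      obtain ⟨ha, hg⟩ := h.cand_some h0
      refine (Tri_stepP hP hl hlb hA.X1 hA.gmX h hU (hzok x hN) (hXb.trans hX) ha hg).bind ?_
      rintro x1 t ⟨k1, k2, -⟩
      refine (Tri_rebR hP hA hs hl k1).mono fun x' _ k => ⟨k.1, k.2.2.2, ?_⟩
      have : (0 : ℝ) ≤ 1 / (4 * P.kk * P.hh) := by positivity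
      rw [XiS_congr k.2.2.1]
      linarith
  · obtain ⟨h, hU, hXb⟩ := hx
    have key : ∀ x1 b, Inv N P gm C lam x1 → RebLe P.M0 (q * Z) ρ q
        (N.nu (gR P x1) (phi N P ys x1)) (2 ^ P.kb) P.L (Bf N P ys x1) b →
        wp B (rebR sa N P x1) (fun x' _ => Pot N P C lam ys q Z ρ x') 0 ≤
          Pot N P C lam ys q Z ρ x1 + b := by
      intro x1 b k1 hb
      have e1 := wp_le_of_Tri (Tri_rebR hP hA hs hl k1)
        (F := fun x' _ => Pot N P C lam ys q Z ρ x')
        (G := fun x' _ => c1 P ρ * XiS N P C lam (N.obj ys) x1 + Tht N P ys q Z ρ x')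
        (fun x' _ k => by simp only [Pot, XiS_congr k.2.2.1, le_refl]) 0
        (c1 P ρ * XiS N P C lam (N.obj ys) x1 + 0)
      rw [wp_const_add] at e1
      have e2 := wp_rebR_Th hP hA hs hl k1 hys.1 hb
      simp only [Pot] at e1 ⊢
      linarith
    unfold round tryP
    cases h0 : (x.top P).cand.min with
    | none =>
      simp only [Option.elim_none, pure_bind]
      have := key x _ h (reb_fail hP hA hl h hU (hzok x hN) hys h0)
      linarith
    | some p =>
      obtain ⟨ha, hg⟩ := h.cand_some h0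
      rw [Option.elim_some, wp_bind]
      refine wp_le_const_of_Tri (c := ⟨B, true⟩)
        (Tri_stepP hP hl hlb hA.X1 hA.gmX h hU (hzok x hN) (hXb.trans hX) ha hg) ?_ 0
      rintro x1 t ⟨k1, k2, k3, -⟩
      have e1 := key x1 _ k1 (reb_any' hP hA k1 hys.1)
      have e2 := Tht_step (ys := ys) hP hA h k3
      have e3 := mul_le_mul_of_nonneg_left k2 hc1
      have hk : (0 : ℝ) < P.kk := by exact_mod_cast hP.kk_pos
      have hh : (0 : ℝ) < P.hh := by
        have := hP.hh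
        have := hP.kk_pos
        exact_mod_cast (by omega : 0 < P.hh)
      have e4 : c1 P ρ * (1 / (4 * P.kk * P.hh)) = 2 * ρ ^ (P.L + 2) + 1 := by
        unfold c1
        field_simp
      have e5 : (0 : ℝ) ≤ 18 * ρ ^ (P.L + 1) / Z := by positivity
      have e6 : (if Act N P lam ys x then (1 : ℝ) else 0) ≤ 1 := by split_ifs <;> norm_num
      simp only [Pot] at e1 ⊢
      rw [mul_sub, e4] at e3
      linarith
  · obtain ⟨h, hU, hXb⟩ := hx
    have key : ∀ (x1 : St) (t : ℕ), Inv N P gm C lam x1 →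
        wp B (rebR sa N P x1) (fun x' t' => Nn N P Ts β τ x' + τ * (((t + t' : ℕ) : ℝ) + 1)) 0 ≤
          Y0 N P β x1 + τ * (Tp P Ts x1 + t + (2 * (P.kb * P.L) + 2 * cReb P Ts + 1)) := by
      intro x1 t k1
      have e1 := wp_le_of_Tri (Tri_rebR hP hA hs hl k1)
        (F := fun x' t' => Nn N P Ts β τ x' + τ * (((t + t' : ℕ) : ℝ) + 1))
        (G := fun x' t' => (Y0 N P β x1 + τ * (t + 1)) + τ * (Tp P Ts x' + t'))
        (fun x' _ k => by
          simp only [Nn, Y0, Yp_congr k.2.1 k.2.2.1]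
          push_cast
          linarith) 0 ((Y0 N P β x1 + τ * (t + 1)) + τ * 0)
      rw [wp_const_add, wp_mul_left] at e1
      have e2 := mul_le_mul_of_nonneg_left (wp_rebR_time hP hA hs hl k1) hτ
      simp only at e1
      linarith
    have hm : (0 : ℝ) ≤ N.m / Real.exp (β / (48 * P.kk)) := by positivity
    unfold round tryP
    cases h0 : (x.top P).cand.min with
    | none =>
      simp only [Option.elim_none, pure_bind]
      have e1 := key x 0 h
      have e2 : (2 * (P.kb * P.L) + 2 * cReb P Ts + 1 : ℝ) ≤ cRound P Ts := by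
        have : 2 * (P.kb * P.L) + 2 * cReb P Ts + 1 ≤ cRound P Ts := by unfold cRound; omega
        exact_mod_cast this
      have e3 := mul_le_mul_of_nonneg_left e2 hτ
      simp only [Nat.zero_add, Nn, Nat.cast_zero] at e1 ⊢
      linarith
    | some p =>
      obtain ⟨ha, hg⟩ := h.cand_some h0
      rw [Option.elim_some, wp_bind]
      have e1 := wp_le_of_Tri
        (Tri_stepP hP hl hlb hA.X1 hA.gmX h hU (hzok x hN) (hXb.trans hX) ha hg)
        (F := fun x1 t => wp B (rebR sa N P x1)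
          (fun x' t' => Nn N P Ts β τ x' + τ * (((t + t' : ℕ) : ℝ) + 1)) 0)
        (G := fun x1 _ => Yp N P β x1 / Real.exp (β / (48 * P.kk)) +
          τ * (Tp P Ts x + cRound P Ts))
        (by
          rintro x1 t ⟨k1, -, -, k4, k5⟩
          refine (key x1 t k1).trans (add_le_add le_rfl (mul_le_mul_of_nonneg_left ?_ hτ))
          have e2 : ∑ l ∈ range P.L, ((x1.lv.get (l + 1)).U.length : ℝ) =
              ∑ l ∈ range P.L, ((x.lv.get (l + 1)).U.length : ℝ) + P.L * P.Ns := by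
            rw [sum_congr rfl fun l hl => by
              rw [k4 (l + 1) (by omega) (by have := mem_range.1 hl; omega)]]
            simp [sum_add_distrib]
          have e3 : (t : ℝ) ≤ cStep P := by exact_mod_cast k5
          simp only [Tp, e2, cRound]
          push_cast
          linarith) 0 (0 / Real.exp (β / (48 * P.kk)) + τ * (Tp P Ts x + cRound P Ts))
      rw [wp_add_const, wp_div] at e1
      have e4 := div_le_div_of_nonneg_right (wp_stepP hP hl hlb hA.X1 hA.gmX h hU (hzok x hN)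
        (hXb.trans hX) ha hg hA.β0.le hA.β1) hE.le
      rw [add_div] at e4
      simp only [Nn, Y0] at e1 ⊢
      linarith

end Vale.Agent.P305F
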