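import Vale.Agent.P305F.Prog

/-!
# Flow, part 4: conditions on the parameters, prices, and the quantities for the detection
-/

namespace Vale.Agent.P305F

open Vale.Agent.P305E Vale.Agent.P305S Finset

/-- The conditions on the parameters that make a round safe. `gm` bounds the capacities, `lamM`
the scaled multipliers, `Em` and `Um` the size and total capacity of the inputs of the sampler. -/
structure PmOK (B : ℕ) (N : Net) (P : Pm) (C F gm lamM Em Um : ℕ) : Prop where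
  net : N.OK C F
  em : N.n + N.m ≤ Em
  um : (2 * P.Ls + 3) ^ (P.L + 1) * (N.m * gm) ≤ Um
  bb : 2 * (P.Ls + 1) * (N.n + N.m) ≤ 2 ^ P.bb
  dm : 1 + (P.L + 1) * (P.Ls + 1) ≤ P.Dm
  wd : (P.L + 1) * P.bb ≤ P.wd
  gB : 2 ^ P.bb * (N.m * gm + lamM * F) ≤ B
  gmB : gm ≤ B
  yB : 3 * C * P.D ≤ B
  lB : P.L + 2 ≤ B
  rb1 : Um ≤ 2 ^ P.rb
  rb2 : 2 ^ P.rb ≤ B
  amt : P.kk * P.hh * (N.m * gm + lamM * F) ≤ P.D * P.Lam
  d_pos : 0 < P.D
  lam_pos : 0 < P.Lam
  kk_pos : 0 < P.kk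
  hh : 64 * P.kk ≤ P.hh
  lam6 : 288 * C * P.kk ≤ P.Lam
  dd_pos : 0 < P.Dd
  dd_le : P.Dd ≤ P.D ^ 2

/-- The price of a rebuild, per refreshed arc. -/
def cReb (P : Pm) (Ts : ℕ) : ℕ := 100 * (P.Dm + 1) ^ 2 * (P.Ls + 1) * (P.bb + 1) * (Ts + 1)

/-- The price of a step. -/
def cStep (P : Pm) : ℕ := (P.Ns + 1) * (2 * P.rb + P.wd + 4 * P.Dm + P.L + 4)

/-- The parameter of the barrier. -/
noncomputable def Pm.δ (P : Pm) : ℝ := (P.Dd : ℝ) / (P.D : ℝ) ^ 2

/-- The capacities (scaled). -/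
noncomputable def gR (P : Pm) (x : St) (e : ℕ) : ℝ := P.g (x.sg.get e)

/-- The capacities. -/
noncomputable def ut (P : Pm) (x : St) (e : ℕ) : ℝ := gR P x e / P.Lam

/-- The drift of the slack of an arc since its last refresh. -/
noncomputable def zz (N : Net) (P : Pm) (x : St) (e : ℕ) : ℝ :=
  ut P x e * |N.sl (yR N P x) e - (x.sg.get e : ℝ) / P.D|

/-- All drifts are small. -/
def Zok (N : Net) (P : Pm) (x : St) : Prop := ∀ e < N.m, zz N P x e ≤ 1 / (48 * P.kk)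

/-- The exponential potential of the drifts. -/
noncomputable def Yp (N : Net) (P : Pm) (β : ℝ) (x : St) : ℝ :=
  ∑ e ∈ range N.m, Real.exp (β * zz N P x e)

/-- The potential of the interior point method at a state. -/
noncomputable def XiS (N : Net) (P : Pm) (C lam : ℕ) (lb : ℝ) (x : St) : ℝ :=
  N.Xi ((lam : ℝ) / P.Lam) P.δ (3 * C) lb (yR N P x)

/-- The indicator of the subtree below `a`. -/
def ind (par : ℕ → ℕ) (rt k a v : ℕ) : ℤ := if a ∈ pathL par rt k v then 1 else 0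

/-- The part of the norm of a level outside of `A`. -/
noncomputable def Lev.rest (n : ℕ) (v : Lev) (A : List ℕ) (ψ : ℕ → ℝ) : ℝ :=
  ∑ a ∈ range n, if a ∈ A then 0 else (ww (v.wt.get a) : ℝ) * |ψ a - ψ (v.par.get a)|

end Vale.Agent.P305F
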