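import Vale.Agent.P305F.Level
import Vale.Agent.P305F.WT
import Vale.Agent.P305F.Ipm

/-!
# Flow: one step of the interior point method, and the detection of large drifts
-/

namespace Vale.Agent.P305F

open Vale.Agent.P305E Vale.Agent.P305S Finset

variable {B : ℕ} {N : Net} {P : Pm} {C F gm lam lamM Em Um : ℕ} {x : St}

@[fun_prop] theorem impl_yvalP' : Impl fun p : ℕ × Arr ℕ × ℕ × Arr ℤ × ℕ =>
    yvalP p.1 p.2.1 p.2.2.1 p.2.2.2.1 p.2.2.2.2 := by
  unfold yvalP
  fun_prop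

attribute [local fun_prop] Grow.int_pos in
@[fun_prop] theorem impl_sigP :
    Impl fun p : Net × Pm × St × ℕ => sigP p.1 p.2.1 p.2.2.1 p.2.2.2 := by
  unfold sigP
  fun_prop

@[fun_prop] theorem g_samt : Grow fun p : Pm × ℤ => samt p.1 p.2 := by
  unfold samt amt
  fun_prop

@[fun_prop] theorem impl_noteP : Impl fun p : Pm × Arr Lev × List ℕ => noteP p.1 p.2.1 p.2.2 := by
  unfold noteP
  fun_prop

@[fun_prop] theorem impl_stepP :
    Impl fun p : Net × Pm × St × ℕ => stepP p.1 p.2.1 p.2.2.1 p.2.2.2 := by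
  unfold stepP
  fun_prop

@[fun_prop] theorem impl_tryP : Impl fun p : Net × Pm × St => tryP p.1 p.2.1 p.2.2 := by
  unfold tryP
  fun_prop

theorem rp_Ys' {D : ℕ} (h : IsTree N.n (x.top P).rt (x.top P).par.get D) (hD : D ≤ P.Dm) :
    Rp N.n (x.top P).rt (x.top P).par.get x.off.get (Ys N P x) := fun v hv hne => by
  rw [h.rp_yof hD x.off.get v hv hne, Ys, Ys, if_pos hv, if_pos (h.par_lt v hv)]
  ring

theorem Ys_le' (hN : N.OK C F) (hD : 0 < P.D) (h : N.Pos (yR N P x)) (u w : ℕ) :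
    (Ys N P x u - Ys N P x w).natAbs ≤ 2 * C * P.D := by
  have key : ∀ u, (Ys N P x u).natAbs ≤ C * P.D := fun u => by
    by_cases hu : u < N.n
    · have h1 := Net.pot_le hN h.feas hu
      have h0 : Ys N P x 0 = 0 := by simp [Ys]
      have hD' : (0 : ℝ) < P.D := by exact_mod_cast hD
      rw [yR, yR, h0, Int.cast_zero, zero_div, sub_zero, abs_div, abs_of_pos hD',
        div_le_iff₀ hD'] at h1
      have h2 : |Ys N P x u| ≤ (C * P.D : ℕ) := by exact_mod_cast h1
      rw [Int.abs_eq_natAbs] at h2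
      exact_mod_cast h2
    · simp [Ys, hu]
  have := key u
  have := key w
  rw [mul_assoc]
  omega

theorem sl_yR (hD : 0 < P.D) (e : ℕ) : N.sl (yR N P x) e =
    (((P.D * N.c.get e : ℕ) - (Ys N P x (N.hd.get e) - Ys N P x (N.tl.get e)) : ℤ) : ℝ) / P.D := by
  have hD' : (P.D : ℝ) ≠ 0 := by exact_mod_cast hD.ne'
  simp only [Net.sl, Net.dl, yR]
  push_cast
  field_simp

theorem sigOf_eq (hN : N.OK C F) (hD : 0 < P.D) (h : N.Pos (yR N P x)) {e : ℕ} (he : e < N.m) :
    (sigOf N P x e : ℝ) / P.D = N.sl (yR N P x) e := by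
  have _ := hN
  have h1 := h e he
  rw [sl_yR hD] at h1 ⊢
  have h2 := (div_pos_iff_of_pos_right (by exact_mod_cast hD)).1 h1
  have h3 := Int.toNat_of_nonneg (Int.cast_pos.1 h2).le
  rw [← h3, Int.cast_natCast, sigOf]

theorem sigOf_le (hN : N.OK C F) (hD : 0 < P.D) (h : N.Pos (yR N P x)) {e : ℕ} (he : e < N.m) :
    sigOf N P x e ≤ 3 * C * P.D := by
  have h1 := Net.sl_le hN h.feas he
  rw [← sigOf_eq hN hD h he, div_le_iff₀ (by exact_mod_cast hD)] at h1
  exact_mod_cast h1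

theorem Tri_sigP {c : Cx} {D : ℕ} (hN : N.OK C F) (hD : 0 < P.D) (hB : 3 * C * P.D ≤ c.B)
    (ht : IsTree N.n (x.top P).rt (x.top P).par.get D) (hk : D ≤ P.Dm)
    (h : N.Pos (yR N P x)) {e : ℕ} (he : e < N.m) :
    Tri c (sigP N P x e) fun s t => s = sigOf N P x e ∧ t ≤ 4 * P.Dm := by
  have hY : ∀ u < N.n, ∀ w < N.n, (Ys N P x u - Ys N P x w).natAbs ≤ c.B := fun u _ w _ =>
    (Ys_le' hN hD h u w).trans (by nlinarith)
  refine (Tri_yvalP ht hk (rp_Ys' ht hk) hY (hN.hd_lt e he)).bind ?_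
  rintro _ t ⟨rfl, h1⟩
  refine (Tri_yvalP ht hk (rp_Ys' ht hk) hY (hN.tl_lt e he)).bind ?_
  rintro _ t' ⟨rfl, h2⟩
  have h3 := sigOf_le hN hD h he
  simp only [Tri_num, sub_sub_sub_cancel_right]
  exact ⟨h3.trans hB, rfl, by omega⟩

theorem PmOK.delta (hP : PmOK B N P C F gm lamM Em Um) : 0 < P.δ ∧ P.δ * (P.D : ℝ) ^ 2 = P.Dd := by
  have h1 : (0 : ℝ) < P.D := by exact_mod_cast hP.d_pos
  have h2 : (0 : ℝ) < P.Dd := by exact_mod_cast hP.dd_pos
  exact ⟨by unfold Pm.δ; positivity, by unfold Pm.δ; field_simp⟩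

theorem Zok.apx (hP : PmOK B N P C F gm lamM Em Um) (h : Inv N P gm C lam x) (hz : Zok N P x) :
    N.Apx P.δ (1 / (8 * P.kk)) (ut P x) (yR N P x) := by
  intro e he
  obtain ⟨h1, h2, -⟩ := h.sgb e he
  have hD : (0 : ℝ) < P.D := by exact_mod_cast hP.d_pos
  have hL : (0 : ℝ) < P.Lam := by exact_mod_cast hP.lam_pos
  have hk : (1 : ℝ) ≤ P.kk := by exact_mod_cast hP.kk_pos
  have h3 : (288 * C * P.kk : ℝ) ≤ P.Lam := by exact_mod_cast hP.lam6
  have h4 := hz e he
  rw [zz, ut, gR, Pm.g, div_mul_eq_mul_div, div_le_iff₀ hL] at h4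
  have h5 := gam_drift (S := 3 * C) (ε := 1 / (48 * P.kk)) hP.d_pos hP.lam_pos hP.delta.2 h1
    (by rw [div_le_iff₀ hD]; exact_mod_cast h2)
    (one_div_le_one_div_of_le (by norm_num) (by linarith))
    (by rw [one_div, inv_mul_eq_div, le_div_iff₀ (by positivity)]; linarith) h4
  rw [ut, gR, Pm.g]
  refine h5.trans (le_of_eq ?_)
  field_simp
  ring

/-- The gradient sums of the top level are those of the approximate gradient. -/
theorem Inv.grad_top (hP : PmOK B N P C F gm lamM Em Um) (h : Inv N P gm C lam x)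
    (hU : (x.top P).U = []) (ψ : ℕ → ℝ) :
    ∑ a ∈ range N.n, ((x.top P).G.get a : ℝ) * (ψ a - ψ ((x.top P).par.get a)) =
      P.Lam * N.gt ((lam : ℝ) / P.Lam) (ut P x) ψ := by
  have hL : (P.Lam : ℝ) ≠ 0 := by exact_mod_cast hP.lam_pos.ne'
  have ht : LevOK N P gm lam x.sg.get (P.L + 1) (x.top P) := h.lev _ le_rfl
  rw [ht.grad, Net.gt, mul_sum]
  refine sum_congr rfl fun e he => ?_
  rw [ht.snp e (mem_range.1 he) (by simp [hU]), ut, gR]
  field_simp

/-- The state after the move, before the refresh. -/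
def mv (P : Pm) (x : St) (a : ℕ) : St :=
  ⟨x.lv, x.off.set a (x.off.get a + samt P ((x.top P).G.get a)), x.sg⟩

/-- The facts on the move. -/
structure MvOK (B : ℕ) (N : Net) (P : Pm) (C lam : ℕ) (lb : ℝ) (x : St) (a : ℕ) : Prop where
  pos : N.Pos (yR N P (mv P x a))
  xi : XiS N P C lam lb (mv P x a) ≤ XiS N P C lam lb x - 1 / (4 * P.kk * P.hh)
  nm : ∀ l ≤ P.L + 1, (x.lv.get l).nm N.n (fun v => yR N P (mv P x a) v - yR N P x v) ≤
    P.Lam / P.hh
  ww_pos : 0 < ww ((x.top P).wt.get a)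
  arc : ∀ e < N.m, ut P x e * |N.sl (yR N P (mv P x a)) e - N.sl (yR N P x) e| ≤
    mass e ((x.top P).wt.get a) / (P.hh * ww ((x.top P).wt.get a))
  fit : (x.off.get a + samt P ((x.top P).G.get a)).natAbs ≤ B

theorem mvOK (hP : PmOK B N P C F gm lamM Em Um) (hl : lam ≤ lamM) (lb : ℝ)
    (h : Inv N P gm C lam x) (hU : (x.top P).U = []) (hz : Zok N P x) {a : ℕ} (ha : a < N.n)
    (hg : good P.kk ((x.top P).wt.get a) ((x.top P).G.get a)) : MvOK B N P C lam lb x a := by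
  have ht : LevOK N P gm lam x.sg.get (P.L + 1) (x.top P) := h.lev _ le_rfl
  have hD : (0 : ℝ) < P.D := by exact_mod_cast hP.d_pos
  have hL : (0 : ℝ) < P.Lam := by exact_mod_cast hP.lam_pos
  have hk : (1 : ℝ) ≤ P.kk := by exact_mod_cast hP.kk_pos
  have hh : (64 * P.kk : ℝ) ≤ P.hh := by exact_mod_cast hP.hh
  have hh0 : (0 : ℝ) < P.hh := by linarith
  set g := (x.top P).G.get a with hgd
  set w := (x.top P).wt.get a with hwd
  set ψ : ℕ → ℝ := fun v => yR N P (mv P x a) v - yR N P x v with hψ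
  have hg0 : 0 < g.natAbs := Nat.pos_of_mul_pos_left (lt_of_le_of_lt (Nat.zero_le _) hg)
  have hrt : a ≠ (x.top P).rt := fun e => by simp [hgd, e, ht.grt] at hg0
  have r0 := rp_Ys' ht.tree hP.dm
  have r1 := rp_Ys' (x := mv P x a) ht.tree hP.dm
  have h1 : ∀ b < N.n, ψ b - ψ ((x.top P).par.get b) = if b = a then (samt P g : ℝ) / P.D else 0 := by
    intro b hb
    by_cases hbr : b = (x.top P).rt
    · rw [hbr, ht.tree.par_rt, if_neg hrt.symm, sub_self]
    · have a0 := congrArg (Int.cast : ℤ → ℝ) (r0 b hb hbr)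
      have a1 := congrArg (Int.cast : ℤ → ℝ) (r1 b hb hbr)
      simp only [mv, Arr.get_set] at a1
      simp only [hψ, yR, mv]
      push_cast at a0 a1
      split_ifs at a1 ⊢ with hba
      · subst hba
        field_simp
        simp only [St.top] at a0 a1 hgd ⊢
        rw [hgd]
        linarith
      · field_simp
        simp only [St.top] at a0 a1 ⊢
        linarith
  have habs : |(samt P g : ℝ) / P.D| = amt P g / P.D := by
    rw [abs_div, abs_of_pos hD, samt]
    split_ifs <;> simp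
  have h2 : ∀ u : ℕ → ℝ, ∑ b ∈ range N.n, u b * |ψ b - ψ ((x.top P).par.get b)| =
      u a * (amt P g / P.D) := fun u => by
    rw [sum_eq_single_of_mem a (mem_range.2 ha) fun b hb hne => by
      rw [h1 b (mem_range.1 hb), if_neg hne, abs_zero, mul_zero], h1 a ha, if_pos rfl, habs]
  have hq : 0 < P.kk * P.hh * g.natAbs := by
    have := hP.kk_pos
    have := hP.hh
    exact Nat.mul_pos (Nat.mul_pos (by omega) (by omega)) hg0
  have hq1 : P.kk * P.hh * g.natAbs ≤ P.D * P.Lam := le_trans (Nat.mul_le_mul_left _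
    ((ht.G_le hP.net ha).trans (Nat.add_le_add_left (Nat.mul_le_mul_right _ hl) _))) hP.amt
  have hup : (amt P g : ℝ) * (P.kk * P.hh * g.natAbs) ≤ P.D * P.Lam := by
    exact_mod_cast Nat.div_mul_le_self (P.D * P.Lam) (P.kk * P.hh * g.natAbs)
  have hlo : (P.D * P.Lam : ℝ) ≤ 2 * (amt P g * (P.kk * P.hh * g.natAbs)) := by
    have a1 := Nat.lt_div_mul_add (a := P.D * P.Lam) hq
    have a2 : 1 ≤ amt P g := (Nat.le_div_iff_mul_le hq).2 (by simpa using hq1)
    have a3 := Nat.mul_le_mul_right (P.kk * P.hh * g.natAbs) a2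
    have a4 : P.D * P.Lam ≤ 2 * (amt P g * (P.kk * P.hh * g.natAbs)) := by
      unfold amt at a3 ⊢
      omega
    exact_mod_cast a4
  have ham : (0 : ℝ) ≤ amt P g := Nat.cast_nonneg _
  have h3 : N.gt ((lam : ℝ) / P.Lam) (ut P x) ψ ≤ -(1 / (2 * P.kk * P.hh)) := by
    have a1 := h.grad_top hP hU ψ
    rw [sum_eq_single_of_mem a (mem_range.2 ha) fun b hb hne => by
      rw [h1 b (mem_range.1 hb), if_neg hne, mul_zero], h1 a ha, if_pos rfl, ← hgd] at a1
    have a2 : (g : ℝ) * samt P g = -(g.natAbs * amt P g) := by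
      rw [samt, Nat.cast_natAbs]
      split_ifs with h0
      · rw [abs_of_pos h0]; push_cast; ring
      · rw [abs_of_nonpos (not_lt.1 h0)]; push_cast; ring
    rw [← mul_div_assoc, a2, div_eq_iff hD.ne'] at a1
    rw [le_neg, div_le_iff₀ (by positivity)]
    refine le_of_mul_le_mul_left ?_ (mul_pos hD hL)
    have a3 : (P.D * P.Lam : ℝ) * (-N.gt ((lam : ℝ) / P.Lam) (ut P x) ψ * (2 * P.kk * P.hh)) =
        2 * (amt P g * (P.kk * P.hh * g.natAbs)) := by
      linear_combination (2 * P.kk * P.hh : ℝ) * a1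
    linarith
  have h4 : ∀ e < N.m, gR P x e * |N.dl ψ e| ≤ mass e w * (amt P g / P.D) := fun e he => by
    have := ht.mss e he (by simp [hU]) ψ
    rwa [h2 fun b => mass e ((x.top P).wt.get b), ht.snp e he (by simp [hU])] at this
  have hm : ∑ e ∈ range N.m, (mass e w : ℝ) ≤ ww w := by
    exact_mod_cast sum_mass_le (ht.wok a ha).1 (range N.m)
  have h5 : (ww w : ℝ) * (amt P g / P.D) ≤ P.Lam / P.hh := by
    have a1 : (ww w : ℝ) ≤ P.kk * g.natAbs := by exact_mod_cast hg.le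
    rw [← mul_div_assoc, div_le_div_iff₀ hD hh0]
    nlinarith [mul_le_mul_of_nonneg_right a1 (mul_nonneg ham hh0.le)]
  have hw0 : 0 < ww w := by
    by_contra h0
    have a1 : N.gt ((lam : ℝ) / P.Lam) (ut P x) ψ = 0 := sum_eq_zero fun e he => by
      have a2 := h4 e (mem_range.1 he)
      have a3 : mass e w = 0 := by
        have := sum_mass_le (ht.wok a ha).1 {e}
        rw [sum_singleton, ← hwd] at this
        omega
      have a4 : (0 : ℝ) < gR P x e := by unfold gR Pm.g gam; positivity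
      rw [a3, Nat.cast_zero, zero_mul] at a2
      rw [abs_nonpos_iff.1 (nonpos_of_mul_nonpos_right a2 a4), mul_zero]
    have : (0 : ℝ) < 1 / (2 * P.kk * P.hh) := by positivity
    linarith
  have hw1 : (0 : ℝ) < ww w := by exact_mod_cast hw0
  have h6 : ∀ e < N.m, ut P x e * |N.dl ψ e| ≤ mass e w / (P.hh * ww w) := fun e he => by
    rw [ut, div_mul_eq_mul_div, div_le_iff₀ hL]
    refine (h4 e he).trans ?_
    rw [div_mul_eq_mul_div, mul_div_assoc]
    refine mul_le_mul_of_nonneg_left ?_ (Nat.cast_nonneg _)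
    rw [← div_div, le_div_iff₀' hw1]
    exact h5
  have h7 : N.nu (ut P x) ψ ≤ 1 / P.hh := by
    refine (sum_le_sum fun e he => h6 e (mem_range.1 he)).trans ?_
    rw [← sum_div, div_le_div_iff₀ (by positivity) hh0]
    nlinarith
  have hC : (1 : ℝ) ≤ C ∨ N.m = 0 := by
    rcases Nat.eq_zero_or_pos N.m with h0 | h0
    · exact Or.inr h0
    · exact Or.inl (by exact_mod_cast (hP.net.c_pos 0 h0).trans (hP.net.c_le 0 h0))
  have hC1 : (1 : ℝ) ≤ C := hC.resolve_right fun h0 => by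
    have : (0 : ℝ) < 1 / (2 * P.kk * P.hh) := by positivity
    simp only [Net.gt, h0, range_zero, sum_empty] at h3
    linarith
  have h8 := Net.step (lam := (lam : ℝ) / P.Lam) (S := 3 * C) (lb := lb) h.pos (hz.apx hP h)
    hP.delta.1.le (by linarith) (by positivity)
    (by rw [div_le_one (by positivity)]; linarith)
    (fun e _ => by unfold ut gR; positivity) h7
    (one_div_le_one_div_of_le (by norm_num) (by linarith))
  have e1 : (fun v => yR N P x v + ψ v) = yR N P (mv P x a) := by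
    funext v
    simp [hψ]
  rw [e1] at h8
  refine ⟨h8.1, h8.2.trans ?_, fun l hl => ((h.ref l _ hl le_rfl).dom ψ).trans ?_, hw0,
    fun e he => ?_, ?_⟩
  · have a1 : 8 * (1 / (P.hh : ℝ)) ^ 2 ≤ 1 / (8 * P.kk * P.hh) := by
      rw [one_div_pow, mul_one_div, div_le_div_iff₀ (by positivity) (by positivity)]
      nlinarith
    have a2 : 1 / (8 * (P.kk : ℝ)) * (1 / P.hh) = 1 / (8 * P.kk * P.hh) := by field_simp
    have a3 : 1 / (2 * (P.kk : ℝ) * P.hh) = 4 * (1 / (8 * P.kk * P.hh)) := by field_simp; norm_num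
    have a4 : 1 / (4 * (P.kk : ℝ) * P.hh) = 2 * (1 / (8 * P.kk * P.hh)) := by field_simp; norm_num
    unfold XiS
    linarith
  · exact (h2 fun b => ww ((x.top P).wt.get b)).le.trans h5
  · rw [← e1, Net.sl_add, sub_sub_cancel_left, abs_neg]
    exact h6 e he
  · have a1 := r1 a ha hrt
    simp only [mv, Arr.get_set_self] at a1
    rw [a1]
    exact (Ys_le' hP.net hP.d_pos h8.1 _ _).trans (le_trans (by nlinarith) hP.yB)

theorem Tri_noteP {c : Cx} (hB : P.L + 2 ≤ c.B) (lv : Arr Lev) (l : List ℕ) :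
    Tri c (noteP P lv l) fun lv' t => (∀ j, lv'.get j = if 1 ≤ j ∧ j ≤ P.L + 1 then
      { lv.get j with U := l ++ (lv.get j).U } else lv.get j) ∧
      t ≤ (P.L + 1) * l.length + (P.L + 2) := by
  simp only [noteP, Tri_bind, Tri_num, hB, true_and, zero_add]
  refine (Tri.iterM (fun k (lv' : Arr Lev) t => (∀ j, lv'.get j = if 1 ≤ j ∧ j < k then
      { lv.get j with U := l ++ (lv.get j).U } else lv.get j) ∧ t ≤ (k - 1) * l.length + k)
    (by simp) ?_).mono fun lv' t h => by simpa [Nat.lt_succ_iff] using h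
  rintro k lv' t - ⟨h1, h2⟩
  simp only [Tri_ite, Tri_pure, Tri_bind, Tri_appendP]
  refine ⟨fun h0 => ⟨fun j => ?_, by subst h0; omega⟩, fun h0 => ⟨fun j => ?_, ?_⟩⟩
  · rw [h1]
    exact if_congr (by omega) rfl rfl
  · have hk : lv'.get k = lv.get k := by rw [h1 k, if_neg (by omega)]
    rw [Arr.get_set, hk, h1 j]
    by_cases hj : j = k
    · rw [if_pos hj, if_pos (by omega), hj]
    · rw [if_neg hj]
      exact if_congr (by omega) rfl rfl
  · obtain ⟨k, rfl⟩ := Nat.exists_eq_succ_of_ne_zero h0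
    simp only [Nat.succ_eq_add_one, Nat.add_sub_cancel, add_mul] at h2 ⊢
    omega

/-- The state after the refresh of the arcs in `l`. -/
structure Fresh (N : Net) (P : Pm) (x : St) (l : List ℕ) (x' : St) : Prop where
  off : x'.off = x.off
  sg : ∀ e, x'.sg.get e = if e ∈ l then sigOf N P x e else x.sg.get e
  lv : ∀ j, x'.lv.get j = if 1 ≤ j ∧ j ≤ P.L + 1 then
    { x.lv.get j with U := l ++ (x.lv.get j).U } else x.lv.get j

theorem Fresh.yR_eq {l : List ℕ} {x' : St} (h : Fresh N P x l x') : yR N P x' = yR N P x := by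
  funext v
  simp only [yR, Ys, St.top, h.off, h.lv (P.L + 1), Nat.le_add_left, le_refl, and_self, if_true]

theorem Tri_fresh (hP : PmOK B N P C F gm lamM Em Um) {D : ℕ} {cn : Bool}
    (ht : IsTree N.n (x.top P).rt (x.top P).par.get D) (hk : D ≤ P.Dm) (h : N.Pos (yR N P x))
    {l : List ℕ} (hl : ∀ e ∈ l, e < N.m) :
    Tri ⟨B, cn⟩ (foldM (fun (arr : Arr ℕ) e => sigP N P x e >>= fun s => pure (arr.set e s))
      x.sg l >>= fun sg => noteP P x.lv l >>= fun lv => pure (⟨lv, x.off, sg⟩ : St))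
      fun x' t => Fresh N P x l x' ∧ t ≤ l.length * (4 * P.Dm + P.L + 2) + (P.L + 2) := by
  refine (Tri.foldM (fun pre (arr : Arr ℕ) t => (∀ e, arr.get e =
    if e ∈ pre then sigOf N P x e else x.sg.get e) ∧ t ≤ pre.length * (4 * P.Dm + 1))
    (by simp) ?_).bind ?_
  · rintro pre e rest arr t rfl ⟨h1, h2⟩
    refine (Tri_sigP hP.net hP.d_pos hP.yB ht hk h (hl e (by simp))).bind ?_
    rintro _ t' ⟨rfl, h3⟩
    simp only [Tri_pure, List.mem_append, List.mem_singleton, List.length_append,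
      List.length_singleton, add_mul]
    refine ⟨fun e' => ?_, by omega⟩
    rw [Arr.get_set, h1]
    by_cases h4 : e' = e <;> simp [h4]
  · rintro sg t ⟨h1, h2⟩
    refine (Tri_noteP hP.lB x.lv l).bind ?_
    rintro lv t' ⟨h3, h4⟩
    exact ⟨⟨rfl, h1, h3⟩, by nlinarith⟩

theorem LevOK.ww_le (hP : PmOK B N P C F gm lamM Em Um) {sg : ℕ → ℕ} {v : Lev}
    (h : LevOK N P gm lam sg (P.L + 1) v) {a : ℕ} (ha : a < N.n) : ww (v.wt.get a) ≤ 2 ^ P.rb := by
  have h1 := single_le_sum (f := fun a => ww (v.wt.get a)) (fun _ _ => Nat.zero_le _)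
    (mem_range.2 ha)
  have := h.tot
  have := hP.um
  have := hP.rb1
  omega

theorem Tri_stepP (hP : PmOK B N P C F gm lamM Em Um) (hl : lam ≤ lamM) {lb X : ℝ}
    (hlb : ∀ y, N.Feas y → lb ≤ N.obj y) (hX1 : 1 ≤ X) (hgm : 2 * P.Lam * X ^ 2 / P.δ + 2 ≤ gm)
    (h : Inv N P gm C lam x) (hU : (x.top P).U = []) (hz : Zok N P x)
    (hX : XiS N P C lam lb x ≤ X) {a : ℕ} (ha : a < N.n)
    (hg : good P.kk ((x.top P).wt.get a) ((x.top P).G.get a)) :
    Tri ⟨B, true⟩ (stepP N P x a) fun x' t =>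
      Inv N P gm C lam x' ∧
      XiS N P C lam lb x' ≤ XiS N P C lam lb x - 1 / (4 * P.kk * P.hh) ∧
      (∀ l ≤ P.L + 1, (x'.lv.get l).nm N.n = (x.lv.get l).nm N.n ∧
        (x.lv.get l).nm N.n (fun v => yR N P x' v - yR N P x v) ≤ P.Lam / P.hh) ∧
      (∀ l, 1 ≤ l → l ≤ P.L + 1 → (x'.lv.get l).U.length = (x.lv.get l).U.length + P.Ns) ∧
      t ≤ cStep P := by
  have hm := mvOK hP hl lb h hU hz ha hg
  have ht : LevOK N P gm lam x.sg.get (P.L + 1) (x.top P) := h.lev _ le_rfl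
  rw [stepP, Tri_bind, Tri_inum]
  refine ⟨hm.fit, (Tri_smpsP (ht.wok a ha).1 ((ht.wok a ha).2.trans hP.wd) hm.ww_pos
    hP.rb2).bind ?_⟩
  rintro l t ⟨l1, l2, l3⟩
  refine (Tri_fresh (x := mv P x a) hP ht.tree hP.dm hm.pos l2).mono ?_
  rintro x' t' ⟨hf, ht'⟩
  have hy := hf.yR_eq
  have hlv : ∀ j, 1 ≤ j → j ≤ P.L + 1 →
      x'.lv.get j = { x.lv.get j with U := l ++ (x.lv.get j).U } := fun j a b => by
    rw [hf.lv, if_pos ⟨a, b⟩]
    rfl
  have hl0 : x'.lv.get 0 = x.lv.get 0 := by rw [hf.lv, if_neg (by omega)]; rfl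
  refine ⟨⟨fun j hj => ?_, fun j j' h1 h2 => ?_, by rw [hl0, h.u0], fun e he => ?_,
    hy ▸ hm.pos⟩, by rw [XiS, hy]; exact hm.xi, fun j hj => ⟨?_, hy ▸ hm.nm j hj⟩,
    fun j h1 h2 => by rw [hlv j h1 h2, ← l1, List.length_append, add_comm], ?_⟩
  · rcases Nat.eq_zero_or_pos j with rfl | h0
    · exact hl0 ▸ (h.lev 0 hj).all h.u0 _
    · rw [hlv j h0 hj]
      exact (h.lev j hj).note l2 fun e he => by rw [hf.sg, if_neg he]; rfl
  · rcases Nat.eq_zero_or_pos j' with rfl | h0'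
    · obtain rfl : j = 0 := by omega
      exact Ref.refl _ _
    · rcases Nat.eq_zero_or_pos j with rfl | h0
      · rw [hl0, hlv j' h0' h2]
        exact (h.ref 0 j' h1 h2).note_all h.u0 l2
      · rw [hlv j h0 (h1.trans h2), hlv j' h0' h2]
        exact (h.ref j j' h1 h2).note l
  · rw [hf.sg]
    split_ifs with h1
    · have a1 := sigOf_eq hP.net hP.d_pos hm.pos he
      have a2 : 0 < sigOf N P (mv P x a) e := by
        have := hm.pos e he
        rw [← a1, div_pos_iff_of_pos_right (by exact_mod_cast hP.d_pos)] at this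
        exact_mod_cast this
      have a3 : (0 : ℝ) ≤ 1 / (4 * P.kk * P.hh) := by positivity
      have a4 := Net.sl_ge hP.net hm.pos (lam := (lam : ℝ) / P.Lam) (X := X) (by positivity)
        hP.delta.1.le (hlb _ hm.pos.feas) (hm.xi.trans (by linarith)) he
      have a5 := (gam_le_of (Lam := P.Lam) hP.d_pos hP.delta.2 a2 hP.delta.1 hX1
        (a1 ▸ a4)).trans hgm
      exact ⟨a2, sigOf_le hP.net hP.d_pos hm.pos he, by exact_mod_cast a5⟩
    · exact h.sgb e he
  · rcases Nat.eq_zero_or_pos j with rfl | h0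
    · rw [hl0]
    · rw [hlv j h0 hj]
      rfl
  · rw [l1] at ht'
    unfold cStep
    nlinarith

theorem wp_stepP (hP : PmOK B N P C F gm lamM Em Um) (hl : lam ≤ lamM) {lb X β : ℝ}
    (hlb : ∀ y, N.Feas y → lb ≤ N.obj y) (hX1 : 1 ≤ X) (hgm : 2 * P.Lam * X ^ 2 / P.δ + 2 ≤ gm)
    (h : Inv N P gm C lam x) (hU : (x.top P).U = []) (hz : Zok N P x)
    (hX : XiS N P C lam lb x ≤ X) {a : ℕ} (ha : a < N.n)
    (hg : good P.kk ((x.top P).wt.get a) ((x.top P).G.get a))
    (hβ0 : 0 ≤ β) (hβ : 2 * β ≤ P.hh * P.Ns) :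
    wp B (stepP N P x a) (fun x' _ => Yp N P β x') 0 ≤ Yp N P β x + N.m := by
  have _ := hlb
  have _ := hX1
  have _ := hgm
  have _ := hX
  have hm := mvOK hP hl lb h hU hz ha hg
  have ht : LevOK N P gm lam x.sg.get (P.L + 1) (x.top P) := h.lev _ le_rfl
  have hd := (ht.wok a ha).2.trans hP.wd
  set w := (x.top P).wt.get a with hwd
  have hw : (0 : ℝ) < ww w := by exact_mod_cast hm.ww_pos
  have hh : (0 : ℝ) < P.hh := by
    have := hP.kk_pos
    have := hP.hh
    exact_mod_cast (by omega : 0 < P.hh)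
  rw [stepP, wp_bind, inum, wp_need, if_pos hm.fit, wp_ret, wp_bind]
  refine (wp_le_of_Tri (Tri_smpsP (ht.wok a ha).1 hd hm.ww_pos hP.rb2)
    (G := fun l _ => ∑ e ∈ range N.m, (1 + Real.exp (β * (zz N P x e + mass e w / (P.hh * ww w))) *
      if e ∈ l then 0 else 1)) ?_ 0 (∑ e ∈ range N.m, (1 +
        Real.exp (β * (zz N P x e + mass e w / (P.hh * ww w))) * 0))).trans ?_
  · rintro l t ⟨-, l2, -⟩
    refine wp_le_const_of_Tri (Tri_fresh (cn := true) (x := mv P x a) hP ht.tree hP.dm hm.pos l2)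
      ?_ 0
    rintro x' t' ⟨hf, -⟩
    refine sum_le_sum fun e he => ?_
    have he := mem_range.1 he
    rw [zz, ut, gR, hf.yR_eq, hf.sg]
    split_ifs with h1
    · simp [sigOf_eq hP.net hP.d_pos hm.pos he]
    · rw [mul_one]
      refine le_trans (Real.exp_le_exp.2 (mul_le_mul_of_nonneg_left ?_ hβ0))
        (le_add_of_nonneg_left zero_le_one)
      have a1 := hm.arc e he
      have a2 : 0 ≤ ut P x e := by unfold ut gR; positivity
      have a3 := mul_le_mul_of_nonneg_left (abs_sub_le (N.sl (yR N P (mv P x a)) e)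
        (N.sl (yR N P x) e) ((x.sg.get e : ℝ) / P.D)) a2
      change ut P x e * |N.sl (yR N P (mv P x a)) e - (x.sg.get e : ℝ) / P.D| ≤ _
      rw [zz]
      linarith
  · have e1 : (N.m : ℝ) = ∑ _e ∈ range N.m, (1 : ℝ) := by simp
    rw [wp_sum, Yp, add_comm, e1, ← sum_add_distrib]
    refine sum_le_sum fun e _ => ?_
    rw [wp_const_add, wp_mul_left]
    refine add_le_add le_rfl ((mul_le_mul_of_nonneg_left (wp_smpsP (ht.wok a ha).1 hd hm.ww_pos
      hP.rb2 (ht.ww_le hP ha) e) (Real.exp_pos _).le).trans ?_)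
    rw [← Real.exp_add, Real.exp_le_exp]
    have a1 : β * (mass e w / (P.hh * ww w)) ≤ P.Ns * (mass e w : ℝ) / (2 * ww w) := by
      rw [← mul_div_assoc, div_le_div_iff₀ (by positivity) (by positivity)]
      nlinarith [mul_le_mul_of_nonneg_right hβ (mul_nonneg (Nat.cast_nonneg (mass e w)) hw.le)]
    linarith

end Vale.Agent.P305F
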