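import Vale.Agent.P305F.Tree1

/-!
# Flow: the trees of hereditary hierarchies
-/

namespace Vale.Agent.P305F

open Vale.Agent.P305E Vale.Agent.P305S Finset

section hier
variable {cs : List (ℕ → ℕ)} {r x y : ℕ}

theorem Her.fix (h : Her cs) (v : ℕ) : ∀ c ∈ cs, c (labAll cs v) = labAll cs v := by
  simpa using h cs.length v

theorem Her.fix_pre {pre suf : List (ℕ → ℕ)} (h : Her (pre ++ suf)) (v : ℕ) :
    ∀ c ∈ pre, c (labAll pre v) = labAll pre v := by
  simpa using h pre.length v

theorem labAll_of_fix {v : ℕ} (h : ∀ c ∈ cs, c v = v) : labAll cs v = v := by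
  induction cs with
  | nil => rfl
  | cons c cs ih =>
    rw [labAll, h c (by simp)]
    exact ih fun d hd => h d (by simp [hd])

theorem parOf_append {pre : List (ℕ → ℕ)} (suf : List (ℕ → ℕ)) {v : ℕ} (h : ∀ c ∈ pre, c v = v) :
    parOf (pre ++ suf) r v = parOf suf r v := by
  induction pre with
  | nil => rfl
  | cons c pre ih =>
    rw [List.cons_append, parOf, if_pos (h c (by simp))]
    exact ih fun d hd => h d (by simp [hd])

/-- The number of maps at the beginning of the list that fix `v`. -/
def rk : List (ℕ → ℕ) → ℕ → ℕ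
  | [], _ => 0
  | c :: cs, v => if c v = v then rk cs v + 1 else 0

theorem rk_le (v : ℕ) : rk cs v ≤ cs.length := by
  induction cs with
  | nil => exact le_rfl
  | cons c cs ih =>
    unfold rk
    split_ifs <;> simp [ih]

theorem rk_append {pre : List (ℕ → ℕ)} (suf : List (ℕ → ℕ)) {v : ℕ} (h : ∀ c ∈ pre, c v = v) :
    rk (pre ++ suf) v = pre.length + rk suf v := by
  induction pre with
  | nil => simp
  | cons c pre ih =>
    rw [List.cons_append, rk, if_pos (h c (by simp)), ih fun d hd => h d (by simp [hd]),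
      List.length_cons]
    omega

theorem fix_or_split (cs : List (ℕ → ℕ)) (v : ℕ) : (∀ c ∈ cs, c v = v) ∨
    ∃ pre c suf, cs = pre ++ c :: suf ∧ (∀ d ∈ pre, d v = v) ∧ c v ≠ v := by
  induction cs with
  | nil => simp
  | cons c cs ih =>
    by_cases hc : c v = v
    · rcases ih with h | ⟨pre, d, suf, e, h1, h2⟩
      · exact Or.inl (by simpa [hc] using h)
      · exact Or.inr ⟨c :: pre, d, suf, by simp [e], by simpa [hc] using h1, h2⟩
    · exact Or.inr ⟨[], c, cs, rfl, by simp, hc⟩

theorem parOf_rk (her : Her cs) (v : ℕ) : parOf cs r v = r ∨ rk cs v < rk cs (parOf cs r v) := by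
  rcases fix_or_split cs v with h | ⟨pre, c, suf, rfl, h1, h2⟩
  · exact Or.inl (by simpa [parOf] using parOf_append (r := r) [] h)
  · right
    have e : pre ++ c :: suf = (pre ++ [c]) ++ suf := by simp
    have h3 : labAll (pre ++ [c]) v = c v := by rw [labAll_append, labAll_of_fix h1]; rfl
    have h4 := Her.fix_pre (e ▸ her) v
    rw [h3] at h4
    rw [parOf_append _ h1, parOf, if_neg h2, rk_append _ h1, rk, if_neg h2, e, rk_append _ h4,
      List.length_append]
    simp only [List.length_singleton]
    omega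

theorem newTree {n rt D : ℕ} {par : ℕ → ℕ} (hb : IsTree n rt par D) (A : List ℕ)
    (hA : ∀ a ∈ A, a < n) (hrt : rt ∈ A) (her : Her cs) (hc : ∀ c ∈ cs, ∀ v ∈ A, c v ∈ A) :
    IsTree n (labAll cs rt) (fun a => if a ∈ A then parOf cs (labAll cs rt) a else par a)
      (D + (cs.length + 1)) ∧ labAll cs rt ∈ A ∧ ∀ a ∈ A, parOf cs (labAll cs rt) a ∈ A := by
  have h1 : ∀ (l : List (ℕ → ℕ)), (∀ c ∈ l, ∀ v ∈ A, c v ∈ A) → ∀ v ∈ A, labAll l v ∈ A := by
    intro l
    induction l with
    | nil => exact fun _ _ h => h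
    | cons c l ih =>
      exact fun h v hv => ih (fun d hd => h d (by simp [hd])) _ (h c (by simp) v hv)
  have hr := h1 cs hc rt hrt
  have hf := her.fix rt
  generalize labAll cs rt = r at hr hf
  have h2 : ∀ (l : List (ℕ → ℕ)), (∀ c ∈ l, ∀ v ∈ A, c v ∈ A) → ∀ v ∈ A, parOf l r v ∈ A := by
    intro l
    induction l with
    | nil => exact fun _ _ _ => hr
    | cons c l ih =>
      intro h v hv
      unfold parOf
      split_ifs
      · exact ih (fun d hd => h d (by simp [hd])) v hv
      · exact h c (by simp) v hv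
  obtain ⟨g, g1, g2⟩ := hb.ht
  refine ⟨⟨hA r hr, ?_, fun v hv => ?_, fun v => if v ∈ A then
    (if v = r then 0 else cs.length - rk cs v + 1) else g v + cs.length + 1,
    fun v hv => ?_, fun v hv hvr => ?_⟩, hr, h2 cs hc⟩
  · simpa [hr, parOf] using parOf_append (r := r) [] hf
  · split_ifs with h
    · exact hA _ (h2 cs hc v h)
    · exact hb.par_lt v hv
  · have := g1 v hv
    beta_reduce
    split_ifs <;> omega
  · beta_reduce
    by_cases h : v ∈ A
    · have a1 := parOf_rk (r := r) her v
      have a2 := rk_le (cs := cs) (parOf cs r v)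
      rw [if_pos h, if_pos h, if_pos (h2 cs hc v h), if_neg hvr]
      split_ifs <;> omega
    · have := g2 v hv fun e => h (e ▸ hrt)
      rw [if_neg h, if_neg h]
      split_ifs <;> omega

theorem ent_acc (p : Prop) [Decidable p] (a : ℕ) (s : Bool) (acc : List (ℕ × Bool)) :
    ent p a s acc = ent p a s [] ++ acc := by
  unfold ent
  split_ifs <;> rfl

theorem sdA_acc (acc : List (ℕ × Bool)) : sdA r cs x y acc = sdA r cs x y [] ++ acc := by
  induction cs generalizing x y acc with
  | nil =>
    unfold sdA
    split_ifs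
    · rfl
    · rw [ent_acc, ent_acc _ y, ent_acc _ x _ (ent _ _ _ _), List.append_assoc]
  | cons c cs ih =>
    unfold sdA
    split_ifs
    · rfl
    · rw [ih, ih (ent _ _ _ (ent _ _ _ [])), ent_acc, ent_acc _ y, ent_acc _ x _ (ent _ _ _ []),
        List.append_assoc, List.append_assoc]

theorem sdA_nil_ne (h : x ≠ y) :
    sdA r [] x y [] = ent (x = r) x true [] ++ ent (y = r) y false [] := by
  rw [sdA, if_neg h, ent_acc]

theorem sdA_cons_ne {c : ℕ → ℕ} (h : x ≠ y) : sdA r (c :: cs) x y [] =
    sdA r cs (c x) (c y) [] ++ (ent (c x = x) x true [] ++ ent (c y = y) y false []) := by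
  rw [sdA, if_neg h, sdA_acc, ent_acc]

theorem sdA_self : sdA r cs x x [] = [] := by
  cases cs <;> simp [sdA]

theorem mem_ent {p : Prop} [Decidable p] {a : ℕ} {s : Bool} {q : ℕ × Bool}
    (h : q ∈ ent p a s []) : ¬ p ∧ q = (a, s) := by
  unfold ent at h
  split_ifs at h with hp
  · simp at h
  · exact ⟨hp, by simpa using h⟩

theorem sdA_mem {A : List ℕ} (hc : ∀ c ∈ cs, ∀ v ∈ A, c v ∈ A) (hr : ∀ c ∈ cs, c r = r)
    (hx : x ∈ A) (hy : y ∈ A) : ∀ p ∈ sdA r cs x y [], p.1 ∈ A ∧ p.1 ≠ r := by
  induction cs generalizing x y with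
  | nil =>
    intro p hp
    by_cases h : x = y
    · simp [h, sdA_self] at hp
    · rw [sdA_nil_ne h, List.mem_append] at hp
      rcases hp with hp | hp <;> obtain ⟨h1, rfl⟩ := mem_ent hp
      exacts [⟨hx, h1⟩, ⟨hy, h1⟩]
  | cons c cs ih =>
    intro p hp
    by_cases h : x = y
    · simp [h, sdA_self] at hp
    · rw [sdA_cons_ne h, List.mem_append, List.mem_append] at hp
      have h0 := hr c (by simp)
      rcases hp with hp | hp | hp
      · exact ih (fun d hd => hc d (by simp [hd])) (fun d hd => hr d (by simp [hd]))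
          (hc c (by simp) x hx) (hc c (by simp) y hy) p hp
      · obtain ⟨h1, rfl⟩ := mem_ent hp
        exact ⟨hx, fun e => h1 (by rw [show x = r from e, h0])⟩
      · obtain ⟨h1, rfl⟩ := mem_ent hp
        exact ⟨hy, fun e => h1 (by rw [show y = r from e, h0])⟩

theorem ent_length (p : Prop) [Decidable p] (a : ℕ) (s : Bool) : (ent p a s []).length ≤ 1 := by
  unfold ent
  split_ifs <;> simp

theorem sdA_length : (sdA r cs x y []).length ≤ 2 * (cs.length + 1) := by
  induction cs generalizing x y with
  | nil =>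
    by_cases h : x = y
    · simp [h, sdA_self]
    · have := ent_length (x = r) x true
      have := ent_length (y = r) y false
      rw [sdA_nil_ne h, List.length_append]
      omega
  | cons c cs ih =>
    by_cases h : x = y
    · simp [h, sdA_self]
    · have := ent_length (c x = x) x true
      have := ent_length (c y = y) y false
      have := ih (x := c x) (y := c y)
      rw [sdA_cons_ne h, List.length_append, List.length_append, List.length_cons]
      omega

/-- A sum over the tree edges between two vertices, level by level. -/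
noncomputable def lvl (r : ℕ) (f : ℕ → ℕ → Bool → ℝ) : List (ℕ → ℕ) → ℕ → ℕ → ℝ
  | [], x, y => if x = y then 0 else f x r true + f y r false
  | c :: cs, x, y => if x = y then 0 else
      lvl r f cs (c x) (c y) + (f x (c x) true + f y (c y) false)

theorem sdA_lvl (her : Her cs) (f : ℕ → ℕ → Bool → ℝ) (hf : ∀ a s, f a a s = 0) :
    ((sdA r cs x y []).map fun p => f p.1 (parOf cs r p.1) p.2).sum = lvl r f cs x y := by
  have he : ∀ (a b : ℕ) (s : Bool) (p : Prop) [Decidable p], (p → b = a) →
      (¬ p → parOf cs r a = b) →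
      ((ent p a s []).map fun p => f p.1 (parOf cs r p.1) p.2).sum = f a b s := by
    intro a b s p _ h1 h2
    unfold ent
    split_ifs with hp
    · simp [h1 hp, hf]
    · simp [h2 hp]
  have key : ∀ suf pre, cs = pre ++ suf → ∀ x y,
      ((sdA r suf (labAll pre x) (labAll pre y) []).map
        fun p => f p.1 (parOf cs r p.1) p.2).sum = lvl r f suf (labAll pre x) (labAll pre y) := by
    intro suf
    induction suf with
    | nil =>
      intro pre e x y
      have hp : ∀ v, parOf cs r (labAll pre v) = r := fun v => by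
        rw [e]; exact parOf_append [] (Her.fix_pre (e ▸ her) v)
      unfold lvl
      split_ifs with h
      · simp [h, sdA_self]
      · rw [sdA_nil_ne h, List.map_append, List.sum_append,
          he _ r _ _ (fun h => h.symm) fun _ => hp x, he _ r _ _ (fun h => h.symm) fun _ => hp y]
    | cons c suf ih =>
      intro pre e x y
      have hp : ∀ v, c (labAll pre v) ≠ labAll pre v →
          parOf cs r (labAll pre v) = c (labAll pre v) := fun v hv => by
        rw [e, parOf_append _ (Her.fix_pre (e ▸ her) v), parOf, if_neg hv]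
      have hl : ∀ v, labAll (pre ++ [c]) v = c (labAll pre v) := fun v => labAll_append _ _ _
      have := ih (pre ++ [c]) (by simp [e]) x y
      rw [hl, hl] at this
      unfold lvl
      split_ifs with h
      · simp [h, sdA_self]
      · rw [sdA_cons_ne h, List.map_append, List.sum_append, List.map_append, List.sum_append,
          this, he _ _ _ _ (fun h => h) (hp x), he _ _ _ _ (fun h => h) (hp y)]
  exact key cs [] rfl x y

theorem sdA_sum (her : Her cs) (ψ : ℕ → ℝ) :
    ((sdA r cs x y []).map fun p =>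
      (if p.2 = true then (1 : ℝ) else -1) * (ψ p.1 - ψ (parOf cs r p.1))).sum = ψ x - ψ y := by
  rw [sdA_lvl her (fun a b s => (if s = true then (1 : ℝ) else -1) * (ψ a - ψ b)) (by simp)]
  clear her
  induction cs generalizing x y with
  | nil =>
    unfold lvl
    by_cases h : x = y <;> simp [h]
  | cons c cs ih =>
    unfold lvl
    by_cases h : x = y
    · simp [h]
    · rw [if_neg h, ih]
      simp
      ring

theorem sdA_abs_ge (her : Her cs) (ψ : ℕ → ℝ) :
    |ψ x - ψ y| ≤ ((sdA r cs x y []).map fun p => |ψ p.1 - ψ (parOf cs r p.1)|).sum := by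
  rw [← sdA_sum (r := r) her ψ]
  generalize sdA r cs x y [] = l
  induction l with
  | nil => simp
  | cons p l ih =>
    simp only [List.map_cons, List.sum_cons]
    refine (abs_add_le _ _).trans (add_le_add (le_of_eq ?_) ih)
    split_ifs <;> simp [abs_sub_comm]

theorem sdA_le_TN (her : Her cs) {ψ : ℕ → ℝ} {Osc : ℝ} (hψ : ∀ a b, |ψ a - ψ b| ≤ Osc)
    (E : List Edge) :
    wsum E (fun x y => ((sdA r cs x y []).map fun p => |ψ p.1 - ψ (parOf cs r p.1)|).sum) ≤
      TN Osc ψ cs E := by
  simp only [sdA_lvl her (fun a b _ => |ψ a - ψ b|) (by simp)]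
  clear her
  induction cs generalizing E with
  | nil =>
    simp only [TN, FN, contractAll, zero_add, lev]
    refine wsum_le fun e _ => ?_
    unfold lvl
    split_ifs
    · exact le_rfl
    · exact add_le_add (hψ _ _) (hψ _ _)
  | cons c cs ih =>
    have h1 := ih (contract c E)
    have h2 : TN Osc ψ (c :: cs) E =
        TN Osc ψ cs (contract c E) + lev E fun a => |ψ a - ψ (c a)| := by
      simp only [TN, FN, contractAll]
      ring
    rw [h2]
    refine le_trans ?_ (add_le_add_left h1 _)
    rw [wsum_contract, lev, ← wsum_add]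
    refine wsum_le fun e _ => ?_
    rw [lvl]
    split_ifs with h
    · rw [h]
      cases cs <;> simp [lvl]
    · exact le_rfl

end hier

@[fun_prop] theorem pure_relab {α : Type} [Rep α] {A : α → Arr ℕ} {v : α → ℕ} (hA : Pure A)
    (hv : Pure v) : Pure fun a => relab (A a) (v a) := by
  unfold relab
  fun_prop

@[fun_prop] theorem impl_labP : Impl fun p : List (Arr ℕ) × ℕ => labP p.1 p.2 := by
  have h : Impl fun p : List (Arr ℕ) × ℕ => foldP (fun v A => relab A v) p.2 p.1 := by fun_prop
  refine h.of_eq fun ⟨cs, v⟩ => ?_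
  simp only [foldP, labP]
  congr 1
  induction cs generalizing v with
  | nil => rfl
  | cons c cs ih => exact ih _

@[fun_prop] theorem impl_parP :
    Impl fun p : List (Arr ℕ) × ℕ × ℕ => parP p.1 p.2.1 p.2.2 := by
  have h : Impl fun p : List (Arr ℕ) × ℕ × ℕ =>
      foldP (fun u A => if u = p.2.2 then relab A p.2.2 else u) p.2.2 p.1 >>= fun u =>
      pure (if u = p.2.2 then p.2.1 else u) := by fun_prop
  refine h.of_pay 2 fun B ⟨cs, r, v⟩ _ _ hR => ?_
  clear hR
  simp only [Tri_bind, Tri_foldP, Tri_pure]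
  refine ⟨?_, lg_slack _ 1 _ _ (by omega)⟩
  have h1 : ∀ (l : List (Arr ℕ)) u, u ≠ v →
      l.foldl (fun u A => if u = v then relab A v else u) u = u := by
    intro l u hu
    induction l with
    | nil => rfl
    | cons c l ih => rw [List.foldl_cons, if_neg hu, ih]
  induction cs with
  | nil => simp [hier, parOf]
  | cons c cs ih =>
    rw [List.foldl_cons, if_pos rfl, hier, List.map_cons, parOf]
    by_cases hc : relab c v = v
    · rw [if_pos hc, hc]
      exact ih
    · rw [if_neg hc, h1 _ _ hc, if_neg hc]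

@[fun_prop] theorem impl_sdP :
    Impl fun p : List (Arr ℕ) × ℕ × ℕ × ℕ => sdP p.1 p.2.1 p.2.2.1 p.2.2.2 := by
  have h : Impl fun p : List (Arr ℕ) × ℕ × ℕ × ℕ =>
      foldP (fun (s : ℕ × ℕ × List (ℕ × Bool)) A => if s.1 = s.2.1 then s else
        (relab A s.1, relab A s.2.1, ent (relab A s.1 = s.1) s.1 true
          (ent (relab A s.2.1 = s.2.1) s.2.1 false s.2.2))) (p.2.2.1, p.2.2.2, []) p.1 >>= fun s =>
      pure (if s.1 = s.2.1 then s.2.2 else
        ent (s.1 = p.2.1) s.1 true (ent (s.2.1 = p.2.1) s.2.1 false s.2.2)) := by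
    unfold ent
    fun_prop
  refine h.of_pay 2 fun B ⟨cs, r, x, y⟩ _ _ hR => ?_
  clear hR
  simp only [Tri_bind, Tri_foldP, Tri_pure]
  refine ⟨?_, lg_slack _ 1 _ _ (by omega)⟩
  generalize ([] : List (ℕ × Bool)) = acc
  induction cs generalizing x y acc with
  | nil => rfl
  | cons c cs ih =>
    rw [List.foldl_cons, hier, List.map_cons, sdA]
    by_cases hxy : x = y
    · rw [if_pos hxy, if_pos hxy, ih, hxy]
      cases cs <;> simp [hier, sdA]
    · rw [if_neg hxy, if_neg hxy]
      exact ih _ _ _

end Vale.Agent.P305F
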