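import Vale.Agent.P305F.Spec

/-!
# Flow: rooted trees, and the programs that walk in them
-/

namespace Vale.Agent.P305F

open Vale.Agent.P305E Vale.Agent.P305S Finset

section trees
variable {n rt D k : ℕ} {par : ℕ → ℕ}

theorem IsTree.mono {D' : ℕ} (h : IsTree n rt par D) (hD : D ≤ D') : IsTree n rt par D' :=
  let ⟨g, h1, h2⟩ := h.ht
  ⟨h.rt_lt, h.par_rt, h.par_lt, g, fun v hv => (h1 v hv).trans hD, h2⟩

theorem IsTree.induct (h : IsTree n rt par D) {p : ℕ → Prop} (h0 : p rt)
    (hs : ∀ v < n, v ≠ rt → p (par v) → p v) : ∀ v < n, p v := by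
  obtain ⟨g, -, h2⟩ := h.ht
  have : ∀ d v, g v < d → v < n → p v := by
    intro d
    induction d with
    | zero => intro v hv; omega
    | succ d ih =>
      intro v hd hv
      by_cases hr : v = rt
      · exact hr ▸ h0
      · exact hs v hv hr (ih _ (by have := h2 v hv hr; omega) (h.par_lt v hv))
  exact fun v hv => this (g v + 1) v (by omega) hv

theorem pathL_rt : pathL par rt k rt = [] := by
  cases k <;> simp [pathL]

theorem pathL_length (v : ℕ) : (pathL par rt k v).length ≤ k := by
  induction k generalizing v with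
  | zero => simp [pathL]
  | succ k ih =>
    unfold pathL
    split_ifs
    · simp
    · simpa using ih (par v)

theorem IsTree.path_eq (h : IsTree n rt par D) (hk : D ≤ k) {v : ℕ} (hv : v < n) (hne : v ≠ rt) :
    pathL par rt k v = v :: pathL par rt k (par v) := by
  obtain ⟨g, h1, h2⟩ := h.ht
  have key : ∀ a b w, w < n → g w ≤ a → g w ≤ b → pathL par rt a w = pathL par rt b w := by
    intro a
    induction a with
    | zero =>
      intro b w hw ha _
      have : w = rt := by
        by_contra hr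
        have := h2 w hw hr
        omega
      rw [this, pathL_rt, pathL_rt]
    | succ a ih =>
      intro b w hw ha hb
      by_cases hr : w = rt
      · rw [hr, pathL_rt, pathL_rt]
      · have := h2 w hw hr
        obtain ⟨b, rfl⟩ : ∃ b', b = b' + 1 := ⟨b - 1, by omega⟩
        simp only [pathL, if_neg hr]
        rw [ih b _ (h.par_lt w hw) (by omega) (by omega)]
  have a1 := h1 v hv
  have a2 := h2 v hv hne
  obtain ⟨k, rfl⟩ : ∃ k', k = k' + 1 := ⟨k - 1, by omega⟩
  rw [← key k (k + 1) _ (h.par_lt v hv) (by omega) (by omega), pathL, if_neg hne]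

theorem IsTree.path_sum {A : Type} [AddCommGroup A] (h : IsTree n rt par D) (hk : D ≤ k)
    (ψ : ℕ → A) {v : ℕ} (hv : v < n) :
    ((pathL par rt k v).map fun a => ψ a - ψ (par a)).sum = ψ v - ψ rt := by
  refine h.induct (p := fun v =>
    ((pathL par rt k v).map fun a => ψ a - ψ (par a)).sum = ψ v - ψ rt) ?_ ?_ v hv
  · simp [pathL_rt]
  · intro w hw hr ih
    rw [h.path_eq hk hw hr, List.map_cons, List.sum_cons, ih]
    abel

theorem IsTree.iter_lt (h : IsTree n rt par D) {v : ℕ} (hv : v < n) (j : ℕ) : par^[j] v < n := by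
  induction j with
  | zero => exact hv
  | succ j ih => rw [Function.iterate_succ_apply']; exact h.par_lt _ ih

theorem IsTree.iter_rt (h : IsTree n rt par D) {v : ℕ} (hv : v < n) : ∃ j, par^[j] v = rt :=
  h.induct (p := fun v => ∃ j, par^[j] v = rt) ⟨0, rfl⟩ (fun _ _ _ ⟨j, hj⟩ => ⟨j + 1, hj⟩) v hv

theorem IsTree.mem_path (h : IsTree n rt par D) (hk : D ≤ k) {v : ℕ} (hv : v < n) (a : ℕ) :
    a ∈ pathL par rt k v ↔ a ≠ rt ∧ ∃ j, par^[j] v = a := by
  refine h.induct (p := fun v => a ∈ pathL par rt k v ↔ a ≠ rt ∧ ∃ j, par^[j] v = a) ?_ ?_ v hv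
  · simp only [pathL_rt, List.not_mem_nil, false_iff, not_and, not_exists]
    intro ha j hj
    exact ha (by rw [← hj, Function.iterate_fixed h.par_rt])
  · intro w hw hr ih
    rw [h.path_eq hk hw hr, List.mem_cons, ih]
    constructor
    · rintro (rfl | ⟨h1, j, hj⟩)
      · exact ⟨hr, 0, rfl⟩
      · exact ⟨h1, j + 1, hj⟩
    · rintro ⟨h1, _ | j, hj⟩
      · exact Or.inl hj.symm
      · exact Or.inr ⟨h1, j, hj⟩

theorem IsTree.path_nodup (h : IsTree n rt par D) (hk : D ≤ k) {v : ℕ} (hv : v < n) :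
    (pathL par rt k v).Nodup := by
  obtain ⟨g, -, h2⟩ := h.ht
  have key : ∀ j w, w < n → g (par^[j] w) ≤ g w := by
    intro j w hw
    induction j with
    | zero => exact le_rfl
    | succ j ih =>
      rw [Function.iterate_succ_apply']
      by_cases hr : par^[j] w = rt
      · rw [hr, h.par_rt, ← hr]; exact ih
      · exact (h2 _ (h.iter_lt hw j) hr).le.trans ih
  refine h.induct (p := fun v => (pathL par rt k v).Nodup) (by simp [pathL_rt]) ?_ v hv
  intro w hw hr ih
  rw [h.path_eq hk hw hr, List.nodup_cons]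
  refine ⟨fun hm => ?_, ih⟩
  obtain ⟨-, j, hj⟩ := (h.mem_path hk (h.par_lt w hw) w).1 hm
  have a1 := key j _ (h.par_lt w hw)
  have a2 := h2 w hw hr
  rw [hj] at a1
  omega

theorem IsTree.rp_yof (h : IsTree n rt par D) (hk : D ≤ k) (off : ℕ → ℤ) :
    Rp n rt par off (yof par rt k off) := fun v hv hr => by
  simp [yof, h.path_eq hk hv hr]

theorem IsTree.yof_eq (h : IsTree n rt par D) (hk : D ≤ k) {off Y : ℕ → ℤ}
    (hR : Rp n rt par off Y) {v : ℕ} (hv : v < n) : yof par rt k off v = Y v - Y rt := by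
  refine h.induct (p := fun v => yof par rt k off v = Y v - Y rt) (by simp [yof, pathL_rt]) ?_ v hv
  intro w hw hr ih
  have := h.rp_yof hk off w hw hr
  have := hR w hw hr
  omega

theorem IsTree.ind_par (h : IsTree n rt par D) (hk : D ≤ k) {a v : ℕ} (ha : a ≠ rt) (hv : v < n) :
    ind par rt k a v - ind par rt k a (par v) = if v = a then 1 else 0 := by
  by_cases hr : v = rt
  · rw [hr, h.par_rt, if_neg ha.symm, sub_self]
  · have h1 := h.path_nodup hk hv
    unfold ind
    rw [h.path_eq hk hv hr] at h1 ⊢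
    by_cases hva : v = a
    · subst hva
      simp [(List.nodup_cons.1 h1).1]
    · simp [hva, Ne.symm hva]

end trees

@[fun_prop] theorem impl_pathP :
    Impl fun p : ℕ × Arr ℕ × ℕ × ℕ => pathP p.1 p.2.1 p.2.2.1 p.2.2.2 := by
  have h : Impl fun p : ℕ × Arr ℕ × ℕ × ℕ => iterM (fun (s : ℕ × List ℕ) _ =>
      pure (if s.1 = p.2.2.1 then s else (p.2.1.get s.1, s.1 :: s.2))) (p.2.2.2, []) p.1 >>=
      fun s => revP s.2 := by fun_prop
  refine h.of_pay 3 fun B ⟨k, par, rt, v⟩ _ _ _ => ?_
  refine (Tri.iterM (fun i s t => s.2.reverse ++ pathL par.get rt (k - i) s.1 =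
    pathL par.get rt k v ∧ s.2.length ≤ i ∧ t = i) (by simp) ?_).bind ?_
  · rintro t ⟨w, acc⟩ t' hi ⟨h1, h2, h3⟩
    subst t'
    simp only [Tri_pure] at h1 h2 hi ⊢
    split_ifs with hr
    · rw [hr, pathL_rt] at h1 ⊢
      exact ⟨h1, by simp only; omega, trivial⟩
    · rw [show k - t = (k - (t + 1)) + 1 by omega, pathL, if_neg hr] at h1
      exact ⟨by simpa using h1, by simpa using h2, trivial⟩
  · rintro ⟨w, acc⟩ _ ⟨h1, h2, rfl⟩
    simp only [Nat.sub_self, pathL, List.append_nil] at h1 h2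
    simp only [Tri_revP]
    exact ⟨h1, lg_slack _ 2 _ _ (by omega)⟩

theorem Tri_yvalP {c : Cx} {n rt D k v : ℕ} {par : Arr ℕ} {off : Arr ℤ} {Y : ℕ → ℤ}
    (h : IsTree n rt par.get D) (hk : D ≤ k) (hR : Rp n rt par.get off.get Y)
    (hY : ∀ u < n, ∀ w < n, (Y u - Y w).natAbs ≤ c.B) (hv : v < n) :
    Tri c (yvalP k par rt off v) fun z t => z = Y v - Y rt ∧ t ≤ 2 * k := by
  have key := h.induct (p := fun w => Tri c (foldM (fun s a => inum (s + off.get a)) (Y v - Y w)
      (pathL par.get rt k w)) fun z t => z = Y v - Y rt ∧ t = (pathL par.get rt k w).length)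
    (by simp [pathL_rt, foldM]) (fun w hw hr ih => by
      have e : Y v - Y w + off.get w = Y v - Y (par.get w) := by rw [hR w hw hr]; ring
      rw [h.path_eq hk hw hr, foldM]
      simp only [Tri_bind, Tri_inum, Tri_tick, e]
      exact ⟨hY v hv _ (h.par_lt w hw), ih.mono fun z t hz => ⟨hz.1, by simp [hz.2]⟩⟩) v hv
  rw [sub_self] at key
  simp only [yvalP, pathP, Tri_bind, Tri_pay]
  exact key.mono fun z t hz => ⟨hz.1, by have := pathL_length (par := par.get) (rt := rt) (k := k) v
                                         omega⟩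

theorem Tri_dedupP {c : Cx} (l : List ℕ) : Tri c (dedupP l) fun l' t =>
    l'.Nodup ∧ (∀ a, a ∈ l' ↔ a ∈ l) ∧ l'.length ≤ l.length ∧ t = l.length := by
  have key : ∀ (l : List ℕ) (s : Arr Bool × List ℕ), s.2.Nodup →
      (∀ a, s.1.get a = true ↔ a ∈ s.2) →
      (l.foldl (fun (s : Arr Bool × List ℕ) x =>
        if s.1.get x = true then s else (s.1.set x true, x :: s.2)) s).2.Nodup ∧
      (∀ a, a ∈ (l.foldl (fun (s : Arr Bool × List ℕ) x =>
        if s.1.get x = true then s else (s.1.set x true, x :: s.2)) s).2 ↔ a ∈ s.2 ∨ a ∈ l) ∧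
      (l.foldl (fun (s : Arr Bool × List ℕ) x =>
        if s.1.get x = true then s else (s.1.set x true, x :: s.2)) s).2.length ≤
        s.2.length + l.length := by
    intro l
    induction l with
    | nil => intro s h1 _; simpa using h1
    | cons x l ih =>
      intro s h1 h2
      rw [List.foldl_cons]
      by_cases hx : s.1.get x = true
      · rw [if_pos hx]
        obtain ⟨a1, a2, a3⟩ := ih s h1 h2
        refine ⟨a1, fun a => ?_, by simp only [List.length_cons]; omega⟩
        rw [a2, List.mem_cons]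
        have := (h2 x).1 hx
        constructor
        · tauto
        · rintro (h | rfl | h) <;> tauto
      · rw [if_neg hx]
        obtain ⟨a1, a2, a3⟩ := ih (s.1.set x true, x :: s.2)
          (List.nodup_cons.2 ⟨fun h => hx ((h2 x).2 h), h1⟩) fun a => by
            by_cases ha : a = x
            · simp [ha]
            · simp [ha, h2]
        refine ⟨a1, fun a => ?_, by simp only [List.length_cons] at a3 ⊢; omega⟩
        rw [a2, List.mem_cons, List.mem_cons]
        tauto
  have := key l (Arr.const false, []) (by simp) (by simp)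
  simp only [dedupP, Tri_bind, Tri_foldP, Tri_pure]
  exact ⟨this.1, by simpa using this.2.1, by simpa using this.2.2, rfl⟩

theorem eq_map_of_forall₂ {α β : Type} {g : α → β} {l : List α} {l' : List β}
    (h : List.Forall₂ (fun x y => y = g x) l l') : l' = l.map g := by
  induction h with
  | nil => rfl
  | cons h _ ih => rw [h, ih, List.map_cons]

theorem Tri_ancP {c : Cx} {N : Net} {P : Pm} {C F D : ℕ} {b : Lev} {U : List ℕ} (hN : N.OK C F)
    (h : IsTree N.n b.rt b.par.get D) (hD : D ≤ P.Dm) (hU : ∀ e, e ∈ U ↔ e ∈ b.U)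
    (hlt : ∀ e ∈ U, e < N.m) :
    Tri c (ancP N P b U) fun A t => A.Nodup ∧ (∀ a, a ∈ A ↔ InA N b a) ∧
      A.length ≤ 2 * P.Dm * U.length + 1 ∧ t ≤ (7 * P.Dm + 3) * U.length + 1 := by
  refine (Tri.mapM' (P := fun e y => y = pathL b.par.get b.rt P.Dm (N.hd.get e) ++
    pathL b.par.get b.rt P.Dm (N.tl.get e)) (T := fun _ => 3 * P.Dm) fun e _ => ?_).bind ?_
  · have := pathL_length (par := b.par.get) (rt := b.rt) (k := P.Dm) (N.hd.get e)
    simp only [pathP, Tri_bind, Tri_pay, Tri_appendP, true_and]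
    omega
  · rintro ps t ⟨h1, h2⟩
    obtain rfl := eq_map_of_forall₂ h1
    have h3 : (U.map fun e => pathL b.par.get b.rt P.Dm (N.hd.get e) ++
        pathL b.par.get b.rt P.Dm (N.tl.get e)).flatten.length ≤ 2 * P.Dm * U.length := by
      rw [List.length_flatten, List.map_map]
      refine (List.sum_le_card_nsmul _ (2 * P.Dm) ?_).trans (by simp [mul_comm])
      simp only [List.mem_map, Function.comp]
      rintro _ ⟨e, -, rfl⟩
      have := pathL_length (par := b.par.get) (rt := b.rt) (k := P.Dm) (N.hd.get e)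
      have := pathL_length (par := b.par.get) (rt := b.rt) (k := P.Dm) (N.tl.get e)
      rw [List.length_append]
      omega
    simp only [Tri_bind, Tri_flattenP]
    refine (Tri_dedupP _).mono ?_
    rintro A _ ⟨a1, a2, a3, rfl⟩
    simp only [List.map_const', List.sum_replicate, smul_eq_mul, List.length_cons,
      List.length_map] at h2 a3 ⊢
    refine ⟨a1, fun a => ?_, by omega, by nlinarith⟩
    rw [a2, List.mem_cons, List.mem_flatten]
    simp only [List.mem_map]
    constructor
    · rintro (rfl | ⟨_, ⟨e, he, rfl⟩, ha⟩)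
      · exact ⟨_, 0, Or.inl rfl, rfl⟩
      · rcases List.mem_append.1 ha with ha | ha
        · obtain ⟨-, j, hj⟩ := (h.mem_path hD (hN.hd_lt e (hlt e he)) a).1 ha
          exact ⟨_, j, Or.inr ⟨e, (hU e).1 he, Or.inl rfl⟩, hj⟩
        · obtain ⟨-, j, hj⟩ := (h.mem_path hD (hN.tl_lt e (hlt e he)) a).1 ha
          exact ⟨_, j, Or.inr ⟨e, (hU e).1 he, Or.inr rfl⟩, hj⟩
    · rintro ⟨x, j, hx, hj⟩
      by_cases hr : a = b.rt
      · exact Or.inl hr
      rcases hx with rfl | ⟨e, he, hx⟩
      · exact absurd (by rw [← hj, Function.iterate_fixed h.par_rt]) hr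
      · have he' := (hU e).2 he
        refine Or.inr ⟨_, ⟨e, he', rfl⟩, List.mem_append.2 ?_⟩
        rcases hx with rfl | rfl
        · exact Or.inl ((h.mem_path hD (hN.hd_lt e (hlt e he')) a).2 ⟨hr, j, hj⟩)
        · exact Or.inr ((h.mem_path hD (hN.tl_lt e (hlt e he')) a).2 ⟨hr, j, hj⟩)

end Vale.Agent.P305F
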